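import Vale.Agent.P273.C1.Defs

/-!
Block AB: in codegree one every decorated graph is a combination of graphs of kinds A and B.
-/

noncomputable section
namespace Vale.Agent.P273.C1
open Sum Vale.Agent.P273 Vale.Agent.P273.Alg
open scoped Classical

variable {V E L : Type}

namespace ABp

/-- in codegree one exactly one vertex has deficit one -/
lemma defect_one [Finite L] {g : ℕ} {G : Gr V E L} (hG : G.Valid g)
    (hdeg : G.deg + 4 = 3 * g + Nat.card L) :
    ∃ v1, G.degAt v1 + 4 = 3 * (G.dec v1).1 + G.nv v1 ∧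
      ∀ v, v ≠ v1 → G.degAt v + 3 = 3 * (G.dec v).1 + G.nv v := by
  have hV : Finite V := hG.1
  have hE : Finite E := hG.2.1
  have := Fintype.ofFinite V
  have hle : ∀ v, G.degAt v + 3 ≤ 3 * (G.dec v).1 + G.nv v := by
    intro v
    rw [degAt_eq]
    exact hG.2.2.2 v
  have hgen := hG.2.2.1.2.2.1
  rw [finsum_eq_sum_of_fintype, Nat.card_eq_fintype_card (α := V)] at hgen
  have h1 := sum_degAt G
  have h2 := sum_nv G
  have h3 : ∑ v, (G.degAt v + 3) + 1 = ∑ v, (3 * (G.dec v).1 + G.nv v) := by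
    rw [Finset.sum_add_distrib, Finset.sum_add_distrib, ← Finset.mul_sum, h2, Finset.sum_const,
      Finset.card_univ, smul_eq_mul]
    omega
  have h4 : ∑ v, (3 * (G.dec v).1 + G.nv v - (G.degAt v + 3)) = 1 := by
    have h5 : ∑ v, (3 * (G.dec v).1 + G.nv v) =
        ∑ v, (G.degAt v + 3) + ∑ v, (3 * (G.dec v).1 + G.nv v - (G.degAt v + 3)) := by
      rw [← Finset.sum_add_distrib]
      apply Finset.sum_congr rfl
      intro v _
      have := hle v
      omega
    omega
  obtain ⟨v1, hv1⟩ : ∃ v1, 3 * (G.dec v1).1 + G.nv v1 - (G.degAt v1 + 3) ≠ 0 := by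
    by_contra hcon
    push Not at hcon
    rw [Finset.sum_eq_zero (fun x _ => hcon x)] at h4
    exact absurd h4 (by norm_num)
  have h6 := Finset.add_sum_erase Finset.univ
    (fun v => 3 * (G.dec v).1 + G.nv v - (G.degAt v + 3)) (Finset.mem_univ v1)
  rw [h4] at h6
  refine ⟨v1, ?_, ?_⟩
  · have := hle v1
    omega
  · intro v hv
    have h7 : ∑ x ∈ Finset.univ.erase v1, (3 * (G.dec x).1 + G.nv x - (G.degAt x + 3)) = 0 := by
      omega
    have h8 := (Finset.sum_eq_zero_iff.mp h7) v (Finset.mem_erase.mpr ⟨hv, Finset.mem_univ v⟩)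
    have := hle v
    omega

/-- Vertices of type (1, 2) in degree 1 and (2, 0) in degree 2. -/
theorem vv2 (h1 : AB1) (h2 : AB2) [Finite V] [Finite E] [Finite L] {g : ℕ} {lam : F L →ₗ[ℚ] ℚ}
    (hlam : ∀ x, P g x → lam x = 0) (G : Gr V E L) (v : V)
    (hst : 2 < 2 * (G.dec v).1 + G.nv v)
    (IH : ∀ (V' E' : Type) (G' : Gr V' E' L), Finite V' → Finite E' → G'.deg = G.deg →
      Nat.card E < Nat.card E' → lam (dl G' 1) = 0)
    (hD : ((G.dec v).1 = 1 ∧ G.nv v = 2 ∧ G.degAt v = 1) ∨
      ((G.dec v).1 = 2 ∧ G.nv v = 0 ∧ G.degAt v = 2)) : lam (dl G 1) = 0 := by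
  have := Fintype.ofFinite (G.Fl v)
  have hFun := PhiV_Fun hlam G v (G.degAt v)
  have hRel := PhiV_RelM hlam G v hst IH
  have hG : lam (dl G 1) = PhiV lam G v (G.degAt v) (fun f => (G.hf f.1).2)
      (MvPolynomial.monomial (Multiset.toFinsupp (G.dec v).2) 1) := by
    rw [PhiV_monomial, if_pos, Multiset.toFinsupp_toMultiset, G.star_self]
    rw [weight_toFinsupp, Gr.degAt, finsum_eq_sum_of_fintype, add_comm]
  rw [hG]
  rcases hD with ⟨e1, e2, e3⟩ | ⟨e1, e2, e3⟩
  · have hcard : Fintype.card (G.Fl v) = 2 := by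
      rw [← Nat.card_eq_fintype_card]; exact e2
    have e4 : (2 * ((G.dec v).1 : ℚ) - 2 + G.nv v) = 2 := by
      rw [e1, e2]; norm_num
    rw [e4] at hFun
    have key : ∀ D, D = 1 → ∀ γ, γ = 1 → ∀ Φ : (G.Fl v → ℕ) → MvPolynomial ℕ ℚ →ₗ[ℚ] ℚ,
        Fun (G.Fl v) 2 D Φ → RelM γ D Φ → ∀ c q, Φ c q = 0 := by
      rintro D rfl γ rfl Φ hF hR c q
      exact h1 (G.Fl v) Φ hcard hF hR c q
    exact key _ e3 _ e1 _ hFun hRel _ _
  · have hcard : Fintype.card (G.Fl v) = 0 := by
      rw [← Nat.card_eq_fintype_card]; exact e2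
    have e4 : (2 * ((G.dec v).1 : ℚ) - 2 + G.nv v) = 2 := by
      rw [e1, e2]; norm_num
    rw [e4] at hFun
    have key : ∀ D, D = 2 → ∀ γ, γ = 2 → ∀ Φ : (G.Fl v → ℕ) → MvPolynomial ℕ ℚ →ₗ[ℚ] ℚ,
        Fun (G.Fl v) 2 D Φ → RelM γ D Φ → ∀ c q, Φ c q = 0 := by
      rintro D rfl γ rfl Φ hF hR c q
      exact h2 (G.Fl v) Φ hcard hF hR c q
    exact key _ e3 _ e1 _ hFun hRel _ _

/-- no decorations of positive degree: remove the zeros -/
lemma kind_step [Finite V] [Finite E] [Finite L] {g : ℕ} {lam : F L →ₗ[ℚ] ℚ}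
    (hlam : ∀ x, P g x → lam x = 0)
    (hA : ∀ (V E : Type) (G : Gr V E L), G.Valid g → KindA G → lam (dl G 1) = 0)
    (hB : ∀ (V E : Type) (G : Gr V E L), G.Valid g → KindB G → lam (dl G 1) = 0)
    (v1 : V) (n : ℕ) :
    ∀ G : Gr V E L, G.deg + 4 = 3 * g + Nat.card L →
      (∀ v, v ≠ v1 → (G.dec v).1 = 0 ∧ G.nv v = 3) →
      (((G.dec v1).1 = 0 ∧ G.nv v1 = 4) ∨ ((G.dec v1).1 = 1 ∧ G.nv v1 = 1)) →
      ∑ᶠ v, (G.dec v).2.card = n → lam (dl G 1) = 0 := by
  have := Fintype.ofFinite V
  have := Fintype.ofFinite E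
  have := Fintype.ofFinite L
  have hD0 : ∀ G : Gr V E L, G.Valid g → G.deg + 4 = 3 * g + Nat.card L →
      (∀ v, v ≠ v1 → (G.dec v).1 = 0 ∧ G.nv v = 3) →
      (((G.dec v1).1 = 0 ∧ G.nv v1 = 4) ∨ ((G.dec v1).1 = 1 ∧ G.nv v1 = 1)) →
      ∀ v, G.degAt v = 0 := by
    intro G hV hdeg hG hG1
    obtain ⟨w, hw, hw'⟩ := defect_one hV hdeg
    have hww : w = v1 := by
      by_contra hne
      have := hG w hne
      omega
    subst hww
    intro v
    by_cases hv : v = w
    · subst hv
      rcases hG1 with h | h <;> omega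
    · have h1 := hw' v hv
      have h2 := hG v hv
      omega
  induction n with
  | zero =>
    intro G hdeg hG hG1 hn
    by_cases hV : G.Valid g
    · have hD := hD0 G hV hdeg hG hG1
      have hk : ∀ v, (G.dec v).2 = 0 := by
        intro v
        rw [finsum_eq_sum_of_fintype] at hn
        have h2 := (Finset.sum_eq_zero_iff.mp hn) v (Finset.mem_univ v)
        rwa [Multiset.card_eq_zero] at h2
      have hp : ∀ y, (G.hf y).2 = 0 := by
        intro y
        have h3 := hD (G.hf y).1
        unfold Gr.degAt at h3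
        have h4 := (Nat.add_eq_zero_iff.mp h3).2
        rw [finsum_eq_sum_of_fintype] at h4
        exact (Finset.sum_eq_zero_iff.mp h4) ⟨y, rfl⟩ (Finset.mem_univ _)
      rcases hG1 with ⟨e1, e2⟩ | ⟨e1, e2⟩
      · apply hA V E G hV
        refine ⟨v1, e2, ?_, fun v hv => (hG v hv).2, hp⟩
        intro v
        by_cases hv : v = v1
        · subst hv; exact Prod.ext e1 (hk v)
        · exact Prod.ext (hG v hv).1 (hk v)
      · apply hB V E G hV
        exact ⟨v1, e2, Prod.ext e1 (hk v1), fun v hv => ⟨Prod.ext (hG v hv).1 (hk v),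
          (hG v hv).2⟩, hp⟩
    · exact fl_not_valid hlam hV 1
  | succ n ih =>
    intro G hdeg hG hG1 hn
    by_cases hV : G.Valid g
    · obtain ⟨v, hv⟩ : ∃ v, (G.dec v).2.card ≠ 0 := by
        by_contra hcon
        push Not at hcon
        simp [hcon] at hn
      have hD : G.degAt v = 0 := hD0 G hV hdeg hG hG1 v
      have hsum : (G.dec v).2.sum = 0 := by
        unfold Gr.degAt at hD
        omega
      obtain ⟨a, ha⟩ : ∃ a, a ∈ (G.dec v).2 := by
        apply Multiset.exists_mem_of_ne_zero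
        intro h
        exact hv (by rw [h]; rfl)
      have ha0 : a = 0 := by
        have := Multiset.single_le_sum (fun _ _ => Nat.zero_le _) a ha
        omega
      subst ha0
      have hcons : 0 ::ₘ (G.dec v).2.erase 0 = (G.dec v).2 := Multiset.cons_erase ha
      have h1 := fl_dilaton hlam G v (fun f => (G.hf f.1).2) ((G.dec v).2.erase 0)
      rw [hcons, G.star_self] at h1
      rw [h1]
      have h2 : lam (dl (G.star v (fun f => (G.hf f.1).2) ((G.dec v).2.erase 0)) 1) = 0 := by
        apply ih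
        · rw [star_deg]
          · exact hdeg
          · conv_rhs => rw [← hcons]
            rw [Multiset.sum_cons, zero_add]
        · intro u hu
          rw [Gr.star_dec_fst, Gr.nv_star]
          exact hG u hu
        · rw [Gr.star_dec_fst, Gr.nv_star]
          exact hG1
        · rw [finsum_eq_sum_of_fintype] at hn ⊢
          rw [← Finset.add_sum_erase _ _ (Finset.mem_univ v)] at hn ⊢
          have h3 : ∀ u ∈ Finset.univ.erase v,
              ((G.star v (fun f => (G.hf f.1).2) ((G.dec v).2.erase 0)).dec u).2.card =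
              (G.dec u).2.card := by
            intro u hu
            rw [Gr.star_dec_ne G (Finset.ne_of_mem_erase hu)]
          rw [Finset.sum_congr rfl h3, Gr.star_dec_self]
          have h4 := Multiset.card_erase_add_one ha
          change ((G.dec v).2.erase 0).card + _ = n
          omega
      rw [h2, mul_zero]
    · exact fl_not_valid hlam hV 1

end ABp

open ABp in
/-- Block AB. -/
theorem ab (h1 : AB1) (h2 : AB2) : AB := by
  intro g L lam hL hlam hA hB
  have main : ∀ n : ℕ, ∀ (V E : Type) (G : Gr V E L), Finite V → Finite E →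
      G.deg + 4 = 3 * g + Nat.card L → G.deg < Nat.card E + n → lam (dl G 1) = 0 := by
    intro n
    induction n with
    | zero =>
      intro V E G _ _ _ h
      exfalso
      unfold Gr.deg at h
      omega
    | succ n ih =>
      intro V E G _ _ hdeg h
      by_cases hV : G.Valid g
      · obtain ⟨v1, hv1, hv⟩ := defect_one hV hdeg
        have IH : ∀ (V' E' : Type) (G' : Gr V' E' L), Finite V' → Finite E' → G'.deg = G.deg →
            Nat.card E < Nat.card E' → lam (dl G' 1) = 0 := by
          intro V' E' G' h1 h2 h3 h4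
          exact ih V' E' G' h1 h2 (by omega) (by omega)
        by_cases hall : ∀ v, v ≠ v1 → (G.dec v).1 = 0 ∧ G.nv v = 3
        · have hst := hV.2.2.1.2.2.2 v1
          by_cases h5 : 5 ≤ 2 * (G.dec v1).1 + G.nv v1
          · apply vertex_vanish hlam G v1 hst IH
            left
            omega
          · by_cases h6 : ((G.dec v1).1 = 1 ∧ G.nv v1 = 2 ∧ G.degAt v1 = 1) ∨
                ((G.dec v1).1 = 2 ∧ G.nv v1 = 0 ∧ G.degAt v1 = 2)
            · exact vv2 h1 h2 hlam G v1 hst IH h6
            · exact kind_step hlam hA hB v1 _ G hdeg hall (by omega) rfl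
        · push Not at hall
          obtain ⟨v, hvne, hv'⟩ := hall
          have hst := hV.2.2.1.2.2.2 v
          apply vertex_vanish hlam G v hst IH
          have h1 := hv v hvne
          by_cases h2 : 4 ≤ 2 * (G.dec v).1 + G.nv v
          · left
            omega
          · right
            have h3 : (G.dec v).1 ≠ 0 := by
              intro h0
              exact hv' h0 (by omega)
            omega
      · exact fl_not_valid hlam hV 1
  intro V E G hdeg
  by_cases hV : G.Valid g
  · exact main (G.deg + 1) V E G hV.1 hV.2.1 hdeg (by omega)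
  · exact fl_not_valid hlam hV 1

end Vale.Agent.P273.C1
end
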