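import Vale.Agent.P273.C1.Defs

/-!
Codegree one: the two local computations of block A.
-/

noncomputable section
namespace Vale.Agent.P273.C1
open Finset MvPolynomial Vale.Agent.P273.Alg

lemma wt_le_two {e : ℕ →₀ ℕ} (h : Finsupp.weight id e ≤ 2) :
    (∀ j, 3 ≤ j → e j = 0) ∧ Finsupp.weight id e = e 1 + 2 * e 2 := by
  have hle : ∀ j, e j * j ≤ Finsupp.weight id e := by
    intro j
    by_cases hj : j ∈ e.support
    · rw [Finsupp.weight_apply, Finsupp.sum]
      exact single_le_sum (f := fun a => e a • id a) (fun _ _ => Nat.zero_le _) hj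
    · have : e j = 0 := by simpa only [Finsupp.mem_support_iff, ne_eq, Decidable.not_not] using hj
      rw [this]; omega
  have h3 : ∀ j, 3 ≤ j → e j = 0 := by
    intro j hj
    by_contra h6
    have h7 : 1 ≤ e j := by omega
    have := hle j
    nlinarith
  refine ⟨h3, ?_⟩
  rw [Finsupp.weight_apply, Finsupp.sum_of_support_subset (s := range 3)]
  · simp [sum_range_succ]; ring
  · intro j hj
    rw [mem_range]
    by_contra h4
    exact (Finsupp.mem_support_iff.mp hj) (h3 j (by omega))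
  · intros; simp

lemma wt_zero {e : ℕ →₀ ℕ} (h0 : e 0 = 0) (h : Finsupp.weight id e = 0) : e = 0 := by
  obtain ⟨h3, h4⟩ := wt_le_two (e := e) (by omega)
  ext j
  rcases j with _ | _ | _ | j
  · simpa using h0
  · simp; omega
  · simp; omega
  · simpa using h3 (j + 3) (by omega)

lemma wt_one {e : ℕ →₀ ℕ} (h0 : e 0 = 0) (h : Finsupp.weight id e = 1) :
    e = Finsupp.single 1 1 := by
  obtain ⟨h3, h4⟩ := wt_le_two (e := e) (by omega)
  ext j
  rcases j with _ | _ | _ | j
  · simpa using h0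
  · simp; omega
  · simp; omega
  · simpa using h3 (j + 3) (by omega)

lemma wt_two {e : ℕ →₀ ℕ} (h0 : e 0 = 0) (h : Finsupp.weight id e = 2) :
    e = Finsupp.single 1 2 ∨ e = Finsupp.single 2 1 := by
  obtain ⟨h3, h4⟩ := wt_le_two (e := e) (by omega)
  have h5 : (e 1 = 2 ∧ e 2 = 0) ∨ (e 1 = 0 ∧ e 2 = 1) := by omega
  rcases h5 with ⟨h5, h6⟩ | ⟨h5, h6⟩
  · left
    ext j
    rcases j with _ | _ | _ | j
    · simpa using h0
    · simp [h5]
    · simpa using h6
    · simpa using h3 (j + 3) (by omega)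
  · right
    ext j
    rcases j with _ | _ | _ | j
    · simpa using h0
    · simpa using h5
    · simp [h6]
    · simpa using h3 (j + 3) (by omega)

lemma b0_two : b0 2 = 27720 := by
  have := b0_succ 1
  rw [b0_one] at this
  norm_num at this
  linarith only [this]

lemma b1_two : b1 2 = -32760 := by
  have := b1_sub_b0 1
  rw [b0_two, b0_one] at this
  norm_num at this
  linarith only [this]

/-! ### Genus 2, no points, degree 2 -/

lemma ex_two_eq : ex 2 = 1 + (60 * X 1 - 27720 * X 2) + 2 * (30 * X 1 - 13860 * X 2) ^ 2 := by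
  have h : hh 2 = 60 * X 1 - 27720 * X 2 := by
    unfold hh Xs
    simp only [sum_range_succ, sum_range_zero, if_true, C_0, zero_mul, zero_add, one_ne_zero,
      if_false, b0_one, OfNat.ofNat_ne_zero, b0_two, neg_neg, map_neg, map_ofNat]
    ring
  have h2 : (C (1 / ((2 : ℕ).factorial : ℚ)) : MvPolynomial ℕ ℚ) * 2 = 1 := by
    rw [← map_ofNat C, ← map_mul]
    norm_num
  unfold ex
  rw [sum_range_succ, sum_range_succ, sum_range_one, h]
  have h3 : (C (1 / ((2 : ℕ).factorial : ℚ)) : MvPolynomial ℕ ℚ) * (60 * X 1 - 27720 * X 2) ^ 2 =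
      (C (1 / ((2 : ℕ).factorial : ℚ)) * 2) * (2 * (30 * X 1 - 13860 * X 2) ^ 2) := by ring
  rw [h3, h2]
  norm_num

lemma Xs_two_one : Xs 2 (Bc 1) = X 0 + 84 * X 1 - 32760 * X 2 := by
  unfold Xs
  simp only [sum_range_succ, sum_range_zero, Bc_one, b1_zero, b1_one, b1_two, map_one, map_neg,
    map_ofNat]
  ring

lemma Xs_two_three : Xs 2 (Bc 3) = X 1 - 60 * X 2 := by
  unfold Xs
  have h : ∀ j, Bc 3 j = if j = 0 then 0 else Bc 0 (j - 1) := Bc_shift 0
  simp only [sum_range_succ, sum_range_zero, h]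
  simp only [if_true, C_0, zero_mul, zero_add, one_ne_zero, if_false, Nat.sub_self, Bc_zero,
    b0_zero, C_1, one_mul, OfNat.ofNat_ne_zero, b0_one, map_neg, map_ofNat,
    show (2 - 1 : ℕ) = 1 from rfl]
  ring

lemma Ge_X (j : ℕ) : Ge id j (X j : MvPolynomial ℕ ℚ) := by
  intro e he
  have : e = Finsupp.single j 1 := by
    have h1 := Finsupp.mem_support_iff.mp he
    change coeff e (X j : MvPolynomial ℕ ℚ) ≠ 0 at h1
    rw [coeff_X] at h1
    by_contra h2
    exact h1 (if_neg fun h => h2 h.symm)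
  subst this
  rw [Finsupp.weight_single]
  simp

theorem ab2 : AB2 := by
  classical
  intro P _ Φ hP hΦ hrel
  have : IsEmpty P := Fintype.card_eq_zero_iff.mp hP
  have hc : ∀ c c' : P → ℕ, c = c' := fun c c' => funext fun p => isEmptyElim p
  intro c q
  have hΨ : ∀ w q, Psi 2 Φ w q = Φ c (ex 2 * q) := by
    intro w q
    unfold Psi
    have hbox : box P 2 = {c} := by
      ext c'
      rw [mem_box, mem_singleton]
      constructor
      · intro _; exact hc _ _
      · intro _ p; exact isEmptyElim p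
    rw [hbox, sum_singleton, univ_eq_empty, prod_empty, one_mul]
  have hdeg : ∀ e, Finsupp.weight id e ≠ 2 → Φ c (monomial e 1) = 0 := by
    intro e he
    apply hΦ.deg
    rw [univ_eq_empty, sum_empty, zero_add]
    exact he
  have hge : ∀ n q, Ge id n q → 2 < n → Φ c q = 0 := by
    intro n q hq hn
    apply hΦ.zero_of_Ge hq
    omega
  have g1 : ∀ q, Φ c (X 1 * (X 2 * q)) = 0 := fun q =>
    hge 3 _ ((Ge_X 1).mul ((Ge_X 2).mul (Ge.zero id q))) (by omega)
  have g2 : ∀ q, Φ c (X 2 * (X 2 * q)) = 0 := fun q =>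
    hge 4 _ ((Ge_X 2).mul ((Ge_X 2).mul (Ge.zero id q))) (by omega)
  have g3 : ∀ q, Φ c (X 1 * (X 1 * (X 1 * q))) = 0 := fun q =>
    hge 3 _ ((Ge_X 1).mul ((Ge_X 1).mul ((Ge_X 1).mul (Ge.zero id q)))) (by omega)
  have e1 : (X 1 : MvPolynomial ℕ ℚ) = monomial (Finsupp.single 1 1) 1 := rfl
  have e2 : (X 2 : MvPolynomial ℕ ℚ) = monomial (Finsupp.single 2 1) 1 := rfl
  have e11 : (X 1 * X 1 : MvPolynomial ℕ ℚ) = monomial (Finsupp.single 1 2) 1 := by
    rw [e1, monomial_mul, one_mul, ← Finsupp.single_add]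
  have z0 : Φ c (X 0) = 0 := by
    have : (X 0 : MvPolynomial ℕ ℚ) = monomial (Finsupp.single 0 1) 1 := rfl
    rw [this]
    apply hdeg
    rw [Finsupp.weight_single]
    simp
  have z1 : Φ c (X 1) = 0 := by
    rw [e1]
    apply hdeg
    rw [Finsupp.weight_single]
    simp
  have z01 : Φ c (X 0 * X 1) = 0 := by
    rw [hΦ.X0 (isHomogeneous_X ℚ 1), z1, mul_zero]
  have z02 : Φ c (X 0 * X 2) = 3 * Φ c (X 2) := by
    rw [hΦ.X0 (isHomogeneous_X ℚ 2)]
    norm_num
  have z011 : Φ c (X 0 * (X 1 * X 1)) = 4 * Φ c (X 1 * X 1) := by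
    rw [hΦ.X0 ((isHomogeneous_X ℚ 1).mul (isHomogeneous_X ℚ 1))]
    norm_num
  have r1 := hrel (fun _ => 0) {1} (by simp) (by simp) (by simp) (by simp)
  have r3 := hrel (fun _ => 0) {3} (by simp) (by simp) (by simp) (by simp)
  rw [hΨ, Multiset.map_singleton, Multiset.prod_singleton] at r1 r3
  have f1 : ex 2 * Xs 2 (Bc 1) = (5040 : ℚ) • (X 1 * X 1) + (1800 : ℚ) • (X 0 * (X 1 * X 1)) -
      (32760 : ℚ) • X 2 - (27720 : ℚ) • (X 0 * X 2) + (X 0 + (84 : ℚ) • X 1 + (60 : ℚ) • (X 0 * X 1)) +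
      (X 1 * (X 2 * (-60 * 32760 - 27720 * 84 - 60 * 27720 * (X 0 + 84 * X 1 - 32760 * X 2) -
        1800 * 32760 * X 1)) +
      X 2 * (X 2 * (27720 * 32760 + 27720 * 13860 * (X 0 + 84 * X 1 - 32760 * X 2))) +
      X 1 * (X 1 * (X 1 * (1800 * 84)))) := by
    rw [ex_two_eq, Xs_two_one]
    simp only [smul_eq_C_mul, map_ofNat]
    ring
  have f3 : ex 2 * Xs 2 (Bc 3) = (60 : ℚ) • (X 1 * X 1) - (60 : ℚ) • X 2 + X 1 +
      (X 1 * (X 2 * (- 3600 - 27720 - 60 * 27720 * (X 1 - 60 * X 2) - 1800 * 60 * X 1)) +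
      X 2 * (X 2 * (27720 * 60 + 27720 * 13860 * (X 1 - 60 * X 2))) +
      X 1 * (X 1 * (X 1 * 1800))) := by
    rw [ex_two_eq, Xs_two_three]
    simp only [smul_eq_C_mul, map_ofNat]
    ring
  rw [f1] at r1
  rw [f3] at r3
  simp only [map_add, map_sub, map_smul, smul_eq_mul, g1, g2, g3, z0, z1, z01, z02, z011] at r1 r3
  have hx : Φ c (X 1 * X 1) = 0 := by linarith only [r1, r3]
  have hy : Φ c (X 2) = 0 := by linarith only [r1, r3]
  have hall : ∀ c e, e 0 = 0 → Φ c (monomial e 1) = 0 := by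
    intro c' e he
    rw [hc c' c]
    by_cases hw : Finsupp.weight id e = 2
    · rcases wt_two he hw with rfl | rfl
      · rw [← e11]; exact hx
      · rw [← e2]; exact hy
    · exact hdeg e hw
  exact hΦ.zero_of_reduced hall c q

/-! ### Genus 1, two points, degree 1 -/

lemma Psi_two {P : Type} [Fintype P] {χ : ℚ} {Φ : (P → ℕ) → MvPolynomial ℕ ℚ →ₗ[ℚ] ℚ}
    (hΦ : Fun P χ 1 Φ) (w : P → ℕ → ℚ) (q : MvPolynomial ℕ ℚ) (p p' : P) (hp : p ≠ p')
    (hu : ∀ x, x = p ∨ x = p') (d d' : P → ℕ) (hd : d p = 1 ∧ d p' = 0)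
    (hd' : d' p = 0 ∧ d' p' = 1) :
    Psi 1 Φ w q = w p 0 * w p' 0 * Φ (fun _ => 0) (ex 1 * q) +
      w p 1 * w p' 0 * Φ d (ex 1 * q) + w p 0 * w p' 1 * Φ d' (ex 1 * q) := by
  classical
  have huniv : (univ : Finset P) = {p, p'} := by
    ext x
    simpa using hu x
  have hprod : ∀ c : P → ℕ, ∏ x, w x (c x) = w p (c p) * w p' (c p') := by
    intro c
    rw [huniv, prod_insert (by simpa using hp), prod_singleton]
  have hsum : ∀ c : P → ℕ, ∑ x, c x = c p + c p' := by
    intro c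
    rw [huniv, sum_insert (by simpa using hp), sum_singleton]
  have hext : ∀ c c' : P → ℕ, c p = c' p → c p' = c' p' → c = c' := by
    intro c c' h h'
    funext x
    rcases hu x with rfl | rfl
    · exact h
    · exact h'
  have hsub : ({fun _ => 0, d, d'} : Finset (P → ℕ)) ⊆ box P 1 := by
    intro c hc
    rw [mem_box]
    simp only [mem_insert, mem_singleton] at hc
    intro x
    rcases hc with rfl | rfl | rfl
    · exact Nat.zero_lt_two
    · rcases hu x with rfl | rfl <;> omega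
    · rcases hu x with rfl | rfl <;> omega
  unfold Psi
  rw [← sum_subset hsub, sum_insert, sum_insert, sum_singleton, hprod, hprod, hprod, hd.1, hd.2,
    hd'.1, hd'.2]
  · ring
  · rw [mem_singleton]
    intro h
    have := congrFun h p
    omega
  · simp only [mem_insert, mem_singleton]
    rintro (h | h)
    · have := congrFun h p
      omega
    · have := congrFun h p'
      omega
  · intro c hc hc'
    rw [mem_box] at hc
    have h1 := hc p
    have h2 := hc p'
    have h3 : Φ c (ex 1 * q) = 0 := by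
      apply hΦ.zero_of_Ge (Ge.zero id _)
      rw [hsum]
      by_contra h4
      apply hc'
      simp only [mem_insert, mem_singleton]
      have h5 : (c p = 0 ∧ c p' = 0) ∨ (c p = 1 ∧ c p' = 0) ∨ (c p = 0 ∧ c p' = 1) := by omega
      rcases h5 with h5 | h5 | h5
      · left; exact hext _ _ h5.1 h5.2
      · right; left; exact hext _ _ (by omega) (by omega)
      · right; right; exact hext _ _ (by omega) (by omega)
    rw [h3, mul_zero]

theorem ab1 : AB1 := by
  classical
  intro P _ Φ hP hΦ hrel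
  obtain ⟨p, p', hp, huniv⟩ := card_eq_two.mp (show (univ : Finset P).card = 2 from hP)
  have hu : ∀ x, x = p ∨ x = p' := by
    intro x
    have : x ∈ (univ : Finset P) := mem_univ x
    rw [huniv] at this
    simpa using this
  have hsum : ∀ c : P → ℕ, ∑ x, c x = c p + c p' := by
    intro c
    rw [huniv, sum_insert (by simpa using hp), sum_singleton]
  have hext : ∀ c c' : P → ℕ, c p = c' p → c p' = c' p' → c = c' := by
    intro c c' h h'
    funext x
    rcases hu x with rfl | rfl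
    · exact h
    · exact h'
  obtain ⟨d, hd⟩ : ∃ d : P → ℕ, d p = 1 ∧ d p' = 0 :=
    ⟨fun x => if x = p then 1 else 0, by simp, by simp [hp.symm]⟩
  obtain ⟨d', hd'⟩ : ∃ d' : P → ℕ, d' p = 0 ∧ d' p' = 1 :=
    ⟨fun x => if x = p' then 1 else 0, by simp [hp], by simp⟩
  have hdeg : ∀ c e, c p + c p' + Finsupp.weight id e ≠ 1 → Φ c (monomial e 1) = 0 := by
    intro c e he
    apply hΦ.deg
    rw [hsum]
    exact he
  have e0 : (1 : MvPolynomial ℕ ℚ) = monomial 0 1 := rfl
  have e1 : (X 1 : MvPolynomial ℕ ℚ) = monomial (Finsupp.single 1 1) 1 := rfl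
  have e11 : (X 1 * X 1 : MvPolynomial ℕ ℚ) = monomial (Finsupp.single 1 2) 1 := by
    rw [e1, monomial_mul, one_mul, ← Finsupp.single_add]
  have hz1 : ∀ c : P → ℕ, c p + c p' ≠ 1 → Φ c 1 = 0 := by
    intro c hc
    rw [e0]
    apply hdeg
    simpa using hc
  have hzX : ∀ c : P → ℕ, c p + c p' ≠ 0 → Φ c (X 1) = 0 := by
    intro c hc
    rw [e1]
    apply hdeg
    rw [Finsupp.weight_single]
    simp
    omega
  have hzXX : ∀ c : P → ℕ, Φ c (X 1 * X 1) = 0 := by
    intro c
    rw [e11]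
    apply hdeg
    rw [Finsupp.weight_single]
    simp
  have d0 : ∀ c, Φ c (X 0) = 2 * Φ c 1 := by
    intro c
    have := hΦ.X0 (c := c) (isHomogeneous_one ℕ ℚ)
    rw [mul_one] at this
    rw [this]
    norm_num
  have d1 : ∀ c, Φ c (X 0 * X 1) = 3 * Φ c (X 1) := by
    intro c
    rw [hΦ.X0 (isHomogeneous_X ℚ 1)]
    norm_num
  have s1 := hrel d 0 (by intro x; rcases hu x with rfl | rfl <;> omega) (by simp)
    (by rw [hsum]; simp; omega) (by rw [hsum]; simp; omega)
  have s2 := hrel d' 0 (by intro x; rcases hu x with rfl | rfl <;> omega) (by simp)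
    (by rw [hsum]; simp; omega) (by rw [hsum]; simp; omega)
  have s3 := hrel (fun _ => 0) {1} (by simp) (by simp) (by rw [hsum]; simp) (by rw [hsum]; simp)
  rw [Psi_two hΦ _ _ p p' hp hu d d' hd hd'] at s1 s2 s3
  simp only [Multiset.map_zero, Multiset.prod_zero, mul_one, Multiset.map_singleton,
    Multiset.prod_singleton, hd.1, hd.2, hd'.1, hd'.2, Bc_zero, Bc_one, b0_zero, b1_zero, b0_one,
    b1_one, one_mul] at s1 s2 s3
  have f1 : ex 1 = 1 + (60 : ℚ) • X 1 := by rw [ex_one_eq, smul_eq_C_mul]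
  have f2 : ex 1 * Xs 1 (Bc 1) = X 0 + (84 : ℚ) • X 1 + (60 : ℚ) • (X 0 * X 1) +
      (60 * 84 : ℚ) • (X 1 * X 1) := by
    rw [ex_one_eq]
    unfold Xs
    rw [sum_range_succ, sum_range_succ, sum_range_zero, Bc_one, Bc_one, b1_zero, b1_one]
    simp only [smul_eq_C_mul, map_mul, map_one]
    ring
  rw [f1] at s1 s2
  rw [f2] at s3
  simp only [map_add, map_smul, smul_eq_mul, hzXX, d0, d1, hz1 (fun _ => 0) (by simp),
    hzX d (by omega), hzX d' (by omega)] at s1 s2 s3
  have hx : Φ (fun _ => 0) (X 1) = 0 := by linarith only [s1, s2, s3]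
  have hy : Φ d 1 = 0 := by linarith only [s1, s2, s3]
  have hy' : Φ d' 1 = 0 := by linarith only [s1, s2, s3]
  apply hΦ.zero_of_reduced
  intro c e he
  by_cases hw : c p + c p' + Finsupp.weight id e = 1
  · have h5 : (c p = 0 ∧ c p' = 0) ∨ (c p = 1 ∧ c p' = 0) ∨ (c p = 0 ∧ c p' = 1) := by omega
    rcases h5 with h5 | h5 | h5
    · rw [hext c (fun _ => 0) h5.1 h5.2, wt_one he (by omega), ← e1]
      exact hx
    · rw [hext c d (by omega) (by omega), wt_zero he (by omega), ← e0]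
      exact hy
    · rw [hext c d' (by omega) (by omega), wt_zero he (by omega), ← e0]
      exact hy'
  · exact hdeg c e hw

end Vale.Agent.P273.C1
end
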