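import Vale.Agent.P273.C1.C1

/-!
Block B: all graphs of kind B (one vertex of genus one and valence one, the others trivalent of
genus zero) have the same value.
-/

set_option linter.all false

noncomputable section
namespace Vale.Agent.P273.C1
open Sum Vale.Agent.P273
open scoped Classical

variable {V E L V' E' : Type}

namespace BBp

/-- A graph is its cut with a tail. -/
lemma iso_tail_cut {G : Gr V E L} {h : ℕ} {y : E × Bool} (ht : IsTail G h y)
    (h0 : (G.hf (inl y)).2 = 0) (hk : (G.dec (G.hf (inl y)).1).2 = 0) :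
    (ht.cut.tail h).Iso G := by
  obtain ⟨f, s⟩ := y
  refine ⟨fun v => v.elim (G.hf (inl (f, s))).1 Subtype.val,
    fun z => z.1.elim (f, if z.2 then s else !s) (fun e => (e.1, z.2)), ⟨?_, ?_⟩, ⟨?_, ?_⟩,
    ?_, ?_, ?_⟩
  · rintro (_ | ⟨v, hv⟩) (_ | ⟨v', hv'⟩) hh
    · rfl
    · exact absurd hh.symm hv'
    · exact absurd hh hv
    · simpa using hh
  · intro v
    by_cases hv : v = (G.hf (inl (f, s))).1
    · exact ⟨none, hv.symm⟩
    · exact ⟨some ⟨v, hv⟩, rfl⟩
  · rintro ⟨_ | ⟨e, he⟩, b⟩ ⟨_ | ⟨e', he'⟩, b'⟩ hh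
    · have h1 : (if b then s else !s) = (if b' then s else !s) := congrArg Prod.snd hh
      have : b = b' := by
        revert h1
        cases b <;> cases b' <;> cases s <;> simp
      rw [this]
    · exact absurd (congrArg Prod.fst hh).symm he'
    · exact absurd (congrArg Prod.fst hh) he
    · have h1 : e = e' := congrArg Prod.fst hh
      have h2 : b = b' := congrArg Prod.snd hh
      subst h1
      subst h2
      rfl
  · rintro ⟨e, b⟩
    by_cases he : e = f
    · subst he
      by_cases hb : b = s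
      · subst hb
        exact ⟨(none, true), rfl⟩
      · have : b = !s := by revert hb; cases b <;> cases s <;> simp
        subst this
        exact ⟨(none, false), rfl⟩
    · exact ⟨(some ⟨e, he⟩, b), rfl⟩
  · rintro (_ | e) <;> rfl
  · rintro (_ | v)
    · exact Prod.ext ht.gen hk
    · rfl
  · rintro (⟨_ | e, _ | _⟩ | x)
    · -- the other half of the cut edge
      have h1 := ht.cut_snd_none
      refine Prod.ext rfl ?_
      change (G.hf (inl (f, !s))).2 = (ht.cut.hf (inr none)).2
      rw [h1, h0]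
      rfl
    · refine Prod.ext rfl ?_
      exact h0
    · refine Prod.ext rfl ?_
      exact (ht.cut_snd_ne (z := inl (e, false)) (by simp)).symm
    · refine Prod.ext rfl ?_
      exact (ht.cut_snd_ne (z := inl (e, true)) (by simp)).symm
    · refine Prod.ext rfl ?_
      exact (ht.cut_snd_ne (z := inr (some x)) (by simp)).symm

/-- The unique half-edge at a vertex of valence one. -/
lemma uniq {G : Gr V E L} {v0 : V} (h : G.nv v0 = 1) :
    ∃ z, (G.hf z).1 = v0 ∧ ∀ z', (G.hf z').1 = v0 → z' = z := by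
  obtain ⟨h1, ⟨⟨z, hz⟩⟩⟩ := Nat.card_eq_one_iff_unique.mp h
  refine ⟨z, hz, fun z' hz' => ?_⟩
  exact congrArg Subtype.val (Subsingleton.elim (⟨z', hz'⟩ : {y // (G.hf y).1 = v0}) ⟨z, hz⟩)

/-- the shape of a graph of kind B -/
lemma shape {g : ℕ} {G : Gr V E L} (hG : G.Valid g) (hB : KindB G) :
    (g = 1 ∧ Nat.card V = 1 ∧ Nat.card E = 0 ∧ Nat.card L = 1 ∧ (∀ v, G.dec v = (1, 0)) ∧
      ∀ y, (G.hf y).2 = 0) ∨
    ∃ (g' : ℕ) (V0 E0 : Type) (A : (E0 × Bool) ⊕ Option L → V0), g = g' + 1 ∧ Good A ∧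
      Nat.card E0 + 1 = g' + Nat.card V0 ∧ (cg A).Valid g' ∧ ((cg A).tail 1).Iso G := by
  obtain ⟨v0, hn, hd, hc, he⟩ := hB
  have hfV : Finite V := hG.1
  have hfE : Finite E := hG.2.1
  obtain ⟨z, hz, hu⟩ := uniq hn
  have hg : 1 ≤ g := by
    have := hG.gen_le v0
    rw [hd] at this
    exact this
  rcases z with y | x
  · right
    obtain ⟨g', rfl⟩ := Nat.exists_eq_add_of_le' hg
    subst hz
    have ht : IsTail G 1 y := by
      refine ⟨by rw [hd], ?_, hu, ?_⟩
      · intro k hk
        rw [hd] at hk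
        simp at hk
      · rw [he]
        exact Nat.zero_le _
    have hV := ht.cut_valid le_rfl (he _) hG
    have hcub : ht.cut.Cubic := by
      refine ⟨fun v => ⟨(hc v.1 v.2).1, ?_⟩, fun z => ?_⟩
      · have h1 : ht.cut.nv v = G.nv v.1 := ht.cutData.nv_eq v
        rw [h1]
        exact (hc v.1 v.2).2
      · by_cases h : z = inr none
        · subst h
          rw [ht.cut_snd_none, he, he]
        · rw [ht.cut_snd_ne h, he]
    obtain ⟨h1, h2, h3⟩ := cubic_good hV hcub
    refine ⟨g', _, _, _, rfl, h1, h2, ?_, ?_⟩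
    · rw [← h3]
      exact hV
    · rw [← h3]
      exact iso_tail_cut ht (he _) (by rw [hd])
  · left
    have hcl : ∀ e b, (G.hf (inl (e, b))).1 ≠ v0 := by
      intro e b h
      have := hu _ h
      simp at this
    have huniv : ∀ v, v = v0 := by
      intro v
      rcases hG.2.2.1.2.1 {v0} (fun e => by
        simp only [Set.mem_singleton_iff, hcl]) with h | h
      · exact absurd h (Set.singleton_ne_empty _)
      · have : v ∈ ({v0} : Set V) := by rw [h]; trivial
        exact this
    have hE : Nat.card E = 0 := by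
      have : IsEmpty E := ⟨fun e => hcl e true (huniv _)⟩
      exact Nat.card_eq_zero.mpr (Or.inl this)
    have hV : Nat.card V = 1 := by
      rw [Nat.card_eq_one_iff_unique]
      exact ⟨⟨fun a b => (huniv a).trans (huniv b).symm⟩, ⟨v0⟩⟩
    have hL : Nat.card L = 1 := by
      rw [Nat.card_eq_one_iff_unique]
      refine ⟨⟨fun a b => ?_⟩, ⟨x⟩⟩
      have h1 := hu (inr a) (huniv _)
      have h2 := hu (inr b) (huniv _)
      have h3 := h1.trans h2.symm
      simpa using h3
    refine ⟨?_, hV, hE, hL, fun v => by rw [huniv v, hd], he⟩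
    have h1 := hG.2.2.1.2.2.1
    have h2 : ∑ᶠ v, (G.dec v).1 = 1 := by
      rw [finsum_eq_single _ v0 (fun v hv => absurd (huniv v) hv), hd]
    omega

end BBp

/-- Block B: all graphs of kind B have the same value. -/
theorem bb : BB := by
  intro g L lam hL hlam V E V' E' G G' hG hG' hB hB'
  rcases BBp.shape hG hB with ⟨a1, a2, a3, a4, a5, a6⟩ | ⟨g1, V1, E1, A1, b1, b2, b3, b4, b5⟩
  · rcases BBp.shape hG' hB' with ⟨c1, c2, c3, c4, c5, c6⟩ | ⟨g2, V2, E2, A2, d1, d2, d3, d4, d5⟩
    · have hfE : Finite E := hG.2.1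
      have hfE' : Finite E' := hG'.2.1
      have hfV : Finite V := hG.1
      have hfV' : Finite V' := hG'.1
      obtain ⟨φ⟩ := (Finite.card_eq.mp (a2.trans c2.symm) : Nonempty (V ≃ V'))
      obtain ⟨ρ⟩ := (Finite.card_eq.mp (a3.trans c3.symm) : Nonempty (E ≃ E'))
      have hs : Subsingleton V' := (Nat.card_eq_one_iff_unique.mp c2).1
      apply fl_iso hlam
      refine Gr.Iso.mk' φ ρ (fun v => by rw [a5, c5]) (fun e s => ?_) (fun x => ?_)
      · exact Prod.ext (Subsingleton.elim _ _) (by rw [c6, a6])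
      · exact Prod.ext (Subsingleton.elim _ _) (by rw [c6, a6])
    · exfalso
      have h1 := valid_deg_le d4
      rw [Finite.card_option] at h1
      omega
  · rcases BBp.shape hG' hB' with ⟨c1, c2, c3, c4, c5, c6⟩ | ⟨g2, V2, E2, A2, d1, d2, d3, d4, d5⟩
    · exfalso
      have h1 := valid_deg_le b4
      rw [Finite.card_option] at h1
      omega
    · have hg : g2 = g1 := by omega
      subst hg
      rw [← fl_iso hlam b5 1, ← fl_iso hlam d5 1]
      exact cubic_conn g2 (Option L) _ _ _ _ A1 A2 b2 d2 b3 d3 _ (winv_tail hlam)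

end Vale.Agent.P273.C1
end
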