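import Vale.Agent.P273.C1.Defs

/-!
Block C1: the move at an edge between two undecorated trivalent vertices of genus 0.
-/

set_option linter.all false

noncomputable section
namespace Vale.Agent.P273.C1
open Sum Vale.Agent.P273
open scoped Classical

variable {V E L V' E' : Type}

namespace Mvd

/-- contract one edge, keeping the decorations -/
def ctrd (a : V → ℕ × Multiset ℕ) (A : (E × Bool) ⊕ L → V) (e₀ : E) (u w : V) (h : u ≠ w) :
    Gr {v // v ≠ w} {e // e ≠ e₀} L :=
  ⟨fun v => a v.1, fun y => (colV u w h (A (upM e₀ y)), 0)⟩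

/-- the splitting which gives back `A` -/
def spld (a : V → ℕ × Multiset ℕ) (A : (E × Bool) ⊕ L → V) (e₀ : E) (u w : V) (h : u ≠ w) :
    (ctrd a A e₀ u w h).Fl ⟨u, h⟩ → Bool := fun f => decide (A (upM e₀ f.1) = w)

lemma splitd_iso (a : V → ℕ × Multiset ℕ) (A : (E × Bool) ⊕ L → V) (e₀ : E) {u w : V}
    (h : u ≠ w) (hw : A (inl (e₀, true)) = w) (hu : A (inl (e₀, false)) = u)
    (haw : a w = (0, 0)) :
    ((ctrd a A e₀ u w h).split ⟨u, h⟩ (spld a A e₀ u w h)).Iso (cgd a A) := by
  have key : ∀ y, ((cgd a A).hf (upM e₀ y)) =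
      (((ctrd a A e₀ u w h).splitu ⟨u, h⟩ (spld a A e₀ u w h) y).1.elim w Subtype.val, 0) := by
    intro y
    by_cases hy : ((ctrd a A e₀ u w h).hf y).1 = ⟨u, h⟩
    · rw [Gr.splitu_of _ _ hy]
      have hy' := (colV_eq_iff h (A (upM e₀ y))).mp hy
      by_cases h1 : A (upM e₀ y) = w
      · simp [cgd, spld, h1]
      · have h2 := hy'.resolve_right h1
        simp [cgd, spld, h2, h]
    · rw [Gr.splitu_ne _ _ hy]
      have hy' : ¬ (A (upM e₀ y) = u ∨ A (upM e₀ y) = w) :=
        fun h' => hy ((colV_eq_iff h (A (upM e₀ y))).mpr h')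
      push Not at hy'
      have h3 : ((ctrd a A e₀ u w h).hf y).1 = ⟨A (upM e₀ y), hy'.2⟩ := colV_ne h hy'.2
      rw [h3]
      rfl
  refine ⟨fun v => v.elim w Subtype.val,
    fun y => ((Equiv.optionSubtypeNe e₀) y.1, y.2), ?_, ?_, fun e => rfl, ?_, ?_⟩
  · constructor
    · rintro (_ | ⟨v, hv⟩) (_ | ⟨v', hv'⟩) hh
      · rfl
      · exact absurd hh.symm hv'
      · exact absurd hh hv
      · simpa using hh
    · intro v
      by_cases hv : v = w
      · exact ⟨none, hv.symm⟩
      · exact ⟨some ⟨v, hv⟩, rfl⟩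
  · exact (Equiv.prodCongr (Equiv.optionSubtypeNe e₀) (Equiv.refl Bool)).bijective
  · rintro (_ | v)
    · exact haw
    · rfl
  · rintro (⟨_ | e, b⟩ | x)
    · cases b
      · change (A (inl ((Equiv.optionSubtypeNe e₀) none, false)), 0) = (u, 0)
        rw [Equiv.optionSubtypeNe_none, hu]
      · change (A (inl ((Equiv.optionSubtypeNe e₀) none, true)), 0) = (w, 0)
        rw [Equiv.optionSubtypeNe_none, hw]
    · have := key (inl (e, b))
      change (A (inl ((Equiv.optionSubtypeNe e₀) (some e), b)), 0) = _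
      rw [Equiv.optionSubtypeNe_some]
      exact this
    · exact key (inr x)

lemma countd_upM [Finite E] [Finite L] (a : V → ℕ × Multiset ℕ) {A : (E × Bool) ⊕ L → V}
    (e₀ : E) {u w : V} (h : u ≠ w) (hw : A (inl (e₀, true)) = w) (hu : A (inl (e₀, false)) = u)
    (cw : Nat.card {y // A y = w} = 3) (cu : Nat.card {y // A y = u} = 3) :
    (ctrd a A e₀ u w h).nv ⟨u, h⟩ = 4 ∧ (ctrd a A e₀ u w h).Bal2 ⟨u, h⟩ (spld a A e₀ u w h) := by
  have := Fintype.ofFinite E
  have := Fintype.ofFinite L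
  have cnt : ∀ v, Nat.card {y // A y = v} = 3 → ∑ y, (if A y = v then 1 else 0) = 3 := by
    intro v hv
    rw [← hv, Nat.card_eq_fintype_card, Fintype.card_subtype, Finset.card_filter]
  have h1 := cnt w cw
  have h2 := cnt u cu
  rw [sum_upM e₀, hw, hu, if_pos rfl, if_neg h] at h1
  rw [sum_upM e₀, hw, hu, if_neg h.symm, if_pos rfl] at h2
  constructor
  · rw [nv_eq_finsum, finsum_eq_sum_of_fintype]
    refine Eq.trans (Finset.sum_congr rfl (fun y _ => (?_ : _ =
        (if A (upM e₀ y) = w then 1 else 0) + (if A (upM e₀ y) = u then 1 else 0)))) ?_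
    · have h4 : ((ctrd a A e₀ u w h).hf y).1 = ⟨u, h⟩ ↔ A (upM e₀ y) = u ∨ A (upM e₀ y) = w :=
        colV_eq_iff h _
      by_cases h5 : A (upM e₀ y) = w
      · rw [if_pos (h4.mpr (Or.inr h5)), if_pos h5, if_neg (by rw [h5]; exact h.symm)]
      · by_cases h6 : A (upM e₀ y) = u
        · rw [if_pos (h4.mpr (Or.inl h6)), if_neg h5, if_pos h6]
        · rw [if_neg (by rw [h4]; (clear * - h h4 h6 h5; tauto)), if_neg h5, if_neg h6]
    · rw [Finset.sum_add_distrib]
      omega
  · unfold Gr.Bal2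
    have h3 : Nat.card {f : (ctrd a A e₀ u w h).Fl ⟨u, h⟩ // spld a A e₀ u w h f = true} =
        Nat.card {y // A (upM e₀ y) = w} := by
      apply Nat.card_congr
      refine ⟨fun f => ⟨f.1.1, by simpa only [ne_eq, spld, decide_eq_true_eq] using f.2⟩,
        fun y => ⟨⟨y.1, (colV_eq_iff h _).mpr (Or.inr y.2)⟩, by simpa [spld] using y.2⟩, ?_, ?_⟩
      · intro f; rfl
      · intro y; rfl
    rw [h3, Nat.card_eq_fintype_card, Fintype.card_subtype, Finset.card_filter]
    omega

/-- Block C1: the move. -/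
theorem c1mv : C1mv := by
  intro V E L g lam a A A' e₀ hV hE hL hlam h1 h2 h3 h4 ha c1 c2
  have i1 := splitd_iso a A e₀ h1.symm rfl rfl (ha true)
  have i2 := splitd_iso a A' e₀ h1.symm h2 h3 (ha true)
  have c1 := countd_upM a e₀ h1.symm rfl rfl (c1 true) (c1 false)
  have c2 := countd_upM a e₀ h1.symm h2 h3 (c2 true) (c2 false)
  rw [← fl_iso hlam i1 1, ← fl_iso hlam i2 1]
  have h5 : ctrd a A' e₀ (A (inl (e₀, false))) (A (inl (e₀, true))) h1.symm =
      ctrd a A e₀ (A (inl (e₀, false))) (A (inl (e₀, true))) h1.symm := by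
    apply Gr.ext'
    · intro v; rfl
    · intro y
      apply Prod.ext
      · change colV _ _ _ (A' (upM e₀ y)) = colV _ _ _ (A (upM e₀ y))
        rcases h4 (upM e₀ y) with h | ⟨h, h'⟩
        · rw [h]
        · rw [(colV_eq_iff h1.symm _).mpr h.symm, (colV_eq_iff h1.symm _).mpr h'.symm]
      · rfl
  generalize spld a A' e₀ (A (inl (e₀, false))) (A (inl (e₀, true))) h1.symm = η at *
  revert η
  rw [h5]
  intro η _ c2
  exact wdvv hlam _ _ (ha false) c1.1 (fun y _ => rfl) _ η c1.2 c2.2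

/-- the attaching map of a graph with a tail -/
def tl (A : (E × Bool) ⊕ Option L → V) : (Option E × Bool) ⊕ L → Option V :=
  Sum.elim (fun y => y.1.elim (cond y.2 none (some (A (inr none))))
    fun e => some (A (inl (e, y.2)))) fun x => some (A (inr (some x)))

/-- the half-edges of a graph in the graph with a tail -/
def tlj (y : (E × Bool) ⊕ Option L) : (Option E × Bool) ⊕ L :=
  Sum.elim (fun y => inl (some y.1, y.2)) (fun x => x.elim (inl (none, false)) inr) y

lemma tl_tlj (A : (E × Bool) ⊕ Option L → V) (y : (E × Bool) ⊕ Option L) :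
    tl A (tlj y) = some (A y) := by
  rcases y with ⟨e, b⟩ | (_ | x) <;> rfl

lemma tlj_inj : (tlj : (E × Bool) ⊕ Option L → (Option E × Bool) ⊕ L).Injective := by
  rintro (⟨e, b⟩ | (_ | x)) (⟨e', b'⟩ | (_ | x')) h <;> simp_all [tlj]

lemma tlj_surj (y : (Option E × Bool) ⊕ L) (h : y ≠ inl (none, true)) :
    ∃ z : (E × Bool) ⊕ Option L, tlj z = y := by
  rcases y with ⟨_ | e, b⟩ | x
  · cases b
    · exact ⟨inr none, rfl⟩
    · exact absurd rfl h
  · exact ⟨inl (e, b), rfl⟩
  · exact ⟨inr (some x), rfl⟩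

lemma tl_card (A : (E × Bool) ⊕ Option L → V) (v : V) :
    Nat.card {y // tl A y = some v} = Nat.card {y // A y = v} := by
  symm
  refine Nat.card_congr (Equiv.ofBijective
    (fun y => ⟨tlj y.1, by rw [tl_tlj, y.2]⟩) ⟨?_, ?_⟩)
  · rintro ⟨y, hy⟩ ⟨z, hz⟩ h
    have := tlj_inj (Subtype.ext_iff.mp h)
    exact Subtype.ext this
  · rintro ⟨y, hy⟩
    obtain ⟨z, rfl⟩ := tlj_surj y (by rintro rfl; exact absurd hy (by simp [tl]))
    refine ⟨⟨z, ?_⟩, rfl⟩
    rw [tl_tlj] at hy
    exact Option.some_injective _ hy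

lemma tail_eq (A : (E × Bool) ⊕ Option L → V) :
    (cg A).tail 1 = cgd (Option.elim' (1, 0) (fun _ => (0, 0))) (tl A) := by
  apply Gr.ext'
  · rintro (_ | v) <;> rfl
  · rintro (⟨_ | e, _ | _⟩ | x) <;> rfl

/-- Graphs with an elliptic tail: isomorphisms and moves. -/
theorem winv_tail [Finite L] {g : ℕ} {lam : F L →ₗ[ℚ] ℚ} (hlam : ∀ x, P g x → lam x = 0) :
    Winv (fun (V E : Type) (A : (E × Bool) ⊕ Option L → V) => lam (dl ((cg A).tail 1) 1)) := by
  constructor
  · intro V E V' E' A A' φ ρ h1 h2 _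
    apply fl_iso hlam
    refine ⟨Option.map φ, rhoO ρ, (Equiv.optionCongr φ).bijective, (rhoO ρ).bijective,
      rhoO_fst ρ h1, ?_, ?_⟩
    · rintro (_ | v) <;> rfl
    · have key : ∀ y, some (A' (y.map ρ id)) = some (φ (A y)) := fun y => by rw [h2 y]
      rintro (⟨_ | e, _ | _⟩ | x)
      · exact Prod.ext (key (inr none)) rfl
      · rfl
      · exact Prod.ext (key (inl (e, false))) rfl
      · exact Prod.ext (key (inl (e, true))) rfl
      · exact Prod.ext (key (inr (some x))) rfl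
  · intro V E A A' hA hA' hmv
    obtain ⟨e₀, h1, h2, h3, h4⟩ := hmv
    have := hA.fV
    have := hA.fE
    rw [tail_eq, tail_eq]
    have hinj := Option.some_injective V
    refine c1mv (Option V) (Option E) L g lam _ (tl A) (tl A') (some e₀) inferInstance
      inferInstance inferInstance hlam (fun h => h1 (hinj h)) (congrArg some h2)
      (congrArg some h3) ?_ (fun b => rfl) (fun b => ?_) (fun b => ?_)
    · intro y
      by_cases hy : y = inl (none, true)
      · subst hy
        exact Or.inl rfl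
      · obtain ⟨z, rfl⟩ := tlj_surj y hy
        rw [tl_tlj, tl_tlj]
        rcases h4 z with h | ⟨h, h'⟩
        · exact Or.inl (congrArg some h)
        · refine Or.inr ⟨?_, ?_⟩
          · exact h.imp (congrArg some) (congrArg some)
          · exact h'.imp (congrArg some) (congrArg some)
    · exact (tl_card A (A (inl (e₀, b)))).trans (hA.cub _)
    · exact (tl_card A' (A (inl (e₀, b)))).trans (hA'.cub _)

end Mvd

/-- Block C1: the move. -/
theorem c1mv : C1mv := Mvd.c1mv

/-- Graphs with an elliptic tail: isomorphisms and moves. -/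
theorem winv_tail [Finite L] {g : ℕ} {lam : F L →ₗ[ℚ] ℚ} (hlam : ∀ x, P g x → lam x = 0) :
    Winv (fun (V E : Type) (A : (E × Bool) ⊕ Option L → V) => lam (dl ((cg A).tail 1) 1)) :=
  Mvd.winv_tail hlam

end Vale.Agent.P273.C1
end
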