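import Vale.Agent.P273.C1.WdGenS

/-!
Keel's relation at a vertex of valence five (block C2).
-/

section

namespace Vale.Agent.P273.C1
open Finset

local instance stbDec {M : Type} [Fintype M] (ε : M → Bool) : Decidable (Stb ε) := by
  unfold Stb; infer_instance

lemma filt5 (i j : Fin 5) (s : Finset (Fin 5 → Bool))
    (h : univ.filter (fun ε : Fin 5 → Bool => Stb ε ∧ ε i ≠ ε j) = s) (T : (Fin 5 → Bool) → ℚ) :
    (∑ ε : Fin 5 → Bool, if Stb ε ∧ ε i ≠ ε j then T ε else 0) = ∑ ε ∈ s, T ε := by
  rw [← Finset.sum_filter, h]

lemma sum5_01 (T : (Fin 5 → Bool) → ℚ) :
    (∑ ε : Fin 5 → Bool, if Stb ε ∧ ε 0 ≠ ε 1 then T ε else 0) =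
      T ![true, false, true, false, false] +
      T ![false, true, false, true, true] +
      T ![true, false, false, true, false] +
      T ![false, true, true, false, true] +
      T ![true, false, false, false, true] +
      T ![false, true, true, true, false] +
      T ![false, true, true, false, false] +
      T ![true, false, false, true, true] +
      T ![false, true, false, true, false] +
      T ![true, false, true, false, true] +
      T ![false, true, false, false, true] +
      T ![true, false, true, true, false] := by
  rw [filt5 0 1 {![true, false, true, false, false],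
    ![false, true, false, true, true],
    ![true, false, false, true, false],
    ![false, true, true, false, true],
    ![true, false, false, false, true],
    ![false, true, true, true, false],
    ![false, true, true, false, false],
    ![true, false, false, true, true],
    ![false, true, false, true, false],
    ![true, false, true, false, true],
    ![false, true, false, false, true],
    ![true, false, true, true, false]} (by decide +kernel)]
  rw [Finset.sum_insert (by decide), Finset.sum_insert (by decide), Finset.sum_insert (by decide), Finset.sum_insert (by decide), Finset.sum_insert (by decide), Finset.sum_insert (by decide), Finset.sum_insert (by decide), Finset.sum_insert (by decide), Finset.sum_insert (by decide), Finset.sum_insert (by decide), Finset.sum_insert (by decide), Finset.sum_singleton]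
  ring

lemma sum5_23 (T : (Fin 5 → Bool) → ℚ) :
    (∑ ε : Fin 5 → Bool, if Stb ε ∧ ε 2 ≠ ε 3 then T ε else 0) =
      T ![true, false, true, false, false] +
      T ![false, true, false, true, true] +
      T ![true, false, false, true, false] +
      T ![false, true, true, false, true] +
      T ![false, true, true, false, false] +
      T ![true, false, false, true, true] +
      T ![false, true, false, true, false] +
      T ![true, false, true, false, true] +
      T ![false, false, true, false, true] +
      T ![true, true, false, true, false] +
      T ![false, false, false, true, true] +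
      T ![true, true, true, false, false] := by
  rw [filt5 2 3 {![true, false, true, false, false],
    ![false, true, false, true, true],
    ![true, false, false, true, false],
    ![false, true, true, false, true],
    ![false, true, true, false, false],
    ![true, false, false, true, true],
    ![false, true, false, true, false],
    ![true, false, true, false, true],
    ![false, false, true, false, true],
    ![true, true, false, true, false],
    ![false, false, false, true, true],
    ![true, true, true, false, false]} (by decide +kernel)]
  rw [Finset.sum_insert (by decide), Finset.sum_insert (by decide), Finset.sum_insert (by decide), Finset.sum_insert (by decide), Finset.sum_insert (by decide), Finset.sum_insert (by decide), Finset.sum_insert (by decide), Finset.sum_insert (by decide), Finset.sum_insert (by decide), Finset.sum_insert (by decide), Finset.sum_insert (by decide), Finset.sum_singleton]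
  ring

lemma sum5_02 (T : (Fin 5 → Bool) → ℚ) :
    (∑ ε : Fin 5 → Bool, if Stb ε ∧ ε 0 ≠ ε 2 then T ε else 0) =
      T ![true, true, false, false, false] +
      T ![false, false, true, true, true] +
      T ![true, false, false, true, false] +
      T ![false, true, true, false, true] +
      T ![true, false, false, false, true] +
      T ![false, true, true, true, false] +
      T ![false, true, true, false, false] +
      T ![true, false, false, true, true] +
      T ![false, false, true, true, false] +
      T ![true, true, false, false, true] +
      T ![false, false, true, false, true] +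
      T ![true, true, false, true, false] := by
  rw [filt5 0 2 {![true, true, false, false, false],
    ![false, false, true, true, true],
    ![true, false, false, true, false],
    ![false, true, true, false, true],
    ![true, false, false, false, true],
    ![false, true, true, true, false],
    ![false, true, true, false, false],
    ![true, false, false, true, true],
    ![false, false, true, true, false],
    ![true, true, false, false, true],
    ![false, false, true, false, true],
    ![true, true, false, true, false]} (by decide +kernel)]
  rw [Finset.sum_insert (by decide), Finset.sum_insert (by decide), Finset.sum_insert (by decide), Finset.sum_insert (by decide), Finset.sum_insert (by decide), Finset.sum_insert (by decide), Finset.sum_insert (by decide), Finset.sum_insert (by decide), Finset.sum_insert (by decide), Finset.sum_insert (by decide), Finset.sum_insert (by decide), Finset.sum_singleton]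
  ring

lemma sum5_13 (T : (Fin 5 → Bool) → ℚ) :
    (∑ ε : Fin 5 → Bool, if Stb ε ∧ ε 1 ≠ ε 3 then T ε else 0) =
      T ![true, true, false, false, false] +
      T ![false, false, true, true, true] +
      T ![true, false, false, true, false] +
      T ![false, true, true, false, true] +
      T ![false, true, true, false, false] +
      T ![true, false, false, true, true] +
      T ![false, true, false, false, true] +
      T ![true, false, true, true, false] +
      T ![false, false, true, true, false] +
      T ![true, true, false, false, true] +
      T ![false, false, false, true, true] +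
      T ![true, true, true, false, false] := by
  rw [filt5 1 3 {![true, true, false, false, false],
    ![false, false, true, true, true],
    ![true, false, false, true, false],
    ![false, true, true, false, true],
    ![false, true, true, false, false],
    ![true, false, false, true, true],
    ![false, true, false, false, true],
    ![true, false, true, true, false],
    ![false, false, true, true, false],
    ![true, true, false, false, true],
    ![false, false, false, true, true],
    ![true, true, true, false, false]} (by decide +kernel)]
  rw [Finset.sum_insert (by decide), Finset.sum_insert (by decide), Finset.sum_insert (by decide), Finset.sum_insert (by decide), Finset.sum_insert (by decide), Finset.sum_insert (by decide), Finset.sum_insert (by decide), Finset.sum_insert (by decide), Finset.sum_insert (by decide), Finset.sum_insert (by decide), Finset.sum_insert (by decide), Finset.sum_singleton]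
  ring

lemma fin5 (ψ : Fin 5 → ℚ) (T : (Fin 5 → Bool) → ℚ) (hT : ∀ ε, T (fun x => !ε x) = T ε)
    (h : ∀ i j, i ≠ j → 2 * (ψ i + ψ j) =
      ∑ ε : Fin 5 → Bool, if Stb ε ∧ ε i ≠ ε j then T ε else 0) :
    T ![true, true, false, false, false] + T ![false, false, true, true, false] =
      T ![true, false, true, false, false] + T ![false, true, false, true, false] := by
  have t0 : T ![false, false, true, true, true] = T ![true, true, false, false, false] := by
    rw [← hT]; congr 1; decide
  have t1 : T ![false, true, false, true, true] = T ![true, false, true, false, false] := by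
    rw [← hT]; congr 1; decide
  have t2 : T ![false, true, true, false, true] = T ![true, false, false, true, false] := by
    rw [← hT]; congr 1; decide
  have t3 : T ![false, true, true, true, false] = T ![true, false, false, false, true] := by
    rw [← hT]; congr 1; decide
  have t4 : T ![true, false, false, true, true] = T ![false, true, true, false, false] := by
    rw [← hT]; congr 1; decide
  have t5 : T ![true, false, true, false, true] = T ![false, true, false, true, false] := by
    rw [← hT]; congr 1; decide
  have t6 : T ![true, false, true, true, false] = T ![false, true, false, false, true] := by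
    rw [← hT]; congr 1; decide
  have t7 : T ![true, true, false, false, true] = T ![false, false, true, true, false] := by
    rw [← hT]; congr 1; decide
  have t8 : T ![true, true, false, true, false] = T ![false, false, true, false, true] := by
    rw [← hT]; congr 1; decide
  have t9 : T ![true, true, true, false, false] = T ![false, false, false, true, true] := by
    rw [← hT]; congr 1; decide
  have h01 := h 0 1 (by decide)
  rw [sum5_01] at h01
  have h23 := h 2 3 (by decide)
  rw [sum5_23] at h23
  have h02 := h 0 2 (by decide)
  rw [sum5_02] at h02
  have h13 := h 1 3 (by decide)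
  rw [sum5_13] at h13
  linarith only [h01, h23, h02, h13, t0, t1, t2, t3, t4, t5, t6, t7, t8, t9]

end Vale.Agent.P273.C1
end


section

noncomputable section
namespace Vale.Agent.P273.C1
open Sum Vale.Agent.P273
open scoped Classical

open Alg

variable {V E L M : Type}

lemma card_filter_equiv {M N : Type} [Fintype M] [Fintype N] (e : M ≃ N) (η : N → Bool) (b : Bool) :
    (Finset.univ.filter (fun x : M => η (e x) = b)).card =
      (Finset.univ.filter (fun y : N => η y = b)).card := by
  have : (Finset.univ.filter (fun y : N => η y = b)) =
      (Finset.univ.filter (fun x : M => η (e x) = b)).map e.toEmbedding := by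
    ext y
    simp only [Finset.mem_filter, Finset.mem_univ, true_and, Finset.mem_map,
      Equiv.coe_toEmbedding]
    constructor
    · intro hy
      exact ⟨e.symm y, by simpa using hy, by simp⟩
    · rintro ⟨x, hx, rfl⟩
      exact hx
  rw [this, Finset.card_map]

lemma stb_equiv {M N : Type} [Fintype M] [Fintype N] (e : M ≃ N) (η : N → Bool) :
    Stb (fun x => η (e x)) ↔ Stb η := by
  unfold Stb
  rw [card_filter_equiv e η true, card_filter_equiv e η false]

/-- the indicator function of two points -/
def ind2 (x y : M) (z : M) : Bool := @decide (z = x ∨ z = y) (Classical.propDecidable _)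

lemma ind2_iff (x y z : M) : ind2 x y z = true ↔ z = x ∨ z = y :=
  @decide_eq_true_iff _ (Classical.propDecidable _)

lemma ind2_congr {N : Type} {x y z : M} {x' y' z' : N}
    (h : (z = x ∨ z = y) ↔ (z' = x' ∨ z' = y')) : ind2 x y z = ind2 x' y' z' := by
  rw [Bool.eq_iff_iff, ind2_iff, ind2_iff, h]

lemma five_general [Fintype M] (hM : Fintype.card M = 5) (ψ : M → ℚ) (T : (M → Bool) → ℚ)
    (hT : ∀ ε, T (fun x => !ε x) = T ε)
    (h : ∀ i j, i ≠ j → 2 * (ψ i + ψ j) =
      ∑ ε : M → Bool, if Stb ε ∧ ε i ≠ ε j then T ε else 0)
    (a b c d : M) (hab : a ≠ b) (hac : a ≠ c) (had : a ≠ d) (hbc : b ≠ c) (hbd : b ≠ d)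
    (hcd : c ≠ d) :
    T (ind2 a b) + T (ind2 c d) = T (ind2 a c) + T (ind2 b d) := by
  obtain ⟨z, hz⟩ : ∃ z : M, z ∉ ({a, b, c, d} : Finset M) := by
    by_contra hcon
    push Not at hcon
    have h1 : Fintype.card M ≤ ({a, b, c, d} : Finset M).card :=
      Finset.card_le_card (fun x _ => hcon x)
    have h2 : ({a, b, c, d} : Finset M).card ≤ 4 := Finset.card_le_four
    omega
  simp only [Finset.mem_insert, Finset.mem_singleton, not_or] at hz
  obtain ⟨hza, hzb, hzc, hzd⟩ := hz
  let f : Fin 5 → M := ![a, b, c, d, z]
  have hf : f.Injective := by
    intro i j hij
    fin_cases i <;> fin_cases j <;> first | rfl | (exfalso; simp [f] at hij; tauto)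
  have hfb : f.Bijective := by
    rw [Fintype.bijective_iff_injective_and_card]
    exact ⟨hf, by rw [hM, Fintype.card_fin]⟩
  let e : Fin 5 ≃ M := Equiv.ofBijective f hfb
  have hinv : ∀ ε : M → Bool, (fun x => (fun i => ε (e i)) (e.symm x)) = ε := by
    intro ε
    funext x
    simp
  have key := fin5 (fun i => ψ (e i)) (fun η => T (fun x => η (e.symm x)))
    (fun η => hT (fun x => η (e.symm x))) (by
      intro i j hij
      rw [h (e i) (e j) (fun h => hij (e.injective h))]
      rw [← Equiv.sum_comp (Equiv.arrowCongr e.symm (Equiv.refl Bool))]
      apply Finset.sum_congr rfl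
      intro ε _
      have h1 : (Equiv.arrowCongr e.symm (Equiv.refl Bool)) ε = fun i => ε (e i) := rfl
      rw [h1]
      have h2 : Stb (fun i => ε (e i)) ↔ Stb ε := stb_equiv e ε
      have h3 : (fun x => (fun i => ε (e i)) (e.symm x)) = ε := hinv ε
      by_cases h4 : Stb ε ∧ ε (e i) ≠ ε (e j)
      · rw [if_pos h4, if_pos ⟨h2.mpr h4.1, h4.2⟩, h3]
      · rw [if_neg h4, if_neg (fun h5 => h4 ⟨h2.mp h5.1, h5.2⟩)])
  have hv : ∀ (η : Fin 5 → Bool) (x y : M), (∀ i, η i = ind2 x y (f i)) →
      (fun x => η (e.symm x)) = ind2 x y := by
    intro η x y hη
    funext w
    rw [hη]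
    congr 1
    exact e.apply_symm_apply w
  have hff : ∀ i j : Fin 5, f i = f j ↔ i = j := fun i j => hf.eq_iff
  have hv2 : ∀ (η : Fin 5 → Bool) (p q : Fin 5), (∀ i, η i = decide (i = p ∨ i = q)) →
      (fun x => η (e.symm x)) = ind2 (f p) (f q) := by
    intro η p q hη
    apply hv
    intro i
    rw [hη, Bool.eq_iff_iff, decide_eq_true_iff, ind2_iff, hff, hff]
  rw [hv2 _ 0 1 (by decide), hv2 _ 2 3 (by decide), hv2 _ 0 2 (by decide),
    hv2 _ 1 3 (by decide)] at key
  exact key

/-- The graph with two half-edges split off. -/
lemma cg_sp (A : (E × Bool) ⊕ L → V) (v0 : V) (a b : (E × Bool) ⊕ L) (ha : A a = v0)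
    (hb : A b = v0) :
    cg (sp A v0 a b) = (cg A).split v0 (ind2 ⟨a, ha⟩ ⟨b, hb⟩) := by
  have key : ∀ y : (E × Bool) ⊕ L, ((if y = a ∨ y = b then none else some (A y) : Option V), 0) =
      (cg A).splitu v0 (ind2 ⟨a, ha⟩ ⟨b, hb⟩) y := by
    intro y
    by_cases h : A y = v0
    · rw [Gr.splitu_of (cg A) (ind2 ⟨a, ha⟩ ⟨b, hb⟩) (y := y) h]
      by_cases h2 : y = a ∨ y = b
      · rw [if_pos h2, if_pos]
        · rfl
        · rw [ind2_iff]
          rcases h2 with h2 | h2
          · exact Or.inl (Subtype.ext h2)
          · exact Or.inr (Subtype.ext h2)
      · rw [if_neg h2, if_neg]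
        · rw [h]; rfl
        · rw [ind2_iff]
          intro h3
          apply h2
          rcases h3 with h4 | h4
          · exact Or.inl (congrArg Subtype.val h4)
          · exact Or.inr (congrArg Subtype.val h4)
    · rw [Gr.splitu_ne (cg A) (ind2 ⟨a, ha⟩ ⟨b, hb⟩) (y := y) h, if_neg]
      · rfl
      · rintro (rfl | rfl)
        · exact h ha
        · exact h hb
  apply Gr.ext'
  · rintro (_ | v) <;> rfl
  · rintro (⟨_ | e, s⟩ | x)
    · cases s <;> rfl
    · exact key (inl (e, s))
    · exact key (inr x)

/-- Keel's relation for the splittings of a vertex of valence five -/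
theorem keel_split [Finite V] [Finite E] [Finite L] {g : ℕ} {lam : F L →ₗ[ℚ] ℚ}
    (hlam : ∀ x, P g x → lam x = 0) (G : Gr V E L) (v : V) (hv : G.dec v = (0, 0))
    (hn : G.nv v = 5) (hψ : ∀ y, (G.hf y).1 = v → (G.hf y).2 = 0) (a b c d : G.Fl v)
    (hab : a ≠ b) (hac : a ≠ c) (had : a ≠ d) (hbc : b ≠ c) (hbd : b ≠ d)
    (hcd : c ≠ d) :
    lam (dl (G.split v (ind2 a b)) 1) + lam (dl (G.split v (ind2 c d)) 1) =
      lam (dl (G.split v (ind2 a c)) 1) + lam (dl (G.split v (ind2 b d)) 1) := by
  have := Fintype.ofFinite (G.Fl v)
  have hM : Fintype.card (G.Fl v ⊕ Empty) = 5 := by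
    rw [Fintype.card_sum, Fintype.card_empty, add_zero, ← Nat.card_eq_fintype_card]
    exact hn
  have hQi := G.envAt_inj v (X := Empty) (fun _ => 0)
  have hsplit : ∀ (η : G.Fl v ⊕ Empty → Bool) (o : Bool),
      lam (dl ((G.envAt v (X := Empty) (fun _ => 0)).graft (pt2 η o)) 1) =
        lam (dl (G.split v (fun f => η (inl f))) 1) := by
    intro η o
    have h1 : η = Sum.elim (fun f => η (inl f)) (fun x => x.elim) := by
      funext z
      rcases z with f | x
      · rfl
      · exact x.elim
    conv_lhs => rw [h1]
    exact fl_iso hlam (G.envAt_graft_iso2 v hv hψ _ o) 1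
  have hψ' := wd_gen (by rw [hM]; norm_num) hlam (G.envAt v (X := Empty) (fun _ => 0)) hQi
    (fun η => lam (dl (G.split v (fun f => η (inl f))) 1)) hsplit
  have hind : ∀ x y : G.Fl v, (fun f => (ind2 (inl x) (inl y) : G.Fl v ⊕ Empty → Bool) (inl f)) =
      ind2 x y := by
    intro x y
    funext f
    apply ind2_congr
    constructor
    · rintro (h2 | h2)
      · exact Or.inl (inl_injective h2)
      · exact Or.inr (inl_injective h2)
    · rintro (h | h)
      · exact Or.inl (congrArg inl h)
      · exact Or.inr (congrArg inl h)
  have key := five_general hM _
    (fun η => lam (dl (G.split v (fun f => η (inl f))) 1)) (by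
      intro η
      exact fl_iso hlam (split_swap G v hv (fun f => η (inl f))) 1) hψ'
    (inl a) (inl b) (inl c) (inl d)
    (fun h => hab (inl_injective h)) (fun h => hac (inl_injective h))
    (fun h => had (inl_injective h)) (fun h => hbc (inl_injective h))
    (fun h => hbd (inl_injective h)) (fun h => hcd (inl_injective h))
  rw [hind, hind, hind, hind] at key
  exact key

/-- Block C2. -/
theorem c2keel : C2keel := by
  intro V E L g lam A v0 a b c d hV hE hL hlam hcard ha hb hc hd hab hac had hbc hbd hcd
  have hn : (cg A).nv v0 = 5 := hcard
  rw [cg_sp A v0 a b ha hb, cg_sp A v0 c d hc hd, cg_sp A v0 a c ha hc, cg_sp A v0 b d hb hd]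
  exact keel_split hlam (cg A) v0 rfl hn (fun _ _ => rfl) ⟨a, ha⟩ ⟨b, hb⟩ ⟨c, hc⟩ ⟨d, hd⟩
    (fun h => hab (congrArg Subtype.val h)) (fun h => hac (congrArg Subtype.val h))
    (fun h => had (congrArg Subtype.val h)) (fun h => hbc (congrArg Subtype.val h))
    (fun h => hbd (congrArg Subtype.val h)) (fun h => hcd (congrArg Subtype.val h))

end Vale.Agent.P273.C1
end
end
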