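import Vale.Agent.P273.C1.Defs

/-!
Codegree one, block D1ab: isomorphisms of graphs with a special vertex; a new vertex with two legs.
-/

noncomputable section
namespace Vale.Agent.P273.C1
open Sum Vale.Agent.P273
open scoped Classical

variable {V E L T V' E' V'' E'' : Type}

/-! ### Isomorphisms -/

lemma IsoR.refl (A : (E × Bool) ⊕ L → V) (v0 : V) : IsoR A v0 A v0 :=
  ⟨Equiv.refl V, Equiv.refl _, fun _ => rfl, fun y => by rcases y with y | y <;> rfl, rfl⟩

lemma rho_snd (ρ : E × Bool ≃ E' × Bool) (h1 : ∀ e, (ρ (e, true)).1 = (ρ (e, false)).1)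
    (e : E) (b c : Bool) : (ρ (e, b)).1 = (ρ (e, c)).1 := by
  cases b <;> cases c <;> first | rfl | exact h1 e | exact (h1 e).symm

lemma rho_symm (ρ : E × Bool ≃ E' × Bool) (h1 : ∀ e, (ρ (e, true)).1 = (ρ (e, false)).1)
    (e' : E') : (ρ.symm (e', true)).1 = (ρ.symm (e', false)).1 := by
  obtain ⟨⟨e, b⟩, hb⟩ := ρ.surjective (e', true)
  have h2 : (ρ (e, !b)).1 = e' := by rw [rho_snd ρ h1 e (!b) b, hb]
  have h3 : ρ (e, !b) ≠ (e', true) := by
    intro h
    rw [← hb] at h
    have := ρ.injective h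
    simp at this
  have h4 : ρ (e, !b) = (e', false) := by
    apply Prod.ext h2
    rcases h5 : (ρ (e, !b)).2 with _ | _
    · rfl
    · exact absurd (Prod.ext h2 h5) h3
  rw [← hb, ← h4, ρ.symm_apply_apply, ρ.symm_apply_apply]

lemma map_symm_map (ρ : E × Bool ≃ E' × Bool) (y : (E' × Bool) ⊕ L) :
    (y.map ρ.symm id).map ρ id = y := by
  rcases y with y | y <;> simp

lemma map_map_symm (ρ : E × Bool ≃ E' × Bool) (y : (E × Bool) ⊕ L) :
    (y.map ρ id).map ρ.symm id = y := by
  rcases y with y | y <;> simp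

lemma IsoR.symm {A : (E × Bool) ⊕ L → V} {v0 : V} {A' : (E' × Bool) ⊕ L → V'} {v0' : V'}
    (h : IsoR A v0 A' v0') : IsoR A' v0' A v0 := by
  obtain ⟨φ, ρ, h1, h2, h3⟩ := h
  refine ⟨φ.symm, ρ.symm, rho_symm ρ h1, fun y => ?_, by rw [← h3, φ.symm_apply_apply]⟩
  have h4 := h2 (y.map ρ.symm id)
  rw [map_symm_map] at h4
  rw [h4, φ.symm_apply_apply]

lemma IsoR.trans {A : (E × Bool) ⊕ L → V} {v0 : V} {A' : (E' × Bool) ⊕ L → V'} {v0' : V'}
    {A'' : (E'' × Bool) ⊕ L → V''} {v0'' : V''} (h : IsoR A v0 A' v0')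
    (h' : IsoR A' v0' A'' v0'') : IsoR A v0 A'' v0'' := by
  obtain ⟨φ, ρ, h1, h2, h3⟩ := h
  obtain ⟨φ', ρ', h1', h2', h3'⟩ := h'
  refine ⟨φ.trans φ', ρ.trans ρ', fun e => ?_, fun y => ?_, ?_⟩
  · change (ρ' (ρ (e, true))).1 = (ρ' (ρ (e, false))).1
    have h4 : ρ (e, true) = ((ρ (e, false)).1, (ρ (e, true)).2) := by rw [← h1 e]
    rw [h4]
    exact rho_snd ρ' h1' _ _ _
  · have h4 : y.map (ρ.trans ρ') id = (y.map ρ id).map ρ' id := by rcases y with y | y <;> rfl
    rw [h4, h2', h2]
    rfl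
  · change φ' (φ v0) = v0''
    rw [h3, h3']

lemma iso_card {A : (E × Bool) ⊕ L → V} {v0 : V} {A' : (E' × Bool) ⊕ L → V'} {v0' : V'}
    (h : IsoR A v0 A' v0') : Nat.card V = Nat.card V' ∧ Nat.card E = Nat.card E' := by
  obtain ⟨φ, ρ, -⟩ := h
  refine ⟨Nat.card_congr φ, ?_⟩
  have h1 := Nat.card_congr ρ
  rw [Nat.card_prod, Nat.card_prod] at h1
  simpa using h1

/-- fibres of isomorphic graphs -/
lemma iso_fibre {A : (E × Bool) ⊕ L → V} {A' : (E' × Bool) ⊕ L → V'} (φ : V ≃ V')
    (ρ : E × Bool ≃ E' × Bool) (h2 : ∀ y, A' (y.map ρ id) = φ (A y)) (v : V) :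
    Nat.card {y // A' y = φ v} = Nat.card {y // A y = v} := by
  symm
  apply Nat.card_congr
  refine (Equiv.sumCongr ρ (Equiv.refl L)).subtypeEquiv ?_
  intro y
  have h3 : (Equiv.sumCongr ρ (Equiv.refl L)) y = y.map ρ id := by
    rcases y with y | x <;> rfl
  rw [h3, h2]
  exact ⟨fun h => by rw [h], fun h => φ.injective h⟩

theorem gd_iso {k : ℕ} {A : (E × Bool) ⊕ L → V} {v0 : V} {A' : (E' × Bool) ⊕ L → V'} {v0' : V'}
    (h : IsoR A v0 A' v0') (hA : Gd k A v0) : Gd k A' v0' := by
  obtain ⟨φ, ρ, h1, h2, h3⟩ := h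
  have := hA.fV
  have := hA.fE
  have hE : Finite E' := by
    have : Finite (E' × Bool) := Finite.of_equiv _ ρ
    exact Finite.of_surjective (fun y : E' × Bool => y.1) (fun e => ⟨(e, true), rfl⟩)
  refine ⟨Finite.of_equiv _ φ, hE, ?_, ?_, ?_⟩
  · rw [← h3, iso_fibre φ ρ h2, hA.root]
  · intro v hv
    obtain ⟨u, rfl⟩ := φ.surjective v
    rw [iso_fibre φ ρ h2]
    exact hA.cub u (fun h => hv (by rw [h, h3]))
  · intro s hs
    rcases hA.conn (φ ⁻¹' s) (by
      intro e
      have e1 := h2 (inl (e, true))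
      have e2 := h2 (inl (e, false))
      change A' (inl (ρ (e, true))) = _ at e1
      change A' (inl (ρ (e, false))) = _ at e2
      rw [Set.mem_preimage, Set.mem_preimage, ← e1, ← e2]
      have h3 : ∀ b b' : Bool, ∀ e', (A' (inl (e', b)) ∈ s ↔ A' (inl (e', b')) ∈ s) := by
        intro b b' e'
        cases b <;> cases b' <;> simp [hs e']
      have h4 : ρ (e, true) = ((ρ (e, false)).1, (ρ (e, true)).2) := by
        rw [← h1 e]
      rw [h4]
      exact h3 _ _ _) with h | h
    · left
      ext v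
      have : φ.symm v ∈ φ ⁻¹' s ↔ v ∈ s := by rw [Set.mem_preimage, φ.apply_symm_apply]
      rw [← this, h]
      simp
    · right
      ext v
      have : φ.symm v ∈ φ ⁻¹' s ↔ v ∈ s := by rw [Set.mem_preimage, φ.apply_symm_apply]
      rw [← this, h]
      simp

/-- types are invariant under isomorphism -/
theorem ty_iso {k : ℕ} {A : (E × Bool) ⊕ L → V} {v0 : V} {A' : (E' × Bool) ⊕ L → V'} {v0' : V'}
    {τ : L → Fin k} (h : IsoR A v0 A' v0') (hA : Ty k A v0 τ) : Ty k A' v0' τ := by
  refine ⟨gd_iso h hA.gd, by rw [← (iso_card h).1, ← (iso_card h).2]; exact hA.tree, ?_⟩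
  obtain ⟨β, b1, b2, b3, b4⟩ := hA.col
  obtain ⟨φ, ρ, h1, h2, h3⟩ := h.symm
  refine ⟨fun y => β (y.map ρ id), ?_, ?_, ?_, ?_⟩
  · intro e
    change β (inl (ρ (e, true))) = β (inl (ρ (e, false)))
    have h4 : ρ (e, true) = ((ρ (e, false)).1, (ρ (e, true)).2) := by rw [← h1 e]
    have key : ∀ (e' : E) (b c : Bool), β (inl (e', b)) = β (inl (e', c)) := by
      intro e' b c
      cases b <;> cases c <;> first | rfl | exact b1 e' | exact (b1 e').symm
    rw [h4]
    exact key _ _ _
  · intro y z hyz hy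
    apply b2
    · rw [h2, h2, hyz]
    · rw [h2, ← h3]
      exact fun h => hy (φ.injective h)
  · intro y z hy hz hyz
    have h5 := b3 (y.map ρ id) (z.map ρ id) (by rw [h2, hy, h3]) (by rw [h2, hz, h3]) hyz
    have h6 := congrArg (fun u => u.map ρ.symm id) h5
    simpa only [map_map_symm] using h6
  · intro x
    exact b4 x

/-! ### A new vertex with two legs -/

theorem gd_ch {k : ℕ} {i j : L} (hij : i ≠ j) (A : (E × Bool) ⊕ Option {x // x ≠ i ∧ x ≠ j} → V)
    (v0 : V) : Gd k (ch i j A) (some v0) ↔ Gd k A v0 := by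
  constructor
  · intro h
    have h1 := h.fV
    have h2 := h.fE
    refine ⟨Finite.of_injective some (Option.some_injective V),
      Finite.of_injective some (Option.some_injective E), ?_, ?_, ?_⟩
    · rw [← h.root]
      exact Nat.card_congr (chEquiv i j A v0)
    · intro v hv
      rw [← h.cub (some v) (fun h => hv (Option.some.inj h))]
      exact Nat.card_congr (chEquiv i j A v)
    · intro s hs
      have key : ∀ v, some v ∈ ({w | w = none ∧ A (inr none) ∈ s} ∪ some '' s : Set (Option V)) ↔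
          v ∈ s := by
        intro v
        simp only [ne_eq, Set.mem_union, Set.mem_ofPred_eq, reduceCtorEq, false_and, Set.mem_image,
          Option.some.injEq, exists_eq_right, false_or]
      rcases h.conn ({w | w = none ∧ A (inr none) ∈ s} ∪ some '' s) (by
        rintro (_ | e)
        · change none ∈ _ ↔ some (A (inr none)) ∈ _
          rw [key]
          simp only [ne_eq, Set.mem_union, Set.mem_ofPred_eq, true_and, Set.mem_image,
            reduceCtorEq, and_false, exists_false, or_false]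
        · change some _ ∈ _ ↔ some _ ∈ _
          rw [key, key]
          exact hs e) with h3 | h3
      · left
        ext v
        rw [← key, h3]
        simp
      · right
        ext v
        rw [← key, h3]
        simp
  · intro h
    have h1 := h.fV
    have h2 := h.fE
    refine ⟨inferInstance, inferInstance, ?_, ?_, ?_⟩
    · rw [← h.root]
      exact (Nat.card_congr (chEquiv i j A v0)).symm
    · rintro (_ | v) hv
      · exact ch_none hij A
      · rw [← h.cub v (fun h => hv (congrArg some h))]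
        exact (Nat.card_congr (chEquiv i j A v)).symm
    · intro s hs
      have h4 : none ∈ s ↔ some (A (inr none)) ∈ s := hs none
      rcases h.conn (some ⁻¹' s) (fun e => hs (some e)) with h3 | h3
      · left
        ext v
        rcases v with _ | v
        · rw [h4, ← Set.mem_preimage, h3]
          simp
        · rw [← Set.mem_preimage, h3]
          simp
      · right
        ext v
        rcases v with _ | v
        · rw [h4, ← Set.mem_preimage, h3]
          simp
        · rw [← Set.mem_preimage, h3]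
          simp

/-- the half-edges at the new vertex -/
lemma ch_eq_none {i j : L} (A : (E × Bool) ⊕ Option {x // x ≠ i ∧ x ≠ j} → V)
    (y : (Option E × Bool) ⊕ L) :
    ch i j A y = none ↔ y = inl (none, true) ∨ y = inr i ∨ y = inr j := by
  rcases y with (⟨_ | e, (_ | _)⟩ | x)
  · simp [ch]
  · simp [ch]
  · simp [ch]
  · simp [ch]
  · by_cases hx : x ≠ i ∧ x ≠ j
    · simp [ch, hx]
    · have : x = i ∨ x = j := by tauto
      simpa only [ch, ne_eq, elim_inr, hx, ↓reduceDIte, reduceCtorEq, inr.injEq, false_or,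
        true_iff] using this

theorem d1a : D1a := by
  intro k L i j V E A v0 τ hij hτ
  constructor
  · intro h
    have hgd := (gd_ch hij A v0).1 h.gd
    have := hgd.fV
    have := hgd.fE
    refine ⟨hgd, ?_, ?_⟩
    · have h1 := h.tree
      rw [Finite.card_option, Finite.card_option] at h1
      omega
    obtain ⟨β, b1, b2, b3, b4⟩ := h.col
    have hn : ch i j A (inl (none, true)) = none := rfl
    have hi : ch i j A (inr i) = none := (ch_eq_none A _).2 (Or.inr (Or.inl rfl))
    have hβ : β (inl (none, false)) = τ i := by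
      rw [← b1 none, ← b4 i]
      exact b2 _ _ (by rw [hn, hi]) (by rw [hn]; simp)
    refine ⟨fun y => β (chM E i j y), ?_, ?_, ?_, ?_⟩
    · intro e
      exact b1 (some e)
    · intro y z hyz hy
      apply b2
      · rw [ch_chM, ch_chM, hyz]
      · rw [ch_chM]
        exact fun h => hy (Option.some.inj h)
    · intro y z hy hz hyz
      exact chM_inj i j (b3 _ _ (by rw [ch_chM, hy]) (by rw [ch_chM, hz]) hyz)
    · rintro (_ | x)
      · exact hβ
      · exact b4 x.1
  · intro h
    have hgd := (gd_ch hij A v0).2 h.gd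
    have h1 := h.gd.fV
    have h2 := h.gd.fE
    refine ⟨hgd, ?_, ?_⟩
    · have h1 := h.tree
      rw [Finite.card_option, Finite.card_option]
      omega
    obtain ⟨β, b1, b2, b3, b4⟩ := h.col
    have c0 : β (inr none) = τ i := b4 none
    let γ : (Option E × Bool) ⊕ L → Fin k := Sum.elim
      (fun y => y.1.elim (τ i) (fun e => β (inl (e, y.2)))) τ
    have hγ : ∀ z, γ (chM E i j z) = β z := by
      rintro (⟨e, b⟩ | (_ | x))
      · rfl
      · exact c0.symm
      · exact (b4 (some x)).symm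
    have hγn : ∀ y, ch i j A y = none → γ y = τ i := by
      intro y hy
      rcases (ch_eq_none A y).1 hy with rfl | rfl | rfl
      · rfl
      · rfl
      · exact hτ.symm
    refine ⟨γ, ?_, ?_, ?_, ?_⟩
    · rintro (_ | e)
      · rfl
      · exact b1 e
    · intro y z hyz hy
      rcases hy' : ch i j A y with _ | v
      · rw [hγn y hy', hγn z (by rw [← hyz, hy'])]
      · obtain ⟨y', rfl⟩ := mem_chM i j A hy'
        rw [hy'] at hyz
        obtain ⟨z', rfl⟩ := mem_chM i j A hyz.symm
        rw [hγ, hγ]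
        rw [ch_chM] at hy' hyz
        rw [ch_chM] at hy
        apply b2
        · rw [Option.some.inj hy', Option.some.inj hyz]
        · exact fun h => hy (congrArg some h)
    · intro y z hy hz hyz
      obtain ⟨y', rfl⟩ := mem_chM i j A hy
      obtain ⟨z', rfl⟩ := mem_chM i j A hz
      rw [ch_chM] at hy hz
      rw [hγ, hγ] at hyz
      rw [b3 y' z' (Option.some.inj hy) (Option.some.inj hz) hyz]
    · intro x
      rfl

lemma third_flagR {k : ℕ} {A : (E × Bool) ⊕ L → V} {v0 : V} (hA : Gd k A v0) {i j : L}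
    (hij : i ≠ j) (h : A (inr i) = A (inr j)) (h0 : A (inr i) ≠ v0) :
    ∃ z, z ≠ inr i ∧ z ≠ inr j ∧ A z = A (inr i) ∧
      ∀ y, A y = A (inr i) → y = inr i ∨ y = inr j ∨ y = z := by
  have h3 : Set.ncard {y | A y = A (inr i)} = 3 := hA.cub (A (inr i)) h0
  have h4 := Set.ncard_sdiff_singleton_of_mem (s := {y | A y = A (inr i)}) (a := inr i) rfl
  have h5 := Set.ncard_sdiff_singleton_of_mem (s := {y | A y = A (inr i)} \ {inr i}) (a := inr j)
    ⟨h.symm, by simpa using hij.symm⟩
  rw [h4, h3, Set.ncard_eq_one] at h5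
  obtain ⟨z, hz⟩ := h5
  have h6 : z ∈ (({y | A y = A (inr i)} \ {inr i}) \ {inr j} : Set _) := by rw [hz]; rfl
  refine ⟨z, h6.1.2, h6.2, h6.1.1, ?_⟩
  intro y hy
  by_contra hcon
  push Not at hcon
  have h7 : y ∈ (({y | A y = A (inr i)} \ {inr i}) \ {inr j} : Set _) :=
    ⟨⟨hy, hcon.1⟩, hcon.2.1⟩
  rw [hz] at h7
  exact hcon.2.2 h7

theorem d1b : D1b := by
  intro k L i j V E A v0 hL hA hij h h0
  have hfV := hA.fV
  have hfE := hA.fE
  obtain ⟨z, hz1, hz2, hz3, hz4⟩ := third_flagR hA hij h h0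
  rcases z with ⟨e₀, b⟩ | x
  · -- an edge
    have hne1 : ∀ y : {e // e ≠ e₀} × Bool, A (inl (y.1.1, y.2)) ≠ A (inr i) := by
      rintro ⟨⟨e, he⟩, c⟩ hcon
      rcases hz4 _ hcon with h1 | h1 | h1
      · simp at h1
      · simp at h1
      · simp at h1
        exact he h1.1
    have hne2 : A (inl (e₀, !b)) ≠ A (inr i) := by
      intro hcon
      rcases hz4 _ hcon with h1 | h1 | h1
      · simp at h1
      · simp at h1
      · simp at h1
    have hne3 : ∀ x : {x // x ≠ i ∧ x ≠ j}, A (inr x.1) ≠ A (inr i) := by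
      rintro ⟨x, hx⟩ hcon
      rcases hz4 _ hcon with h1 | h1 | h1
      · simp at h1
        exact hx.1 h1
      · simp at h1
        exact hx.2 h1
      · simp at h1
    let A0 : ({e // e ≠ e₀} × Bool) ⊕ Option {x // x ≠ i ∧ x ≠ j} → {v // v ≠ A (inr i)} :=
      Sum.elim (fun y => ⟨A (inl (y.1.1, y.2)), hne1 y⟩)
        (fun x => x.elim ⟨A (inl (e₀, !b)), hne2⟩ (fun x => ⟨A (inr x.1), hne3 x⟩))
    let φ : V ≃ Option {v // v ≠ A (inr i)} := (Equiv.optionSubtypeNe (A (inr i))).symm
    have hφ : ∀ v (h : v ≠ A (inr i)), φ v = some ⟨v, h⟩ := by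
      intro v h
      simp [φ, h]
    have hφ0 : φ (A (inr i)) = none := by simp [φ]
    have hρ : ∀ e, (rhoN e₀ b (e, true)).1 = (rhoN e₀ b (e, false)).1 := by
      intro e
      by_cases he : e = e₀
      · simp only [ne_eq, rhoN, he, Equiv.coe_fn_mk, ↓reduceDIte, Bool.true_beq, Bool.false_beq]
      · simp only [ne_eq, rhoN, Equiv.coe_fn_mk, he, ↓reduceDIte]
    have hlp : ∀ y, ch i j A0 (y.map (rhoN e₀ b) id) = φ (A y) := by
      rintro (⟨e, c⟩ | x)
      · by_cases he : e = e₀
        · subst he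
          have h1 : rhoN e b (e, c) = (none, c == b) := by
            simp only [ne_eq, rhoN, Equiv.coe_fn_mk, ↓reduceDIte]
          change ch i j A0 (inl (rhoN e b (e, c))) = _
          rw [h1]
          by_cases hc : c = b
          · subst hc
            rw [hz3, hφ0]
            simp [ch]
          · have hc' : c = !b := by
              cases b <;> cases c <;> simp_all
            subst hc'
            rw [hφ _ hne2]
            cases b <;> simp [ch, A0]
        · have h1 : rhoN e₀ b (e, c) = (some ⟨e, he⟩, c) := by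
            simp only [ne_eq, rhoN, Equiv.coe_fn_mk, he, ↓reduceDIte]
          change ch i j A0 (inl (rhoN e₀ b (e, c))) = _
          rw [h1, hφ _ (hne1 (⟨e, he⟩, c))]
          rfl
      · change ch i j A0 (inr x) = _
        by_cases hx : x ≠ i ∧ x ≠ j
        · rw [hφ _ (hne3 ⟨x, hx⟩)]
          simp only [ne_eq, ch, elim_inr, Option.elim_none, elim_inl, Option.elim_some, hx,
            not_false_eq_true, and_self, ↓reduceDIte, A0]
        · have h2 : A (inr x) = A (inr i) := by
            by_cases hxi : x = i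
            · rw [hxi]
            · have hxj : x = j := by
                by_contra hxj
                exact hx ⟨hxi, hxj⟩
              rw [hxj, h]
          rw [h2, hφ0]
          simp [ch, hx]
    have hiso : IsoR A v0 (ch i j A0) (some ⟨v0, Ne.symm h0⟩) :=
      ⟨φ, rhoN e₀ b, hρ, hlp, hφ v0 (Ne.symm h0)⟩
    refine ⟨{v // v ≠ A (inr i)}, {e // e ≠ e₀}, A0, ⟨v0, Ne.symm h0⟩, ?_, hiso, ?_, ?_⟩
    · exact (gd_ch hij A0 _).1 (gd_iso hiso hA)
    · have h1 := (iso_card hiso).2
      rw [Finite.card_option] at h1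
      exact h1.symm
    · have h1 := (iso_card hiso).1
      rw [Finite.card_option] at h1
      exact h1.symm
  · -- a leg
    exfalso
    have hcl := hA.conn {A (inr i)} (by
      intro e
      have h1 : ∀ b, A (inl (e, b)) ∉ ({A (inr i)} : Set V) := by
        intro b hb
        rcases hz4 _ hb with h1 | h1 | h1 <;> simp at h1
      exact ⟨fun h => absurd h (h1 _), fun h => absurd h (h1 _)⟩)
    rcases hcl with h1 | h1
    · exact Set.singleton_ne_empty _ h1
    · have h2 : v0 ∈ ({A (inr i)} : Set V) := by rw [h1]; trivial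
      exact h0 (Set.mem_singleton_iff.1 h2).symm

/-- `d1b` for graphs with a type -/
theorem d1b_ty {k : ℕ} {i j : L} {A : (E × Bool) ⊕ L → V} {v0 : V} {τ : L → Fin k} (hL : Finite L)
    (hA : Ty k A v0 τ) (hij : i ≠ j) (h : A (inr i) = A (inr j)) (h0 : A (inr i) ≠ v0) :
    τ i = τ j ∧ ∃ (V' E' : Type) (A0 : (E' × Bool) ⊕ Option {x // x ≠ i ∧ x ≠ j} → V')
      (v0' : V'), Ty k A0 v0' (Option.elim' (τ i) fun x => τ x.1) ∧
      IsoR A v0 (ch i j A0) (some v0') ∧ Nat.card E' + 1 = Nat.card E ∧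
      Nat.card V' + 1 = Nat.card V := by
  have hτ : τ i = τ j := by
    obtain ⟨β, b1, b2, b3, b4⟩ := hA.col
    rw [← b4, ← b4]
    exact b2 _ _ h h0
  refine ⟨hτ, ?_⟩
  obtain ⟨V', E', A0, v0', h1, h2, h3, h4⟩ := d1b k L i j V E A v0 hL hA.gd hij h h0
  exact ⟨V', E', A0, v0', (d1a k L i j V' E' A0 v0' τ hij hτ).1 (ty_iso h2 hA), h2, h3, h4⟩

end Vale.Agent.P273.C1
end
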