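import Vale.Agent.P273.C1.Defs

/-!
Blocks D1c and D1d: the tree of every type exists, every tree has a type (helper667).
-/

noncomputable section
namespace Vale.Agent.P273.C1
open Sum Vale.Agent.P273
open scoped Classical

variable {V E L V' E' : Type} {k : ℕ}

/-! ### Counting -/

/-- The handshake lemma. -/
lemma Gd.handshake {A : (E × Bool) ⊕ L → V} {v0 : V} (hA : Gd k A v0) [Finite L] :
    k + 3 * Nat.card {v // v ≠ v0} = 2 * Nat.card E + Nat.card L := by
  have := hA.fV
  have := hA.fE
  have := Fintype.ofFinite V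
  have h1 := Nat.card_congr (Equiv.sigmaFiberEquiv A)
  rw [Nat.card_sigma] at h1
  have h2 : ∀ v ∈ Finset.univ.erase v0, Nat.card {y // A y = v} = 3 := fun v hv =>
    hA.cub v (Finset.ne_of_mem_erase hv)
  rw [← Finset.add_sum_erase _ _ (Finset.mem_univ v0), hA.root, Finset.sum_congr rfl h2,
    Finset.sum_const, Finset.card_erase_of_mem (Finset.mem_univ v0), Finset.card_univ,
    smul_eq_mul, Nat.card_sum, Nat.card_prod, Nat.card_eq_fintype_card (α := Bool),
    Fintype.card_bool] at h1
  have h3 : Nat.card {v // v ≠ v0} = Fintype.card V - 1 := by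
    rw [Nat.card_eq_fintype_card, Fintype.card_subtype_compl, Fintype.card_subtype_eq]
  rw [h3]
  omega

lemma card_ne [Finite V] (v0 : V) : Nat.card {v // v ≠ v0} + 1 = Nat.card V := by
  have := Fintype.ofFinite V
  rw [Nat.card_eq_fintype_card, Nat.card_eq_fintype_card, Fintype.card_subtype_compl,
    Fintype.card_subtype_eq]
  have : 0 < Fintype.card V := Fintype.card_pos_iff.mpr ⟨v0⟩
  omega

/-- The number of legs of a tree. -/
lemma Gd.card_legs {A : (E × Bool) ⊕ L → V} {v0 : V} (hA : Gd k A v0) [Finite L]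
    (hT : Nat.card E + 1 = Nat.card V) : Nat.card L + 1 = k + Nat.card V := by
  have := hA.fV
  have h1 := hA.handshake
  have h2 := card_ne v0
  omega

/-- The root of a graph with at least two vertices has a half-edge of an edge. -/
lemma Gd.root_edge {A : (E × Bool) ⊕ L → V} {v0 : V} (hA : Gd k A v0) (hV : 2 ≤ Nat.card V) :
    ∃ y : E × Bool, A (inl y) = v0 := by
  by_contra hcon
  push Not at hcon
  have := hA.fV
  rcases hA.conn {v0} (fun e => ⟨fun h => absurd h (hcon _), fun h => absurd h (hcon _)⟩) with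
    h | h
  · exact Set.singleton_ne_empty _ h
  · have h1 : Nat.card V ≤ 1 := by
      rw [← Set.ncard_univ, ← h, Set.ncard_singleton]
    omega

/-- **Two legs at one vertex different from the root.** -/
theorem exists_cherry_R {A : (E × Bool) ⊕ L → V} {v0 : V} [Finite L] (hA : Gd k A v0)
    (hT : Nat.card E + 1 = Nat.card V) (hV : 2 ≤ Nat.card V) :
    ∃ i j : L, i ≠ j ∧ A (inr i) = A (inr j) ∧ A (inr i) ≠ v0 := by
  have := hA.fV
  have := hA.fE
  have h1 := hA.card_legs hT
  obtain ⟨y, hy⟩ := hA.root_edge hV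
  -- the legs at the root
  have h2 : Nat.card {x : L // A (inr x) = v0} + 1 ≤ k := by
    rw [← hA.root, ← Finite.card_option]
    refine Nat.card_le_card_of_injective (fun o : Option {x : L // A (inr x) = v0} =>
      (o.elim ⟨inl y, hy⟩ (fun x => ⟨inr x.1, x.2⟩) : {y // A y = v0})) ?_
    rintro (_ | ⟨x, hx⟩) (_ | ⟨x', hx'⟩) h
    · rfl
    · simp at h
    · simp at h
    · simp only [Option.elim_some, Subtype.mk.injEq, inr.injEq] at h
      subst h
      rfl
  have h3 : Nat.card {x : L // A (inr x) = v0} + Nat.card {x : L // A (inr x) ≠ v0} =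
      Nat.card L := by
    rw [← Nat.card_sum]
    exact Nat.card_congr (Equiv.sumCompl fun x : L => A (inr x) = v0)
  have h4 := card_ne v0
  have h5 : ¬Function.Injective (fun x : {x : L // A (inr x) ≠ v0} =>
      (⟨A (inr x.1), x.2⟩ : {v // v ≠ v0})) := by
    intro hi
    have h6 := Nat.card_le_card_of_injective _ hi
    omega
  unfold Function.Injective at h5
  push Not at h5
  obtain ⟨⟨i, hi⟩, ⟨j, hj⟩, h6, h7⟩ := h5
  refine ⟨i, j, fun h => h7 (Subtype.ext h), ?_, hi⟩
  exact congrArg Subtype.val h6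

/-! ### One vertex -/

lemma ty_one {A : (E × Bool) ⊕ L → V} {v0 : V} (hA : Gd k A v0) (hE : IsEmpty E)
    (hV : Subsingleton V) {τ : L → Fin k} (hτ : τ.Injective) : Ty k A v0 τ := by
  refine ⟨hA, ?_, Sum.elim (fun y => hE.elim y.1) τ, fun e => hE.elim e, fun y z _ h =>
    absurd (Subsingleton.elim _ _) h, ?_, fun x => rfl⟩
  · have h1 : Nat.card E = 0 := Nat.card_eq_zero.mpr (Or.inl hE)
    have h2 : Nat.card V = 1 := Nat.card_eq_one_iff_unique.mpr ⟨hV, ⟨v0⟩⟩
    rw [h1, h2]
  · rintro (y | x) (z | x') _ _ h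
    · exact hE.elim y.1
    · exact hE.elim y.1
    · exact hE.elim z.1
    · exact congrArg inr (hτ h)

/-- The graph with one vertex. -/
lemma gd_unit (e : L ≃ Fin k) : Gd k (fun _ : (Empty × Bool) ⊕ L => ()) () := by
  refine ⟨inferInstance, inferInstance, ?_, fun v hv => absurd rfl hv, fun s _ => ?_⟩
  · have h1 : Nat.card {y : (Empty × Bool) ⊕ L // () = ()} = Nat.card L := by
      apply Nat.card_congr
      exact ⟨fun y => Sum.elim (fun z => z.1.elim) id y.1, fun x => ⟨inr x, rfl⟩,
        by rintro ⟨⟨z, _⟩ | x, h⟩; exacts [z.elim, rfl], fun x => rfl⟩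
    rw [h1, Nat.card_congr e, Nat.card_eq_fintype_card, Fintype.card_fin]
  · rcases Set.eq_empty_or_nonempty s with h | ⟨x, hx⟩
    · exact Or.inl h
    · right
      ext y
      rw [Subsingleton.elim y x]
      simp [hx]

/-! ### Existence -/

/-- **Block D1c.** -/
theorem d1c (h : D1a) : D1c := by
  intro k L τ hL hk hτ
  obtain ⟨n, hn⟩ : ∃ n, Nat.card L = n + k := by
    have h1 := Nat.card_le_card_of_surjective τ hτ
    rw [Nat.card_eq_fintype_card (α := Fin k), Fintype.card_fin] at h1
    exact ⟨Nat.card L - k, by omega⟩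
  induction n generalizing L with
  | zero =>
    have h1 : τ.Bijective := by
      rw [Nat.bijective_iff_surjective_and_card]
      refine ⟨hτ, ?_⟩
      rw [hn, Nat.card_eq_fintype_card, Fintype.card_fin, Nat.zero_add]
    exact ⟨Unit, Empty, fun _ => (), (), ty_one (gd_unit (Equiv.ofBijective τ h1)) inferInstance
      inferInstance h1.1⟩
  | succ n ih =>
    have h1 : ¬τ.Injective := by
      intro hi
      have h2 := Nat.card_le_card_of_injective τ hi
      rw [Nat.card_eq_fintype_card (α := Fin k), Fintype.card_fin] at h2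
      omega
    unfold Function.Injective at h1
    push Not at h1
    obtain ⟨i, j, h2, h3⟩ := h1
    have h4 := card_two h3
    obtain ⟨V, E, A, v0, h5⟩ := ih (Option {x // x ≠ i ∧ x ≠ j})
      (Option.elim' (τ i) fun x => τ x.1) inferInstance (fun c => by
        obtain ⟨x, hx⟩ := hτ c
        by_cases hxi : x = i
        · exact ⟨none, by rw [← hx, hxi]; rfl⟩
        · by_cases hxj : x = j
          · exact ⟨none, by rw [← hx, hxj, ← h2]; rfl⟩
          · exact ⟨some ⟨x, hxi, hxj⟩, hx⟩) (by omega)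
    exact ⟨Option V, Option E, ch i j A, some v0, (h k L i j V E A v0 τ h3 h2).2 h5⟩

/-! ### Every tree has a type -/

/-- A colouring is transported along an isomorphism. -/
lemma Ty.of_iso' {A : (E × Bool) ⊕ L → V} {v0 : V} {A' : (E' × Bool) ⊕ L → V'} {v0' : V'}
    {τ : L → Fin k} (hA : Gd k A v0) (hT : Nat.card E + 1 = Nat.card V)
    (hI : IsoR A v0 A' v0') (h : Ty k A' v0' τ) : Ty k A v0 τ := by
  obtain ⟨φ, ρ, h1, h2, h3⟩ := hI
  obtain ⟨β, b1, b2, b3, b4⟩ := h.col
  refine ⟨hA, hT, fun y => β (y.map ρ id), fun e => ?_, fun y z hyz hy => ?_, fun y z hy hz hb =>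
    ?_, fun x => b4 x⟩
  · change β (inl (ρ (e, true))) = β (inl (ρ (e, false)))
    have key : ∀ (e' : E') (b b' : Bool), β (inl (e', b)) = β (inl (e', b')) := by
      intro e' b b'
      cases b <;> cases b'
      · rfl
      · exact (b1 e').symm
      · exact b1 e'
      · rfl
    have h4 : ρ (e, true) = ((ρ (e, false)).1, (ρ (e, true)).2) := by rw [← h1 e]
    rw [h4]
    exact key _ _ _
  · refine b2 _ _ ?_ ?_
    · rw [h2, h2, hyz]
    · rw [h2, ← h3]
      exact fun h4 => hy (φ.injective h4)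
  · have h4 := b3 (y.map ρ id) (z.map ρ id) (by rw [h2, hy, h3]) (by rw [h2, hz, h3]) hb
    exact Sum.map_injective.mpr ⟨ρ.injective, Function.injective_id⟩ h4

/-- **Block D1d.** -/
theorem d1d (h : D1a) (h' : D1b) : D1d := by
  intro k L V E A v0 hL hk hA hT
  obtain ⟨n, hn⟩ : ∃ n, Nat.card E = n := ⟨_, rfl⟩
  induction n generalizing L V E with
  | zero =>
    have := hA.fV
    have := hA.fE
    have h1 : IsEmpty E := by
      rcases Nat.card_eq_zero.mp hn with h | h
      · exact h
      · exact absurd h (not_infinite_iff_finite.mpr inferInstance)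
    have h2 : Subsingleton V :=
      (Nat.card_eq_one_iff_unique.mp (by omega : Nat.card V = 1)).1
    have h3 := hA.card_legs hT
    have h4 : Nat.card L = k := by omega
    obtain ⟨e⟩ : Nonempty (L ≃ Fin k) := Finite.card_eq.mp (by
      rw [h4, Nat.card_eq_fintype_card, Fintype.card_fin])
    exact ⟨e, e.surjective, ty_one hA h1 h2 e.injective⟩
  | succ n ih =>
    obtain ⟨i, j, hij, h1, h2⟩ := exists_cherry_R hA hT (by omega)
    obtain ⟨V', E', A0, v0', h3, h4, h5, h6⟩ := h' k L i j V E A v0 hL hA hij h1 h2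
    obtain ⟨τ0, h7, h8⟩ := ih (Option {x // x ≠ i ∧ x ≠ j}) V' E' A0 v0' inferInstance h3
      (by omega) (by omega)
    let τ : L → Fin k := fun x => if h : x ≠ i ∧ x ≠ j then τ0 (some ⟨x, h⟩) else τ0 none
    have hi : τ i = τ0 none := dif_neg fun h => h.1 rfl
    have hj : τ j = τ0 none := dif_neg fun h => h.2 rfl
    have hx : ∀ x : {x // x ≠ i ∧ x ≠ j}, τ x.1 = τ0 (some x) := fun x => dif_pos x.2
    have e1 : (Option.elim' (τ i) fun x : {x // x ≠ i ∧ x ≠ j} => τ x.1) = τ0 := by
      funext o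
      rcases o with _ | x
      · exact hi
      · exact hx x
    refine ⟨τ, fun c => ?_, Ty.of_iso' hA hT h4 ((h k L i j V' E' A0 v0' τ hij
      (hi.trans hj.symm)).2 ?_)⟩
    · obtain ⟨o, ho⟩ := h7 c
      rcases o with _ | x
      · exact ⟨i, hi.trans ho⟩
      · exact ⟨x.1, (hx x).trans ho⟩
    · rw [e1]
      exact h8

end Vale.Agent.P273.C1
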