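import Vale.Agent.P273.C1.Defs

/-!
Block D3a: splitting off two branches at the root.
-/

noncomputable section
namespace Vale.Agent.P273.C1
open Sum Vale.Agent.P273
open scoped Classical

namespace D3a

variable {V E L : Type}

/-- the old half-edges -/
def old : (E × Bool) ⊕ L → (Option E × Bool) ⊕ L :=
  Sum.elim (fun u => inl (some u.1, u.2)) inr

lemma old_inj : (old : (E × Bool) ⊕ L → _).Injective := by
  rintro (⟨e, b⟩ | x) (⟨e', b'⟩ | x') h <;> simp [old] at h ⊢
  · exact h
  · exact h

lemma cases_old (y : (Option E × Bool) ⊕ L) : (∃ b, y = inl (none, b)) ∨ ∃ h, y = old h := by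
  rcases y with ⟨e | e, b⟩ | x
  · exact Or.inl ⟨b, rfl⟩
  · exact Or.inr ⟨inl (e, b), rfl⟩
  · exact Or.inr ⟨inr x, rfl⟩

lemma old_ne (b : Bool) (h : (E × Bool) ⊕ L) : (old h) ≠ inl (none, b) := by
  rcases h with ⟨e, b'⟩ | x <;> simp [old]

variable (A : (E × Bool) ⊕ L → V) (v0 : V) (y z : (E × Bool) ⊕ L)

lemma sp_old (h : (E × Bool) ⊕ L) :
    sp A v0 y z (old h) = if h = y ∨ h = z then none else some (A h) := by
  rcases h with ⟨e, b⟩ | x <;> rfl

lemma sp_true : sp A v0 y z (inl (none, true)) = none := rfl

lemma sp_false : sp A v0 y z (inl (none, false)) = some v0 := rfl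

variable {A v0 y z}

lemma sp_old_some (hy : A y = v0) (hz : A z = v0) {h : (E × Bool) ⊕ L} {v : V} (hv : v ≠ v0) :
    sp A v0 y z (old h) = some v ↔ A h = v := by
  rw [sp_old]
  split_ifs with h1
  · constructor
    · intro h2; cases h2
    · intro h2
      exfalso
      rcases h1 with rfl | rfl
      · exact hv (h2.symm.trans hy)
      · exact hv (h2.symm.trans hz)
  · simp

lemma card_eq_ncard {X : Type} (p : X → Prop) : Nat.card {x // p x} = Set.ncard {x | p x} := rfl

lemma card_none (hyz : y ≠ z) : Nat.card {u // sp A v0 y z u = none} = 3 := by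
  rw [card_eq_ncard]
  have h1 : {u | sp A v0 y z u = none} = insert (inl (none, true)) {old y, old z} := by
    ext u
    simp only [Set.mem_ofPred_eq, Set.mem_insert_iff, Set.mem_singleton_iff]
    rcases cases_old u with ⟨b, rfl⟩ | ⟨h, rfl⟩
    · cases b
      · rw [sp_false]
        constructor
        · intro h; cases h
        · rintro (h | h | h)
          · simp at h
          · exact absurd h.symm (old_ne _ _)
          · exact absurd h.symm (old_ne _ _)
      · exact ⟨fun _ => Or.inl rfl, fun _ => rfl⟩
    · rw [sp_old]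
      split_ifs with h2
      · refine ⟨fun _ => Or.inr ?_, fun _ => rfl⟩
        rcases h2 with rfl | rfl
        · exact Or.inl rfl
        · exact Or.inr rfl
      · constructor
        · intro h; cases h
        · rintro (h3 | h3 | h3)
          · exact absurd h3 (old_ne _ _)
          · exact absurd (Or.inl (old_inj h3)) h2
          · exact absurd (Or.inr (old_inj h3)) h2
  rw [h1, Set.ncard_insert_of_notMem, Set.ncard_pair]
  · exact fun h => hyz (old_inj h)
  · rintro (h | h)
    · exact absurd h.symm (old_ne _ _)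
    · exact absurd h.symm (old_ne _ _)

lemma card_some (hy : A y = v0) (hz : A z = v0) {v : V} (hv : v ≠ v0) :
    Nat.card {u // sp A v0 y z u = some v} = Nat.card {u // A u = v} := by
  rw [card_eq_ncard, card_eq_ncard]
  have h1 : {u | sp A v0 y z u = some v} = old '' {u | A u = v} := by
    ext u
    simp only [Set.mem_ofPred_eq, Set.mem_image]
    constructor
    · intro hu
      rcases cases_old u with ⟨b, rfl⟩ | ⟨h, rfl⟩
      · cases b
        · rw [sp_false] at hu
          exact absurd (Option.some.inj hu).symm hv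
        · cases hu
      · exact ⟨h, (sp_old_some hy hz hv).1 hu, rfl⟩
    · rintro ⟨h, hh, rfl⟩
      exact (sp_old_some hy hz hv).2 hh
  rw [h1, Set.ncard_image_of_injective _ old_inj]

lemma card_root {k : ℕ} (hk : Nat.card {u // A u = v0} = k + 1) (hy : A y = v0) (hz : A z = v0)
    (hyz : y ≠ z) : Nat.card {u // sp A v0 y z u = some v0} = k := by
  rw [card_eq_ncard] at hk ⊢
  have hfin : {u | A u = v0}.Finite := Set.finite_of_ncard_pos (by omega)
  have h1 : {u | sp A v0 y z u = some v0} =
      insert (inl (none, false)) (old '' ({u | A u = v0} \ {y, z})) := by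
    ext u
    simp only [Set.mem_ofPred_eq, Set.mem_insert_iff, Set.mem_image, Set.mem_sdiff,
      Set.mem_singleton_iff]
    rcases cases_old u with ⟨b, rfl⟩ | ⟨h, rfl⟩
    · cases b
      · exact ⟨fun _ => Or.inl rfl, fun _ => rfl⟩
      · rw [sp_true]
        constructor
        · intro h; cases h
        · rintro (h | ⟨h, -, h2⟩)
          · simp at h
          · exact absurd h2 (old_ne _ _)
    · rw [sp_old]
      constructor
      · intro h2
        split_ifs at h2 with h3
        refine Or.inr ⟨h, ⟨Option.some.inj h2, h3⟩, rfl⟩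
      · rintro (h2 | ⟨h', ⟨h2, h3⟩, h4⟩)
        · exact absurd h2 (old_ne _ _)
        · have := old_inj h4
          subst this
          rw [if_neg h3, h2]
  have h2 : ({y, z} : Set ((E × Bool) ⊕ L)) ⊆ {u | A u = v0} := by
    rintro u (rfl | rfl)
    · exact hy
    · exact hz
  have h3 : (inl (none, false) : (Option E × Bool) ⊕ L) ∉ old '' ({u | A u = v0} \ {y, z}) := by
    rintro ⟨h, -, h2⟩
    exact absurd h2 (old_ne _ _)
  have h4 := Set.ncard_le_ncard h2 hfin
  rw [h1, Set.ncard_insert_of_notMem h3 ((hfin.subset Set.sdiff_subset).image _),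
    Set.ncard_image_of_injective _ old_inj, Set.ncard_sdiff h2, hk, Set.ncard_pair hyz]
  rw [Set.ncard_pair hyz, hk] at h4
  omega

/-- a surjective map of five elements onto four identifies only one pair -/
lemma inj_of_surj (m : Fin 5 → Fin 4) (hm : m.Surjective) {i j : Fin 5} (hij : i ≠ j)
    (hmij : m i = m j) {l l' : Fin 5} (h : m l = m l') (hl : l ≠ j) (hl' : l' ≠ j) : l = l' := by
  have hs : Function.Surjective fun u : {u : Fin 5 // u ≠ j} => m u.1 := by
    intro c
    obtain ⟨u, rfl⟩ := hm c
    by_cases hu : u = j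
    · subst hu
      exact ⟨⟨i, hij⟩, hmij⟩
    · exact ⟨⟨u, hu⟩, rfl⟩
  have hc : Fintype.card {u : Fin 5 // u ≠ j} = Fintype.card (Fin 4) := by
    rw [Fintype.card_subtype_compl, Fintype.card_subtype_eq]
    rfl
  have hb := (Fintype.bijective_iff_surjective_and_card _).2 ⟨hs, hc⟩
  exact congrArg Subtype.val (@hb.1 ⟨l, hl⟩ ⟨l', hl'⟩ h)

end D3a

open D3a in
/-- splitting off two half-edges at the root -/
theorem gd_sp {k : ℕ} {V E L : Type} {A : (E × Bool) ⊕ L → V} {v0 : V} {a b : (E × Bool) ⊕ L}
    (h : Gd (k + 1) A v0) (hab : a ≠ b) (ha : A a = v0) (hb : A b = v0) :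
    Gd k (sp A v0 a b) (some v0) where
  fV := by
    have := h.fV
    infer_instance
  fE := by
    have := h.fE
    infer_instance
  root := card_root h.root ha hb hab
  cub := by
    rintro (_ | v) hv
    · exact card_none hab
    · have hv' : v ≠ v0 := fun h => hv (by rw [h])
      rw [card_some ha hb hv']
      exact h.cub v hv'
  conn := by
    intro s hs
    have h0 : none ∈ s ↔ some v0 ∈ s := hs none
    have key : ∀ u, sp A v0 a b (old u) ∈ s ↔ some (A u) ∈ s := by
      intro u
      rw [sp_old]
      split_ifs with h1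
      · rcases h1 with rfl | rfl
        · rw [ha]; exact h0
        · rw [hb]; exact h0
      · exact Iff.rfl
    have h1 : ∀ e, A (inl (e, true)) ∈ {v | some v ∈ s} ↔ A (inl (e, false)) ∈ {v | some v ∈ s} := by
      intro e
      exact (key (inl (e, true))).symm.trans ((hs (some e)).trans (key (inl (e, false))))
    rcases h.conn _ h1 with h2 | h2
    · left
      apply Set.eq_empty_of_forall_notMem
      have h3 : ∀ v, some v ∉ s := fun v hv => by
        have : v ∈ {v | some v ∈ s} := hv
        rw [h2] at this
        exact this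
      rintro (_ | v) hv
      · exact h3 v0 (h0.1 hv)
      · exact h3 v hv
    · right
      apply Set.eq_univ_of_forall
      have h3 : ∀ v, some v ∈ s := fun v => by
        have : v ∈ {v | some v ∈ s} := by rw [h2]; trivial
        exact this
      rintro (_ | v)
      · exact h0.2 (h3 v0)
      · exact h3 v

open D3a in
/-- Block D3a. -/
theorem d3a : D3a := by
  intro L V E A v0 σ _ _ hT
  obtain ⟨hG, htree, β, b1, b2, b3, b4⟩ := hT
  have hc : Nat.card {u // A u = v0} = 5 := hG.root
  have hfin : Finite {u // A u = v0} := Nat.finite_of_card_ne_zero (by omega)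
  have hinj : Function.Injective fun u : {u // A u = v0} => β u.1 := by
    intro u u' h
    exact Subtype.ext (b3 _ _ u.2 u'.2 h)
  have hbij : Function.Bijective fun u : {u // A u = v0} => β u.1 := by
    have := Fintype.ofFinite {u // A u = v0}
    refine (Fintype.bijective_iff_injective_and_card _).2 ⟨hinj, ?_⟩
    rw [← Nat.card_eq_fintype_card, hc, Fintype.card_fin]
  obtain ⟨R, hR⟩ : ∃ R : Fin 5 → {u // A u = v0}, ∀ i, β (R i).1 = i := by
    choose R hR using hbij.2
    exact ⟨R, hR⟩
  have hRu : ∀ u, A u = v0 → u = (R (β u)).1 := fun u hu =>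
    b3 _ _ hu (R (β u)).2 (hR (β u)).symm
  refine ⟨fun i => (R i).1, ?_, fun i => (R i).2, ?_⟩
  · intro i j h
    have h2 : (R i).1 = (R j).1 := h
    rw [← hR i, h2, hR j]
  intro m i j hm hij hmij
  have hne : (R i).1 ≠ (R j).1 := fun h => hij (by rw [← hR i, h, hR j])
  refine ⟨gd_sp hG hne (R i).2 (R j).2, ?_, ?_⟩
  · have := hG.fV
    have := hG.fE
    rw [Finite.card_option, Finite.card_option, htree]
  · refine ⟨Sum.elim (fun u => u.1.elim (m i) (fun e => m (β (inl (e, u.2)))))
      (fun x => m (β (inr x))), ?_, ?_, ?_, ?_⟩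
    · rintro (_ | e)
      · rfl
      · show m (β (inl (e, true))) = m (β (inl (e, false)))
        rw [b1]
    · set β' : (Option E × Bool) ⊕ L → Fin 4 :=
        Sum.elim (fun u => u.1.elim (m i) (fun e => m (β (inl (e, u.2)))))
          (fun x => m (β (inr x))) with hβ'
      have c1 : ∀ b, β' (inl (none, b)) = m i := fun b => rfl
      have c2 : ∀ h, β' (old h) = m (β h) := by
        rintro (⟨e, b⟩ | x) <;> rfl
      have hnone : ∀ u, sp A v0 (R i).1 (R j).1 u = none → β' u = m i := by
        intro u hu
        rcases cases_old u with ⟨b, rfl⟩ | ⟨h, rfl⟩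
        · exact c1 b
        · rw [c2]
          rw [sp_old] at hu
          split_ifs at hu with h1
          rcases h1 with h1 | h1
          · rw [h1, hR]
          · rw [h1, hR, hmij]
      intro y z hyz hy
      rcases hv : sp A v0 (R i).1 (R j).1 y with _ | v
      · rw [hnone y hv, hnone z (hyz.symm.trans hv)]
      · have hv0 : v ≠ v0 := fun h => hy (by rw [hv, h])
        have hall : ∀ u, sp A v0 (R i).1 (R j).1 u = some v → ∃ h, u = old h ∧ A h = v := by
          intro u hu
          rcases cases_old u with ⟨b, rfl⟩ | ⟨h, rfl⟩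
          · cases b
            · exact absurd (Option.some.inj hu).symm hv0
            · cases hu
          · exact ⟨h, rfl, (sp_old_some (R i).2 (R j).2 hv0).1 hu⟩
        obtain ⟨h, rfl, hh⟩ := hall y hv
        obtain ⟨h', rfl, hh'⟩ := hall z (hyz.symm.trans hv)
        rw [c2, c2, b2 h h' (hh.trans hh'.symm) (by rw [hh]; exact hv0)]
    · set β' : (Option E × Bool) ⊕ L → Fin 4 :=
        Sum.elim (fun u => u.1.elim (m i) (fun e => m (β (inl (e, u.2)))))
          (fun x => m (β (inr x))) with hβ'
      have c1 : ∀ b, β' (inl (none, b)) = m i := fun b => rfl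
      have c2 : ∀ h, β' (old h) = m (β h) := by
        rintro (⟨e, b⟩ | x) <;> rfl
      have hall : ∀ u, sp A v0 (R i).1 (R j).1 u = some v0 → u = inl (none, false) ∨
          ∃ l, l ≠ i ∧ l ≠ j ∧ u = old (R l).1 := by
        intro u hu
        rcases cases_old u with ⟨b, rfl⟩ | ⟨h, rfl⟩
        · cases b
          · exact Or.inl rfl
          · cases hu
        · right
          rw [sp_old] at hu
          split_ifs at hu with h1
          have h2 := hRu h (Option.some.inj hu)
          refine ⟨β h, ?_, ?_, by rw [← h2]⟩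
          · intro h3
            rw [h3] at h2
            exact h1 (Or.inl h2)
          · intro h3
            rw [h3] at h2
            exact h1 (Or.inr h2)
      intro y z hy hz hyz
      rcases hall y hy with rfl | ⟨l, hl1, hl2, rfl⟩
      · rcases hall z hz with rfl | ⟨l', hl1', hl2', rfl⟩
        · rfl
        · rw [c1, c2, hR] at hyz
          exact absurd (inj_of_surj m hm hij hmij hyz hij hl2').symm hl1'
      · rcases hall z hz with rfl | ⟨l', hl1', hl2', rfl⟩
        · rw [c1, c2, hR] at hyz
          exact absurd (inj_of_surj m hm hij hmij hyz hl2 hij) hl1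
        · rw [c2, c2, hR, hR] at hyz
          rw [inj_of_surj m hm hij hmij hyz hl2 hl2']
    · intro x
      show m (β (inr x)) = m (σ x)
      rw [b4]

end Vale.Agent.P273.C1
end
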