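import Vale.Agent.P273.C1.D1ab
import Vale.Agent.P273.C1.D1cd
import Vale.Agent.P273.C1.D3a

/-!
Codegree one, block D2: two typed trees of one type are equivalent.
-/

noncomputable section
namespace Vale.Agent.P273.C1
open Sum Vale.Agent.P273
open scoped Classical

namespace D2x

variable {V E L V' E' V'' E'' : Type}

/-! ### Attaching a cherry is compatible with isomorphisms, moves and splittings -/

lemma isoR_ch (i j : L) {A : (E × Bool) ⊕ Option {x // x ≠ i ∧ x ≠ j} → V} {v0 : V}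
    {A' : (E' × Bool) ⊕ Option {x // x ≠ i ∧ x ≠ j} → V'} {v0' : V'} (h : IsoR A v0 A' v0') :
    IsoR (ch i j A) (some v0) (ch i j A') (some v0') := by
  obtain ⟨φ, ρ, h1, h2, h3⟩ := h
  refine ⟨Equiv.optionCongr φ, rhoO ρ, rhoO_fst ρ h1, ?_, congrArg some h3⟩
  rintro (⟨_ | e, b⟩ | x)
  · cases b
    · exact congrArg some (h2 (inr none))
    · rfl
  · exact congrArg some (h2 (inl (e, b)))
  · by_cases hx : x ≠ i ∧ x ≠ j
    · have h3 := congrArg some (h2 (inr (some ⟨x, hx⟩)))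
      simp only [Sum.map_inr, id] at h3
      simp [ch, hx, h3]
    · simp only [ch, ne_eq, map_inr, id_eq, elim_inr, hx, ↓reduceDIte, Equiv.optionCongr_apply,
        Option.map_none]

lemma mvR_ch (i j : L) {A A' : (E × Bool) ⊕ Option {x // x ≠ i ∧ x ≠ j} → V} {v0 : V}
    (h : MvR A A' v0) : MvR (ch i j A) (ch i j A') (some v0) := by
  obtain ⟨e, h1, g1, g2, h2, h3, h4⟩ := h
  refine ⟨some e, fun h => h1 (Option.some.inj h), fun h => g1 (Option.some.inj h),
    fun h => g2 (Option.some.inj h), congrArg some h2, congrArg some h3, ?_⟩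
  have key : ∀ z, ch i j A (chM E i j z) = ch i j A' (chM E i j z) ∨
      ((ch i j A (chM E i j z) = ch i j A (inl (some e, true)) ∨
        ch i j A (chM E i j z) = ch i j A (inl (some e, false))) ∧
      (ch i j A' (chM E i j z) = ch i j A (inl (some e, true)) ∨
        ch i j A' (chM E i j z) = ch i j A (inl (some e, false)))) := by
    intro z
    rw [ch_chM, ch_chM]
    change some _ = some _ ∨ ((some _ = some _ ∨ some _ = some _) ∧
      (some _ = some _ ∨ some _ = some _))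
    simpa only [Option.some.injEq] using h4 z
  rintro (⟨_ | e', b⟩ | x)
  · cases b
    · exact key (inr none)
    · left; rfl
  · exact key (inl (e', b))
  · by_cases hx : x ≠ i ∧ x ≠ j
    · exact key (inr (some ⟨x, hx⟩))
    · left
      simp only [ch, ne_eq, elim_inr, hx, ↓reduceDIte]

/-- exchange the two new elements -/
def sw (X : Type) : Option (Option X) ≃ Option (Option X) where
  toFun := fun o => o.elim (some none) (fun o => o.elim none (fun x => some (some x)))
  invFun := fun o => o.elim (some none) (fun o => o.elim none (fun x => some (some x)))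
  left_inv := by rintro (_ | _ | x) <;> rfl
  right_inv := by rintro (_ | _ | x) <;> rfl

lemma isoR_swap (i j : L) (A : (E × Bool) ⊕ Option {x // x ≠ i ∧ x ≠ j} → V) (v0 : V)
    (a b : (E × Bool) ⊕ Option {x // x ≠ i ∧ x ≠ j}) :
    IsoR (ch i j (sp A v0 a b)) (some (some v0))
      (sp (ch i j A) (some v0) (chM E i j a) (chM E i j b)) (some (some v0)) := by
  refine ⟨sw V, Equiv.prodCongr (sw E) (Equiv.refl Bool), fun _ => rfl, ?_, rfl⟩
  have hinj := chM_inj (E := E) i j
  have key : ∀ w : (E × Bool) ⊕ Option {x // x ≠ i ∧ x ≠ j},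
      sp (ch i j A) (some v0) (chM E i j a) (chM E i j b) (D3a.old (chM E i j w)) =
      sw V (some (sp A v0 a b (D3a.old w))) := by
    intro w
    rw [D3a.sp_old, D3a.sp_old]
    by_cases hw : w = a ∨ w = b
    · rw [if_pos hw, if_pos (hw.imp (congrArg _) (congrArg _))]; rfl
    · rw [if_neg hw, if_neg (fun h => hw (h.imp (fun h => hinj h) (fun h => hinj h))), ch_chM]
      rfl
  have key2 : ∀ y : (Option E × Bool) ⊕ L, (∀ w, y ≠ chM E i j w) → ch i j A y = none →
      sp (ch i j A) (some v0) (chM E i j a) (chM E i j b) (D3a.old y) = some none := by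
    intro y hy h
    rw [D3a.sp_old, if_neg (by rintro (h | h); exacts [hy _ h, hy _ h]), h]
  rintro (⟨_ | _ | e, c⟩ | x)
  · cases c
    · exact key (inr none)
    · exact key2 (inl (none, true)) (by rintro (⟨e, b⟩ | (_ | x)) <;> simp [chM]) rfl
  · cases c <;> rfl
  · exact key (inl (e, c))
  · by_cases hx : x ≠ i ∧ x ≠ j
    · have h3 : ch i j (sp A v0 a b) (inr x) = some (sp A v0 a b (inr (some ⟨x, hx⟩))) := by
        simp only [ch, ne_eq, elim_inr, hx, not_false_eq_true, and_self, ↓reduceDIte]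
      rw [h3]
      exact key (inr (some ⟨x, hx⟩))
    · have h3 : ch i j (sp A v0 a b) (inr x) = none := by
        simp only [ch, ne_eq, elim_inr, hx, ↓reduceDIte]
      have h4 : ch i j A (inr x) = none := by
        simp only [ch, ne_eq, elim_inr, hx, ↓reduceDIte]
      rw [h3]
      refine key2 (inr x) ?_ h4
      rintro (⟨e, b⟩ | (_ | ⟨x', hx'⟩)) h
      · simp [chM] at h
      · simp [chM] at h
      · simp only [chM, elim_inr, Option.elim_some, inr.injEq] at h
        exact hx (h ▸ hx')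

/-- The functions `f (ch i j ·)`. -/
lemma W_chf {i j : L} (hij : i ≠ j) {f : ∀ V E : Type, ((E × Bool) ⊕ L → V) → ℚ}
    (hf : W f) : W (fun (V E : Type) (A : (E × Bool) ⊕ Option {x // x ≠ i ∧ x ≠ j} → V) =>
      f (Option V) (Option E) (ch i j A)) := by
  refine ⟨?_, ?_, ?_⟩
  · intro V E V' E' A A' v0 v0' h hA
    exact hf.iso _ _ _ _ _ _ _ _ (isoR_ch i j h) ((gd_ch hij A v0).2 hA)
  · intro V E A A' v0 hA hA' h
    exact hf.mv _ _ _ _ _ ((gd_ch hij A v0).2 hA) ((gd_ch hij A' v0).2 hA') (mvR_ch i j h)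
  · intro V E A v0 a b c d hA ha hb hc hd hab hac had hbc hbd hcd
    have key : ∀ p q, p ≠ q → A p = v0 → A q = v0 →
        f (Option (Option V)) (Option (Option E)) (ch i j (sp A v0 p q)) =
        f (Option (Option V)) (Option (Option E))
          (sp (ch i j A) (some v0) (chM E i j p) (chM E i j q)) := fun p q hpq hp hq =>
      hf.iso _ _ _ _ _ _ _ _ (isoR_swap i j A v0 p q) ((gd_ch hij _ _).2 (gd_sp hA hpq hp hq))
    have hinj := chM_inj (E := E) i j
    change f (Option (Option V)) (Option (Option E)) (ch i j (sp A v0 a b)) +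
      f (Option (Option V)) (Option (Option E)) (ch i j (sp A v0 c d)) =
      f (Option (Option V)) (Option (Option E)) (ch i j (sp A v0 a c)) +
      f (Option (Option V)) (Option (Option E)) (ch i j (sp A v0 b d))
    rw [key a b hab ha hb, key c d hcd hc hd, key a c hac ha hc, key b d hbd hb hd]
    exact hf.keel _ _ (ch i j A) (some v0) (chM E i j a) (chM E i j b) (chM E i j c)
      (chM E i j d) ((gd_ch hij A v0).2 hA) (by rw [ch_chM, ha]) (by rw [ch_chM, hb])
      (by rw [ch_chM, hc]) (by rw [ch_chM, hd]) (hinj.ne hab) (hinj.ne hac) (hinj.ne had)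
      (hinj.ne hbc) (hinj.ne hbd) (hinj.ne hcd)

/-! ### Equivalence -/

/-- equivalence under all functions with `W` -/
def EqW (A : (E × Bool) ⊕ L → V) (A' : (E' × Bool) ⊕ L → V') : Prop :=
  ∀ f : ∀ V E : Type, ((E × Bool) ⊕ L → V) → ℚ, W f → f V E A = f V' E' A'

lemma EqW.symm {A : (E × Bool) ⊕ L → V} {A' : (E' × Bool) ⊕ L → V'} (h : EqW A A') :
    EqW A' A := fun f hf => (h f hf).symm

lemma EqW.refl (A : (E × Bool) ⊕ L → V) : EqW A A := fun _ _ => rfl

lemma EqW.trans {A : (E × Bool) ⊕ L → V} {A' : (E' × Bool) ⊕ L → V'}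
    {A'' : (E'' × Bool) ⊕ L → V''} (h : EqW A A') (h' : EqW A' A'') : EqW A A'' :=
  fun f hf => (h f hf).trans (h' f hf)

lemma EqW.of_iso {A : (E × Bool) ⊕ L → V} {v0 : V} {A' : (E' × Bool) ⊕ L → V'} {v0' : V'}
    (h : IsoR A v0 A' v0') (hA : Gd 4 A v0) : EqW A A' :=
  fun _ hf => hf.iso _ _ _ _ A A' v0 v0' h hA

lemma EqW.of_mv {A A' : (E × Bool) ⊕ L → V} {v0 : V} (hA : Gd 4 A v0) (hA' : Gd 4 A' v0)
    (h : MvR A A' v0) : EqW A A' := fun _ hf => hf.mv _ _ A A' v0 hA hA' h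

lemma EqW.chf {i j : L} (hij : i ≠ j) {A : (E × Bool) ⊕ Option {x // x ≠ i ∧ x ≠ j} → V}
    {A' : (E' × Bool) ⊕ Option {x // x ≠ i ∧ x ≠ j} → V'}
    (h : EqW A A') : EqW (ch i j A) (ch i j A') := fun _ hf => h _ (W_chf hij hf)

/-! ### Types -/

lemma ch_inr_old {i j x : L} (hx : x ≠ i ∧ x ≠ j)
    (A : (E × Bool) ⊕ Option {x // x ≠ i ∧ x ≠ j} → V) :
    ch i j A (inr x) = some (A (inr (some ⟨x, hx⟩))) := by
  simp only [ch, ne_eq, elim_inr, hx, not_false_eq_true, and_self, ↓reduceDIte]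

lemma ch_inr_left {i j : L} (A : (E × Bool) ⊕ Option {x // x ≠ i ∧ x ≠ j} → V) :
    ch i j A (inr i) = none := (ch_eq_none A _).2 (Or.inr (Or.inl rfl))

lemma ch_inr_right {i j : L} (A : (E × Bool) ⊕ Option {x // x ≠ i ∧ x ≠ j} → V) :
    ch i j A (inr j) = none := (ch_eq_none A _).2 (Or.inr (Or.inr rfl))

/-- the type after peeling -/
def pl (τ : L → Fin 4) (i j : L) : Option {x // x ≠ i ∧ x ≠ j} → Fin 4 :=
  Option.elim' (τ i) fun x => τ x.1

lemma pl_surj {τ : L → Fin 4} (hτ : τ.Surjective) {i j : L} (h : τ i = τ j) :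
    (pl τ i j).Surjective := by
  intro c
  obtain ⟨x, hx⟩ := hτ c
  by_cases hxi : x = i
  · exact ⟨none, by rw [← hx, hxi]; rfl⟩
  · by_cases hxj : x = j
    · exact ⟨none, by rw [← hx, hxj, ← h]; rfl⟩
    · exact ⟨some ⟨x, hxi, hxj⟩, hx⟩

/-- the tree of a given type with two given legs of one colour at one vertex -/
lemma exists_cherry_tree (h3 : D1c) (L : Type) (τ : L → Fin 4) (hL : Finite L)
    (hτ : τ.Surjective) {i j : L} (hij : i ≠ j) (h : τ i = τ j) :
    ∃ (V E : Type) (A : (E × Bool) ⊕ L → V) (v0 : V), Ty 4 A v0 τ ∧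
      A (inr i) = A (inr j) ∧ A (inr i) ≠ v0 := by
  obtain ⟨V, E, A, v0, hA⟩ := h3 4 (Option {x // x ≠ i ∧ x ≠ j}) (pl τ i j) inferInstance
    (by norm_num) (pl_surj hτ h)
  refine ⟨Option V, Option E, ch i j A, some v0, (d1a 4 L i j V E A v0 τ hij h).2 hA, ?_, ?_⟩
  · rw [ch_inr_left, ch_inr_right]
  · rw [ch_inr_left]; simp

/-- relabelling two legs of one colour -/
lemma Ty.swap {A : (E × Bool) ⊕ L → V} {v0 : V} {τ : L → Fin 4} (hA : Ty 4 A v0 τ) {b c : L}
    (h : τ b = τ c) : Ty 4 (fun y => A (y.map id (Equiv.swap b c))) v0 τ := by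
  have hcard : ∀ v, Nat.card {y : (E × Bool) ⊕ L // A (y.map id (Equiv.swap b c)) = v} =
      Nat.card {y // A y = v} := by
    intro v
    apply Nat.card_congr
    refine (Equiv.sumCongr (Equiv.refl _) (Equiv.swap b c)).subtypeEquiv ?_
    intro y
    rcases y with y | x <;> rfl
  obtain ⟨β, b1, b2, b3, b4⟩ := hA.col
  refine ⟨⟨hA.gd.fV, hA.gd.fE, ?_, ?_, ?_⟩, hA.tree,
    fun y => β (y.map id (Equiv.swap b c)), ?_, ?_, ?_, ?_⟩
  · rw [hcard]; exact hA.gd.root
  · intro v hv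
    rw [hcard]; exact hA.gd.cub v hv
  · intro s hs
    exact hA.gd.conn s hs
  · intro e
    exact b1 e
  · intro y z hyz hy
    exact b2 _ _ hyz hy
  · intro y z hy hz hyz
    have := b3 _ _ hy hz hyz
    exact Sum.map_injective.mpr ⟨Function.injective_id, (Equiv.swap b c).injective⟩ this
  · intro x
    change β (inr (Equiv.swap b c x)) = τ x
    rw [b4]
    by_cases hb : x = b
    · rw [hb, Equiv.swap_apply_left, h]
    · by_cases hc : x = c
      · rw [hc, Equiv.swap_apply_right, h]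
      · rw [Equiv.swap_apply_of_ne_of_ne hb hc]

/-- the statement for `n` legs -/
def TreeEq (n : ℕ) : Prop := ∀ (L : Type), Finite L → Nat.card L = n →
  ∀ (V E V' E' : Type) (A : (E × Bool) ⊕ L → V) (v0 : V) (A' : (E' × Bool) ⊕ L → V') (v0' : V')
    (τ : L → Fin 4), τ.Surjective → Ty 4 A v0 τ → Ty 4 A' v0' τ → EqW A A'

lemma base {L : Type} (hL : Finite L) (hn : Nat.card L = 4) {A : (E × Bool) ⊕ L → V} {v0 : V}
    {A' : (E' × Bool) ⊕ L → V'} {v0' : V'} {τ : L → Fin 4} (hA : Ty 4 A v0 τ)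
    (hA' : Ty 4 A' v0' τ) : EqW A A' := by
  have h1 := hA.gd.card_legs hA.tree
  have h2 := hA'.gd.card_legs hA'.tree
  have h3 := hA.tree
  have h4 := hA'.tree
  have := hA.gd.fV
  have := hA.gd.fE
  have := hA'.gd.fV
  have := hA'.gd.fE
  have hV : Nat.card V = 1 := by omega
  have hV' : Nat.card V' = 1 := by omega
  have hE : Nat.card E = 0 := by omega
  have hE' : Nat.card E' = 0 := by omega
  have e1 : IsEmpty E := by
    rcases Nat.card_eq_zero.mp hE with h | h
    · exact h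
    · exact absurd h (not_infinite_iff_finite.mpr inferInstance)
  have e2 : IsEmpty E' := by
    rcases Nat.card_eq_zero.mp hE' with h | h
    · exact h
    · exact absurd h (not_infinite_iff_finite.mpr inferInstance)
  have e3 : Subsingleton V' := (Nat.card_eq_one_iff_unique.mp hV').1
  obtain ⟨φ⟩ := (Finite.card_eq.mp (hV.trans hV'.symm) : Nonempty (V ≃ V'))
  have hiso : IsoR A v0 A' v0' := ⟨φ, Equiv.equivOfIsEmpty _ _, fun e => e1.elim e,
    fun y => Subsingleton.elim _ _, Subsingleton.elim _ _⟩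
  exact EqW.of_iso hiso hA.gd

/-- disjoint pairs -/
lemma disj (h3 : D1c) {n : ℕ} (IH : TreeEq n) {L : Type} (hL : Finite L)
    (hn : Nat.card L = n + 1) {A : (E × Bool) ⊕ L → V} {v0 : V} {τ : L → Fin 4}
    (hτ : τ.Surjective) (hA : Ty 4 A v0 τ) {i j l m : L} (hij : i ≠ j) (hlm : l ≠ m)
    (hl : l ≠ i ∧ l ≠ j) (hm : m ≠ i ∧ m ≠ j) (hc : τ l = τ m) (h : A (inr i) = A (inr j))
    (h0 : A (inr i) ≠ v0) :
    ∃ (V' E' : Type) (B : (E' × Bool) ⊕ L → V') (w0 : V'), Ty 4 B w0 τ ∧ EqW A B ∧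
      B (inr l) = B (inr m) ∧ B (inr l) ≠ w0 := by
  obtain ⟨hτij, V1, E1, A1, v1, hA1, hiso, -, -⟩ := d1b_ty hL hA hij h h0
  have hcard := card_two hij
  obtain ⟨V2, E2, A2, v2, hA2, e1, e2⟩ := exists_cherry_tree h3 (Option {x // x ≠ i ∧ x ≠ j})
    (pl τ i j) inferInstance (pl_surj hτ hτij) (i := some ⟨l, hl⟩) (j := some ⟨m, hm⟩)
    (fun h => hlm (congrArg Subtype.val (Option.some.inj h))) hc
  have e3 : EqW A1 A2 := IH _ inferInstance (by omega) _ _ _ _ A1 v1 A2 v2 (pl τ i j)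
    (pl_surj hτ hτij) hA1 hA2
  refine ⟨_, _, ch i j A2, some v2, (d1a 4 L i j V2 E2 A2 v2 τ hij hτij).2 hA2,
    (EqW.of_iso hiso hA.gd).trans (e3.chf hij), ?_, ?_⟩
  · rw [ch_inr_old hl, ch_inr_old hm, e1]
  · rw [ch_inr_old hl]
    exact fun h => e2 (Option.some.inj h)

/-- overlapping pairs -/
lemma ovl (h3 : D1c) {n : ℕ} (IH : TreeEq n) {L : Type} (hL : Finite L)
    (hn : Nat.card L = n + 1) {A : (E × Bool) ⊕ L → V} {v0 : V} {τ : L → Fin 4}
    (hτ : τ.Surjective) (hA : Ty 4 A v0 τ) {a b c : L} (hab : a ≠ b) (hca : c ≠ a) (hcb : c ≠ b)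
    (hc : τ a = τ c) (h : A (inr a) = A (inr b)) (h0 : A (inr a) ≠ v0) :
    ∃ (V' E' : Type) (B : (E' × Bool) ⊕ L → V') (w0 : V'), Ty 4 B w0 τ ∧ EqW A B ∧
      B (inr a) = B (inr c) ∧ B (inr a) ≠ w0 := by
  obtain ⟨hτab, V1, E1, A1, v1, hA1, hiso, -, -⟩ := d1b_ty hL hA hab h h0
  have hcard := card_two hab
  obtain ⟨V2, E2, A2, v2, hA2, e1, e2⟩ := exists_cherry_tree h3 (Option {x // x ≠ a ∧ x ≠ b})
    (pl τ a b) inferInstance (pl_surj hτ hτab) (i := none) (j := some ⟨c, hca, hcb⟩)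
    (by simp) hc
  have e3 : EqW A1 A2 := IH _ inferInstance (by omega) _ _ _ _ A1 v1 A2 v2 (pl τ a b)
    (pl_surj hτ hτab) hA1 hA2
  have hC : Ty 4 (ch a b A2) (some v2) τ := (d1a 4 L a b V2 E2 A2 v2 τ hab hτab).2 hA2
  have hC' := Ty.swap hC (b := b) (c := c) (hτab.symm.trans hc)
  have ca : ch a b A2 (inr a) = none := ch_inr_left A2
  have cb : ch a b A2 (inr b) = none := ch_inr_right A2
  have cc : ch a b A2 (inr c) = some (A2 (inr none)) := by rw [ch_inr_old ⟨hca, hcb⟩, e1]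
  refine ⟨_, _, _, some v2, hC', (EqW.of_iso hiso hA.gd).trans ((e3.chf hab).trans
    (EqW.of_mv hC.gd hC'.gd ?_)), ?_, ?_⟩
  · refine ⟨none, ?_, ?_, ?_, rfl, rfl, ?_⟩
    · change (none : Option V2) ≠ some _
      simp
    · change (none : Option V2) ≠ some _
      simp
    · change (some (A2 (inr none)) : Option V2) ≠ some v2
      exact fun h => e2 (Option.some.inj h)
    · rintro (y | x)
      · left; rfl
      · change ch a b A2 (inr x) = ch a b A2 (inr (Equiv.swap b c x)) ∨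
          ((ch a b A2 (inr x) = none ∨ ch a b A2 (inr x) = some (A2 (inr none))) ∧
          (ch a b A2 (inr (Equiv.swap b c x)) = none ∨
            ch a b A2 (inr (Equiv.swap b c x)) = some (A2 (inr none))))
        by_cases hb : x = b
        · rw [hb, Equiv.swap_apply_left, cb, cc]
          simp
        · by_cases hc : x = c
          · rw [hc, Equiv.swap_apply_right, cb, cc]
            simp
          · rw [Equiv.swap_apply_of_ne_of_ne hb hc]
            left; rfl
  · change ch a b A2 (inr (Equiv.swap b c a)) = ch a b A2 (inr (Equiv.swap b c c))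
    rw [Equiv.swap_apply_right, Equiv.swap_apply_of_ne_of_ne hab hca.symm, ca, cb]
  · change ch a b A2 (inr (Equiv.swap b c a)) ≠ some v2
    rw [Equiv.swap_apply_of_ne_of_ne hab hca.symm, ca]
    simp

lemma step (h3 : D1c) {n : ℕ} (IH : TreeEq (n + 4)) : TreeEq (n + 5) := by
  intro L hL hn V E V' E' A v0 A' v0' τ hτ hA hA'
  obtain ⟨i0, j0, hc0, h0⟩ : ∃ i j, τ i = τ j ∧ i ≠ j := by
    have h1 : ¬τ.Injective := by
      intro hi
      have h2 := Nat.card_le_card_of_injective τ hi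
      rw [Nat.card_eq_fintype_card (α := Fin 4), Fintype.card_fin] at h2
      omega
    unfold Function.Injective at h1
    push Not at h1
    exact h1
  have key : ∀ (V E : Type) (A : (E × Bool) ⊕ L → V) (v0 : V), Ty 4 A v0 τ →
      ∃ (V' E' : Type) (B : (E' × Bool) ⊕ Option {x // x ≠ i0 ∧ x ≠ j0} → V') (w0 : V'),
        Ty 4 B w0 (pl τ i0 j0) ∧ EqW A (ch i0 j0 B) := by
    intro V E A v0 hA
    -- it is enough to have the two legs at one vertex
    have red : (∃ (V' E' : Type) (B : (E' × Bool) ⊕ L → V') (w0 : V'), Ty 4 B w0 τ ∧ EqW A B ∧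
        B (inr i0) = B (inr j0) ∧ B (inr i0) ≠ w0) →
        ∃ (V' E' : Type) (B : (E' × Bool) ⊕ Option {x // x ≠ i0 ∧ x ≠ j0} → V') (w0 : V'),
          Ty 4 B w0 (pl τ i0 j0) ∧ EqW A (ch i0 j0 B) := by
      rintro ⟨V1, E1, B, w0, hB, e1, e2, e3⟩
      obtain ⟨-, V2, E2, B2, w2, hB2, hiso, -, -⟩ := d1b_ty hL hB h0 e2 e3
      exact ⟨V2, E2, B2, w2, hB2, e1.trans (EqW.of_iso hiso hB.gd)⟩
    apply red
    have hcl := hA.gd.card_legs hA.tree
    obtain ⟨i, j, hij, h1, h2⟩ := exists_cherry_R hA.gd hA.tree (by omega)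
    by_cases ha : i0 = i ∨ i0 = j
    · by_cases hb : j0 = i ∨ j0 = j
      · -- the same pair
        refine ⟨V, E, A, v0, hA, EqW.refl A, ?_, ?_⟩
        · rcases ha with ha | ha <;> rcases hb with hb | hb <;> simp only [ha, hb, h1]
        · rcases ha with ha | ha
          · rw [ha]; exact h2
          · rw [ha, ← h1]; exact h2
      · push Not at hb
        rcases ha with rfl | rfl
        · exact ovl h3 IH hL hn hτ hA hij hb.1 hb.2 hc0 h1 h2
        · exact ovl h3 IH hL hn hτ hA hij.symm hb.2 hb.1 hc0 h1.symm (by rw [← h1]; exact h2)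
    · by_cases hb : j0 = i ∨ j0 = j
      · push Not at ha
        have hx : ∃ (V' E' : Type) (B : (E' × Bool) ⊕ L → V') (w0 : V'), Ty 4 B w0 τ ∧
            EqW A B ∧ B (inr j0) = B (inr i0) ∧ B (inr j0) ≠ w0 := by
          rcases hb with rfl | rfl
          · exact ovl h3 IH hL hn hτ hA hij ha.1 ha.2 hc0.symm h1 h2
          · exact ovl h3 IH hL hn hτ hA hij.symm ha.2 ha.1 hc0.symm h1.symm
              (by rw [← h1]; exact h2)
        obtain ⟨V1, E1, B, w0, hB, e1, e2, e3⟩ := hx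
        exact ⟨V1, E1, B, w0, hB, e1, e2.symm, by rw [← e2]; exact e3⟩
      · push Not at ha hb
        exact disj h3 IH hL hn hτ hA hij h0 ha hb hc0 h1 h2
  obtain ⟨V1, E1, B, w, hB, e1⟩ := key V E A v0 hA
  obtain ⟨V1', E1', B', w', hB', e1'⟩ := key V' E' A' v0' hA'
  have hcard := card_two h0
  have e2 : EqW B B' := IH _ inferInstance (by omega) _ _ _ _ B w B' w' (pl τ i0 j0)
    (pl_surj hτ hc0) hB hB'
  exact (e1.trans (e2.chf h0)).trans e1'.symm

lemma treeEq (h3 : D1c) (n : ℕ) : TreeEq (n + 4) := by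
  induction n with
  | zero =>
    intro L hL hn V E V' E' A v0 A' v0' τ _ hA hA'
    exact base hL hn hA hA'
  | succ n ih => exact step h3 ih

end D2x

/-- **Block D2.** -/
theorem d2_of (h3 : D1c) : D2 := by
  intro L f V E V' E' A v0 A' v0' τ hL hτ hf hA hA'
  obtain ⟨n, hn⟩ : ∃ n, Nat.card L = n + 4 := by
    have h1 := Nat.card_le_card_of_surjective τ hτ
    rw [Nat.card_eq_fintype_card (α := Fin 4), Fintype.card_fin] at h1
    exact ⟨Nat.card L - 4, by omega⟩
  exact D2x.treeEq h3 n L hL hn V E V' E' A v0 A' v0' τ hτ hA hA' f hf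

/-- **Block D2**, unconditional. -/
theorem d2 : D2 := d2_of (d1c d1a)

end Vale.Agent.P273.C1
end
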