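import Vale.Agent.P273.C1.D3a

/-!
Block D3b: gluing legs.
-/

noncomputable section
namespace Vale.Agent.P273.C1
open Sum Vale.Agent.P273
open scoped Classical

namespace D3b

variable {V E L T V' E' : Type}

/-- The attaching map after gluing is again good. -/
lemma gd_glue [Finite T] {k : ℕ} {A : (E × Bool) ⊕ (L ⊕ T × Bool) → V} {v0 : V}
    (h : Gd k A v0) : Gd k (lpg A) v0 where
  fV := h.fV
  fE := by
    have := h.fE
    infer_instance
  root := by
    rw [← h.root]
    exact Nat.card_congr ((lpgE E L T).subtypeEquiv (fun y => Iff.rfl))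
  cub := fun v hv => by
    rw [← h.cub v hv]
    exact Nat.card_congr ((lpgE E L T).subtypeEquiv (fun y => Iff.rfl))
  conn := fun s hs => h.conn s (fun e => hs (inl e))

/-- The bijection of half-edges after gluing. -/
def glueE (ρ : E × Bool ≃ E' × Bool) : (E ⊕ T) × Bool ≃ (E' ⊕ T) × Bool where
  toFun y := y.1.elim (fun e => (inl (ρ (e, y.2)).1, (ρ (e, y.2)).2)) (fun t => (inr t, y.2))
  invFun y := y.1.elim (fun e => (inl (ρ.symm (e, y.2)).1, (ρ.symm (e, y.2)).2))
    (fun t => (inr t, y.2))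
  left_inv := by rintro ⟨e | t, b⟩ <;> simp
  right_inv := by rintro ⟨e | t, b⟩ <;> simp

/-- Isomorphic attaching maps stay isomorphic after gluing. -/
lemma iso_glue {A : (E × Bool) ⊕ (L ⊕ T × Bool) → V} {v0 : V}
    {A' : (E' × Bool) ⊕ (L ⊕ T × Bool) → V'} {v0' : V'} (h : IsoR A v0 A' v0') :
    IsoR (lpg A) v0 (lpg A') v0' := by
  obtain ⟨φ, ρ, h1, h2, h3⟩ := h
  refine ⟨φ, glueE ρ, ?_, ?_, h3⟩
  · rintro (e | t)
    · exact congrArg inl (h1 e)
    · rfl
  · rintro (⟨e | t, b⟩ | x)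
    · exact h2 (inl (e, b))
    · exact h2 (inr (inr (t, b)))
    · exact h2 (inr (inl x))

/-- Moves stay moves after gluing. -/
lemma mv_glue {A A' : (E × Bool) ⊕ (L ⊕ T × Bool) → V} {v0 : V} (h : MvR A A' v0) :
    MvR (lpg A) (lpg A') v0 := by
  obtain ⟨e, h1, h2, h3, h4, h5, h6⟩ := h
  exact ⟨inl e, h1, h2, h3, h4, h5, fun y => h6 (lpgE E L T y)⟩

/-- The new edge and the glued legs in the other order. -/
def optE (E T : Type) : Option E ⊕ T ≃ Option (E ⊕ T) where
  toFun := Sum.elim (fun o => o.elim none (fun e => some (inl e))) (fun t => some (inr t))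
  invFun o := o.elim (inl none) (Sum.elim (fun e => inl (some e)) inr)
  left_inv := by rintro ((_ | e) | t) <;> rfl
  right_inv := by rintro (_ | (e | t)) <;> rfl

/-- Splitting and gluing commute. -/
lemma sp_glue (A : (E × Bool) ⊕ (L ⊕ T × Bool) → V) (v0 : V)
    (a b : (E × Bool) ⊕ (L ⊕ T × Bool)) :
    IsoR (lpg (sp A v0 a b)) (some v0)
      (sp (lpg A) v0 ((lpgE E L T).symm a) ((lpgE E L T).symm b)) (some v0) := by
  refine ⟨Equiv.refl _, Equiv.prodCongr (optE E T) (Equiv.refl Bool), fun _ => rfl, ?_, rfl⟩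
  have key : ∀ y : ((E ⊕ T) × Bool) ⊕ L,
      sp (lpg A) v0 ((lpgE E L T).symm a) ((lpgE E L T).symm b) (D3a.old y) =
        sp A v0 a b (D3a.old (lpgE E L T y)) := by
    intro y
    rw [D3a.sp_old, D3a.sp_old]
    by_cases h : lpgE E L T y = a ∨ lpgE E L T y = b
    · rw [if_pos h, if_pos]
      rw [Equiv.eq_symm_apply, Equiv.eq_symm_apply]
      exact h
    · rw [if_neg h, if_neg]
      · rfl
      · rw [Equiv.eq_symm_apply, Equiv.eq_symm_apply]
        exact h
  rintro (⟨(_ | e) | t, s⟩ | x)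
  · rfl
  · exact key (inl (inl e, s))
  · exact key (inl (inr t, s))
  · exact key (inr x)

/-- The value on a split graph after gluing. -/
lemma f_sp_glue [Finite T] {f : ∀ V E : Type, ((E × Bool) ⊕ L → V) → ℚ} (hf : W f)
    {A : (E × Bool) ⊕ (L ⊕ T × Bool) → V} {v0 : V} {a b : (E × Bool) ⊕ (L ⊕ T × Bool)}
    (h : Gd 5 A v0) (hab : a ≠ b) (ha : A a = v0) (hb : A b = v0) :
    f (Option V) (Option E ⊕ T) (lpg (sp A v0 a b)) = f (Option V) (Option (E ⊕ T))
      (sp (lpg A) v0 ((lpgE E L T).symm a) ((lpgE E L T).symm b)) :=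
  hf.iso _ _ _ _ _ _ (some v0) (some v0) (sp_glue A v0 a b) (gd_glue (gd_sp h hab ha hb))

end D3b

open D3b in
/-- Block D3b. -/
theorem d3b : D3b := by
  intro L T f _ _ hf
  refine ⟨?_, ?_, ?_⟩
  · intro V E V' E' A A' v0 v0' h hA
    exact hf.iso _ _ _ _ _ _ v0 v0' (iso_glue h) (gd_glue hA)
  · intro V E A A' v0 hA hA' h
    exact hf.mv _ _ _ _ v0 (gd_glue hA) (gd_glue hA') (mv_glue h)
  · intro V E A v0 a b c d hA ha hb hc hd hab hac had hbc hbd hcd
    show f (Option V) (Option E ⊕ T) (lpg (sp A v0 a b)) +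
        f (Option V) (Option E ⊕ T) (lpg (sp A v0 c d)) =
      f (Option V) (Option E ⊕ T) (lpg (sp A v0 a c)) +
        f (Option V) (Option E ⊕ T) (lpg (sp A v0 b d))
    rw [f_sp_glue hf hA hab ha hb, f_sp_glue hf hA hcd hc hd, f_sp_glue hf hA hac ha hc,
      f_sp_glue hf hA hbd hb hd]
    have hl : ∀ y, A y = v0 → lpg A ((lpgE E L T).symm y) = v0 := by
      intro y hy
      unfold lpg
      rw [Equiv.apply_symm_apply]
      exact hy
    have hi : ∀ {y z : (E × Bool) ⊕ (L ⊕ T × Bool)}, y ≠ z →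
        (lpgE E L T).symm y ≠ (lpgE E L T).symm z := fun h h' => h ((lpgE E L T).symm.injective h')
    exact hf.keel _ _ (lpg A) v0 _ _ _ _ (gd_glue hA) (hl a ha) (hl b hb) (hl c hc) (hl d hd)
      (hi hab) (hi hac) (hi had) (hi hbc) (hi hbd) (hi hcd)

end Vale.Agent.P273.C1
end
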