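import Vale.Agent.P273.C1.Defs

/-! Block D4a: every graph of genus `g` is obtained from a tree by gluing `g` pairs of legs. -/

noncomputable section
namespace Vale.Agent.P273.C1
open Sum Vale.Agent.P273
open scoped Classical

lemma d4a_cut (V : Type) [Finite V] : ∀ (g : ℕ) (E : Type) (s t : E → V), Finite E →
    Conn.Conn s t → Nat.card E + 1 = g + Nat.card V →
    ∃ (E0 : Type) (ι : E0 ⊕ Fin g ≃ E),
      Conn.Conn (fun e : E0 => s (ι (inl e))) (fun e : E0 => t (ι (inl e))) := by
  intro g
  induction g with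
  | zero =>
    intro E s t _ h _
    exact ⟨E, Equiv.sumEmpty E (Fin 0), h⟩
  | succ g ih =>
    intro E s t _ h hc
    have := Fintype.ofFinite V
    have := Fintype.ofFinite E
    rw [Nat.card_eq_fintype_card, Nat.card_eq_fintype_card] at hc
    obtain ⟨e₀, he⟩ := Conn.exists_removable s t h (by omega)
    have h1 : Nat.card {e : E // e ≠ e₀} + 1 = g + Nat.card V := by
      have h2 := Nat.card_congr (Equiv.optionSubtypeNe e₀)
      rw [Finite.card_option, Nat.card_eq_fintype_card (α := E)] at h2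
      rw [h2, Nat.card_eq_fintype_card (α := V)]
      omega
    obtain ⟨E0, ι, hι⟩ := ih {e : E // e ≠ e₀} (fun e => s e.1) (fun e => t e.1) inferInstance he h1
    let j : E0 ⊕ Fin (g + 1) ≃ Option (E0 ⊕ Fin g) :=
      { toFun := Sum.elim (fun e => some (inl e)) (Fin.cases none (fun i => some (inr i)))
        invFun := fun z => z.elim (inr 0) (Sum.elim inl (fun i => inr i.succ))
        left_inv := by
          rintro (e | i)
          · rfl
          · refine Fin.cases ?_ (fun i => ?_) i
            · rfl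
            · rfl
        right_inv := by
          rintro (_ | e | i)
          · rfl
          · rfl
          · rfl }
    refine ⟨E0, (j.trans ι.optionCongr).trans (Equiv.optionSubtypeNe e₀), ?_⟩
    have h3 : ∀ e : E0, ((j.trans ι.optionCongr).trans (Equiv.optionSubtypeNe e₀)) (inl e) =
        (ι (inl e)).1 := fun e => rfl
    simp_rw [h3]
    exact hι

theorem d4a : D4a := by
  intro k g L V E A v0 _ hA hc
  have := hA.fV
  have := hA.fE
  obtain ⟨E0, ι, hι⟩ := d4a_cut V g E (fun e => A (inl (e, true))) (fun e => A (inl (e, false)))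
    inferInstance ⟨⟨v0⟩, fun U hU h => (hA.conn U h).resolve_left
      (Set.nonempty_iff_ne_empty.mp hU)⟩ hc
  have hfE0 : Finite E0 := Finite.of_injective (fun e => ι (inl e))
    (fun a b h => inl_injective (ι.injective h))
  let A0 : (E0 × Bool) ⊕ (L ⊕ Fin g × Bool) → V :=
    Sum.elim (fun y => A (inl (ι (inl y.1), y.2)))
      (Sum.elim (fun x => A (inr x)) (fun y => A (inl (ι (inr y.1), y.2))))
  let Θ : (E0 × Bool) ⊕ (L ⊕ Fin g × Bool) ≃ (E × Bool) ⊕ L :=
    (lpgE E0 L (Fin g)).symm.trans
      (Equiv.sumCongr (Equiv.prodCongr ι (Equiv.refl Bool)) (Equiv.refl L))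
  have hΘ : ∀ y, A (Θ y) = A0 y := by
    rintro (⟨e, b⟩ | x | ⟨t, b⟩) <;> rfl
  have hcard : ∀ v, Nat.card {y // A0 y = v} = Nat.card {y // A y = v} := by
    intro v
    exact Nat.card_congr (Θ.subtypeEquiv (fun y => by rw [hΘ]))
  refine ⟨E0, A0, ⟨hA.fV, hfE0, ?_, ?_, ?_⟩, ?_, Equiv.refl V,
    Equiv.prodCongr ι.symm (Equiv.refl Bool), fun e => rfl, ?_, rfl⟩
  · rw [hcard]
    exact hA.root
  · intro v hv
    rw [hcard]
    exact hA.cub v hv
  · intro s hs
    by_cases h : s = ∅
    · exact Or.inl h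
    · exact Or.inr (hι.2 s (Set.nonempty_iff_ne_empty.mpr h) hs)
  · have h2 := Nat.card_congr ι
    rw [Nat.card_sum, Nat.card_fin] at h2
    omega
  · rintro (⟨e, b⟩ | x)
    · obtain ⟨z, rfl⟩ := ι.surjective e
      have h4 : Sum.map (⇑(ι.symm.prodCongr (Equiv.refl Bool))) id
          (inl (ι z, b) : (E × Bool) ⊕ L) = inl (z, b) := by
        simp
      rw [h4]
      rcases z with e | t <;> rfl
    · rfl

end Vale.Agent.P273.C1
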