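import Vale.Agent.P273.C1.Defs

/-!
Codegree one, block D4b: moving a leg along a glued edge.
-/

set_option linter.all false

noncomputable section
namespace Vale.Agent.P273.C1
open Sum Vale.Agent.P273
open scoped Classical

/-- Types are invariant under relabelling of the legs. -/
private lemma d4b_relabel {k : ℕ} {V E L L' : Type} (r : L' ≃ L) {A : (E × Bool) ⊕ L → V} {v0 : V}
    {τ : L → Fin k} (h : Ty k A v0 τ) :
    Ty k (fun y : (E × Bool) ⊕ L' => A (y.map id r)) v0 (fun x => τ (r x)) := by
  obtain ⟨gd, tree, β, h1, h2, h3, h4⟩ := h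
  refine ⟨⟨gd.fV, gd.fE, ?_, ?_, fun s hs => gd.conn s hs⟩, tree, fun y => β (y.map id r), h1,
    fun y z => h2 _ _, fun y z a b c =>
      (Equiv.sumCongr (Equiv.refl (E × Bool)) r).injective (h3 _ _ a b c), fun x => h4 (r x)⟩
  · rw [← gd.root]
    exact Nat.card_congr ((Equiv.sumCongr (Equiv.refl (E × Bool)) r).subtypeEquiv
      (fun y => Iff.rfl))
  · intro v hv
    rw [← gd.cub v hv]
    exact Nat.card_congr ((Equiv.sumCongr (Equiv.refl (E × Bool)) r).subtypeEquiv
      (fun y => Iff.rfl))

/-- The new names of the legs. -/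
private def d4b_r {M : Type} {x h h' : M} (hx : h' ≠ x) (hh : h' ≠ h) (hx' : h ≠ x) :
    Option {y : M // y ≠ x ∧ y ≠ h'} ≃ Option {y : M // y ≠ x ∧ y ≠ h} where
  toFun := fun z => z.elim (some ⟨h', hx, hh⟩)
    (fun y => if hy : y.1 = h then none else some ⟨y.1, y.2.1, hy⟩)
  invFun := fun z => z.elim (some ⟨h, hx', fun e => hh e.symm⟩)
    (fun y => if hy : y.1 = h' then none else some ⟨y.1, y.2.1, hy⟩)
  left_inv := by
    rintro (_ | ⟨y, hy1, hy2⟩)
    · simp
    · by_cases e : y = h
      · subst e; simp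
      · simp [e, hy2]
  right_inv := by
    rintro (_ | ⟨y, hy1, hy2⟩)
    · simp
    · by_cases e : y = h'
      · subst e; simp
      · simp [e, hy2]

/-- The exchange of the new edge and the glued edge. -/
private def d4b_ρ (E : Type) {T : Type} (t : T) (b : Bool) :
    (Option E ⊕ T) × Bool ≃ (Option E ⊕ T) × Bool where
  toFun := fun y => if y.1 = inr t then (inl none, y.2 == b) else
    if y.1 = inl none then (inr t, xor y.2 b) else y
  invFun := fun y => if y.1 = inl none then (inr t, y.2 == b) else
    if y.1 = inr t then (inl none, xor y.2 b) else y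
  left_inv := by
    rintro ⟨((_ | e) | t'), s⟩
    · cases s <;> cases b <;> simp
    · simp
    · by_cases e : t' = t
      · subst e; cases s <;> cases b <;> simp
      · simp [e]
  right_inv := by
    rintro ⟨((_ | e) | t'), s⟩
    · cases s <;> cases b <;> simp
    · simp
    · by_cases e : t' = t
      · subst e; cases s <;> cases b <;> simp
      · simp [e]

theorem d4b (h1 : D1a) (h3 : D1c) : D4b := by
  intro L T τ x t b hL hT hτ hxh hτx
  by_cases hpq : τ (inr (t, b)) = τ (inr (t, !b))
  · obtain ⟨V, E, A, v0, hA⟩ := h3 4 (L ⊕ T × Bool) τ inferInstance (by norm_num) hτ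
    refine ⟨V, E, V, E, A, v0, A, v0, hA, ?_, Equiv.refl _, Equiv.refl _, fun e => rfl, ?_, rfl⟩
    · rw [← hpq, ← hτx, Function.update_eq_self]; exact hA
    · intro y; cases y <;> rfl
  have hxh' : x ≠ inr (t, !b) := by
    rintro rfl; exact hpq hτx.symm
  have hhh' : (inr (t, !b) : L ⊕ T × Bool) ≠ inr (t, b) := by
    intro e
    exact hpq (by rw [e])
  obtain ⟨V, E, A0, v0, hA0⟩ := h3 4 (Option {y : L ⊕ T × Bool // y ≠ x ∧ y ≠ inr (t, b)})
    (Option.elim' (τ x) fun y => τ y.1) inferInstance (by norm_num) (by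
      intro c
      obtain ⟨y, hy⟩ := hτ c
      by_cases e1 : y = x
      · exact ⟨none, by rw [← hy, e1]; rfl⟩
      · by_cases e2 : y = inr (t, b)
        · exact ⟨none, by rw [← hy, e2, ← hτx]; rfl⟩
        · exact ⟨some ⟨y, e1, e2⟩, hy⟩)
  let r := d4b_r (x := x) (h := inr (t, b)) (h' := inr (t, !b)) (Ne.symm hxh') hhh' (Ne.symm hxh)
  have hr0 : r none = some ⟨inr (t, !b), Ne.symm hxh', hhh'⟩ := rfl
  have hr1 : r (some ⟨inr (t, b), Ne.symm hxh, Ne.symm hhh'⟩) = none := by
    simp [r, d4b_r]
  have hr2 : ∀ (y : L ⊕ T × Bool) (a : y ≠ x) (a' : y ≠ inr (t, !b)) (a'' : y ≠ inr (t, b)),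
      r (some ⟨y, a, a'⟩) = some ⟨y, a, a''⟩ := by
    intro y a a' a''
    simp [r, d4b_r, a'']
  have hA := (h1 4 (L ⊕ T × Bool) x (inr (t, b)) V E A0 v0 τ hxh hτx).2 hA0
  have hA' : Ty 4 (ch x (inr (t, !b)) (fun y => A0 (y.map id r))) (some v0)
      (Function.update τ x (τ (inr (t, !b)))) := by
    refine (h1 4 (L ⊕ T × Bool) x (inr (t, !b)) V E _ v0 _ hxh' ?_).2 ?_
    · rw [Function.update_self, Function.update_of_ne (Ne.symm hxh')]
    · have := d4b_relabel r hA0
      convert this using 1
      funext z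
      rcases z with (_ | ⟨y, hy1, hy2⟩)
      · rw [hr0]
        show Function.update τ x _ x = τ (inr (t, !b))
        rw [Function.update_self]
      · show Function.update τ x _ y = _
        rw [Function.update_of_ne hy1]
        by_cases e : y = inr (t, b)
        · subst e
          rw [hr1]
          exact hτx.symm
        · rw [hr2 y hy1 hy2 e]
          rfl
  refine ⟨Option V, Option E, Option V, Option E, ch x (inr (t, b)) A0, some v0,
    ch x (inr (t, !b)) (fun y => A0 (y.map id r)), some v0, hA, hA', Equiv.refl _, d4b_ρ E t b, ?_,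
    ?_, rfl⟩
  · rintro ((_ | e) | t')
    · simp [d4b_ρ]
    · simp [d4b_ρ]
    · by_cases e : t' = t
      · subst e; simp [d4b_ρ]
      · simp [d4b_ρ, e]
  · rintro (⟨((_ | e) | t'), s⟩ | l)
    · cases s
      · have e1 : (d4b_ρ E t b) (inl none, false) = (inr t, b) := by simp [d4b_ρ]
        show ch x (inr (t, !b)) (fun y => A0 (y.map id r)) (lpgE (Option E) L T
          (inl ((d4b_ρ E t b) (inl none, false)))) = some (A0 (inr none))
        rw [e1]
        show ch x (inr (t, !b)) (fun y => A0 (y.map id r)) (inr (inr (t, b))) = some (A0 (inr none))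
        simp only [ch, elim_inr]
        rw [dif_pos ⟨Ne.symm hxh, Ne.symm hhh'⟩]
        show some (A0 (inr (r _))) = _
        rw [hr1]
      · have e1 : (d4b_ρ E t b) (inl none, true) = (inr t, !b) := by simp [d4b_ρ]
        show ch x (inr (t, !b)) (fun y => A0 (y.map id r)) (lpgE (Option E) L T
          (inl ((d4b_ρ E t b) (inl none, true)))) = none
        rw [e1]
        show ch x (inr (t, !b)) (fun y => A0 (y.map id r)) (inr (inr (t, !b))) = none
        simp [ch]
    · have e1 : (d4b_ρ E t b) (inl (some e), s) = (inl (some e), s) := by simp [d4b_ρ]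
      show ch x (inr (t, !b)) (fun y => A0 (y.map id r)) (lpgE (Option E) L T
          (inl ((d4b_ρ E t b) (inl (some e), s)))) = _
      rw [e1]
      rfl
    · by_cases e : t' = t
      · subst e
        by_cases hs : s = b
        · subst hs
          have e1 : (d4b_ρ E t' s) (inr t', s) = (inl none, true) := by simp [d4b_ρ]
          show ch x (inr (t', !s)) (fun y => A0 (y.map id r)) (lpgE (Option E) L T
            (inl ((d4b_ρ E t' s) (inr t', s)))) = ch x (inr (t', s)) A0 (inr (inr (t', s)))
          rw [e1]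
          show none = _
          simp [ch]
        · have hs' : s = !b := by cases s <;> cases b <;> simp_all
          subst hs'
          have e1 : (d4b_ρ E t' b) (inr t', !b) = (inl none, false) := by
            cases b <;> simp [d4b_ρ]
          show ch x (inr (t', !b)) (fun y => A0 (y.map id r)) (lpgE (Option E) L T
            (inl ((d4b_ρ E t' b) (inr t', !b)))) = ch x (inr (t', b)) A0 (inr (inr (t', !b)))
          rw [e1]
          show some (A0 (inr (r none))) = _
          rw [hr0]
          simp only [ch, elim_inr]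
          rw [dif_pos ⟨Ne.symm hxh', hhh'⟩]
      · have e1 : (d4b_ρ E t b) (inr t', s) = (inr t', s) := by simp [d4b_ρ, e]
        show ch x (inr (t, !b)) (fun y => A0 (y.map id r)) (lpgE (Option E) L T
          (inl ((d4b_ρ E t b) (inr t', s)))) = ch x (inr (t, b)) A0 (inr (inr (t', s)))
        rw [e1]
        show ch x (inr (t, !b)) (fun y => A0 (y.map id r)) (inr (inr (t', s))) = _
        have n1 : (inr (t', s) : L ⊕ T × Bool) ≠ inr (t, b) := by
          intro h; exact e (Prod.ext_iff.1 (inr_injective h)).1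
        have n2 : (inr (t', s) : L ⊕ T × Bool) ≠ inr (t, !b) := by
          intro h; exact e (Prod.ext_iff.1 (inr_injective h)).1
        by_cases hx : (inr (t', s) : L ⊕ T × Bool) = x
        · simp [ch, hx]
        · simp only [ch, elim_inr]
          rw [dif_pos ⟨hx, n2⟩, dif_pos ⟨hx, n1⟩]
          show some (A0 (inr (r _))) = _
          rw [hr2 _ hx n2 n1]
    · show ch x (inr (t, !b)) (fun y => A0 (y.map id r)) (inr (inl l)) =
        ch x (inr (t, b)) A0 (inr (inl l))
      have n1 : (inl l : L ⊕ T × Bool) ≠ inr (t, b) := by simp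
      have n2 : (inl l : L ⊕ T × Bool) ≠ inr (t, !b) := by simp
      by_cases hx : (inl l : L ⊕ T × Bool) = x
      · simp [ch, hx]
      · simp only [ch, elim_inr]
        rw [dif_pos ⟨hx, n2⟩, dif_pos ⟨hx, n1⟩]
        show some (A0 (inr (r _))) = _
        rw [hr2 _ hx n2 n1]

end Vale.Agent.P273.C1
end
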