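import Vale.Agent.P273.C1.DDefs

/-!
Degree one: all graphs of degree one. Blocks DE and DS.
-/

noncomputable section
namespace Vale.Agent.P273.C1
open Sum Vale.Agent.P273
open scoped Classical

variable {V E L : Type}

/-! ### Removing kappa zeros -/

/-- It is enough to consider valid graphs without zeros in the kappa decorations. -/
lemma no_zero [Finite L] {g d : ℕ} {lam : F L →ₗ[ℚ] ℚ} (hlam : ∀ x, P g x → lam x = 0)
    (h : ∀ G : Gr V E L, G.Valid g → G.deg = d → (∀ v, (0 : ℕ) ∉ (G.dec v).2) →
      lam (dl G 1) = 0) : ∀ G : Gr V E L, G.deg = d → lam (dl G 1) = 0 := by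
  have main : ∀ n : ℕ, ∀ G : Gr V E L, G.deg = d → ∑ᶠ v, (G.dec v).2.card = n →
      lam (dl G 1) = 0 := by
    intro n
    induction n with
    | zero =>
      intro G hd hn
      by_cases hV : G.Valid g
      · have hfV := hV.1
        have := Fintype.ofFinite V
        apply h G hV hd
        intro v hv
        rw [finsum_eq_sum_of_fintype] at hn
        have h2 := (Finset.sum_eq_zero_iff.mp hn) v (Finset.mem_univ v)
        rw [Multiset.card_eq_zero] at h2
        rw [h2] at hv
        exact absurd hv (Multiset.notMem_zero 0)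
      · exact fl_not_valid hlam hV 1
    | succ n ih =>
      intro G hd hn
      by_cases hV : G.Valid g
      · have hfV := hV.1
        have := Fintype.ofFinite V
        by_cases h0 : ∀ v, (0 : ℕ) ∉ (G.dec v).2
        · exact h G hV hd h0
        · push Not at h0
          obtain ⟨v, ha⟩ := h0
          have hcons : 0 ::ₘ (G.dec v).2.erase 0 = (G.dec v).2 := Multiset.cons_erase ha
          have h1 := fl_dilaton hlam G v (fun f => (G.hf f.1).2) ((G.dec v).2.erase 0)
          rw [hcons, G.star_self] at h1
          rw [h1]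
          have h2 : lam (dl (G.star v (fun f => (G.hf f.1).2) ((G.dec v).2.erase 0)) 1) = 0 := by
            apply ih
            · rw [star_deg]
              · exact hd
              · conv_rhs => rw [← hcons]
                rw [Multiset.sum_cons, zero_add]
            · rw [finsum_eq_sum_of_fintype] at hn ⊢
              rw [← Finset.add_sum_erase _ _ (Finset.mem_univ v)] at hn ⊢
              have h3 : ∀ u ∈ Finset.univ.erase v,
                  ((G.star v (fun f => (G.hf f.1).2) ((G.dec v).2.erase 0)).dec u).2.card =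
                  (G.dec u).2.card := by
                intro u hu
                rw [Gr.star_dec_ne G (Finset.ne_of_mem_erase hu)]
              rw [Finset.sum_congr rfl h3, Gr.star_dec_self]
              have h4 := Multiset.card_erase_add_one ha
              change ((G.dec v).2.erase 0).card + _ = n
              omega
          rw [h2, mul_zero]
      · exact fl_not_valid hlam hV 1
  intro G hd
  exact main _ G hd rfl

lemma mul_zero_of {K : Multiset ℕ} (h0 : (0 : ℕ) ∉ K) (hs : K.sum = 0) : K = 0 := by
  induction K using Multiset.induction_on with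
  | empty => rfl
  | cons a K ih =>
    rw [Multiset.sum_cons] at hs
    exfalso
    apply h0
    have : a = 0 := by omega
    rw [this]
    exact Multiset.mem_cons_self 0 K

lemma mul_one_of {K : Multiset ℕ} (h0 : (0 : ℕ) ∉ K) (hs : K.sum = 1) : K = {1} := by
  induction K using Multiset.induction_on with
  | empty => simp at hs
  | cons a K ih =>
    rw [Multiset.sum_cons] at hs
    have ha : a ≠ 0 := by
      rintro rfl
      exact h0 (Multiset.mem_cons_self 0 K)
    have ha1 : a = 1 := by omega
    have hK : K = 0 := by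
      apply mul_zero_of
      · intro h
        exact h0 (Multiset.mem_cons_of_mem h)
      · omega
    rw [ha1, hK]
    rfl

/-! ### One edge -/

/-- A valid graph of degree one with an edge is a loop or has two vertices. -/
lemma edge_cases [Finite L] {g : ℕ} {G : Gr V E L} (hV : G.Valid g) (hE : Nonempty E)
    (hd : G.deg = 1) (h0 : ∀ v, (0 : ℕ) ∉ (G.dec v).2) :
    (0 < g ∧ G.Iso (lp1 (g - 1) : Gr (Fin 1) (Fin 1) L)) ∨
      ∃ h ≤ g, ∃ ε : L → Bool, G.Iso (pt2g g h ε) := by
  have hfV := hV.1
  have hfE := hV.2.1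
  have := Fintype.ofFinite V
  have := Fintype.ofFinite E
  have := Fintype.ofFinite L
  obtain ⟨-, hconn, hgen, -⟩ := hV.2.2.1
  unfold Gr.deg at hd
  have hEc : 0 < Nat.card E := Nat.card_pos
  have hE1 : Nat.card E = 1 := by omega
  have hK : ∑ᶠ v, (G.dec v).2.sum = 0 := by omega
  have hp : ∑ᶠ y, (G.hf y).2 = 0 := by omega
  have hK' : ∀ v, (G.dec v).2 = 0 := by
    intro v
    apply mul_zero_of (h0 v)
    rw [finsum_eq_sum_of_fintype] at hK
    exact (Finset.sum_eq_zero_iff.mp hK) v (Finset.mem_univ v)
  have hp' : ∀ y, (G.hf y).2 = 0 := by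
    intro y
    rw [finsum_eq_sum_of_fintype] at hp
    exact (Finset.sum_eq_zero_iff.mp hp) y (Finset.mem_univ y)
  obtain ⟨hsub, ⟨e⟩⟩ := Nat.card_eq_one_iff_unique.mp hE1
  have hu : ∀ e', e' = e := fun e' => Subsingleton.elim _ _
  have huniv : ({(G.hf (inl (e, true))).1, (G.hf (inl (e, false))).1} : Set V) = Set.univ := by
    rcases hconn {(G.hf (inl (e, true))).1, (G.hf (inl (e, false))).1} (by
      intro e'
      rw [hu e']
      simp) with h | h
    · exact absurd h (Set.insert_nonempty _ _).ne_empty
    · exact h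
  have hV2 : ∀ v, v = (G.hf (inl (e, true))).1 ∨ v = (G.hf (inl (e, false))).1 := by
    intro v
    have : v ∈ ({(G.hf (inl (e, true))).1, (G.hf (inl (e, false))).1} : Set V) := by
      rw [huniv]; exact Set.mem_univ v
    simpa using this
  let ρ : E ≃ Fin 1 :=
    { toFun := fun _ => 0
      invFun := fun _ => e
      left_inv := fun e' => (hu e').symm
      right_inv := fun _ => Subsingleton.elim _ _ }
  rw [finsum_eq_sum_of_fintype] at hgen
  by_cases hab : (G.hf (inl (e, true))).1 = (G.hf (inl (e, false))).1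
  · left
    have hv : ∀ v, v = (G.hf (inl (e, true))).1 := by
      intro v
      rcases hV2 v with h | h
      · exact h
      · rw [h, hab]
    let φ : V ≃ Fin 1 :=
      { toFun := fun _ => 0
        invFun := fun _ => (G.hf (inl (e, true))).1
        left_inv := fun v => (hv v).symm
        right_inv := fun _ => Subsingleton.elim _ _ }
    have hc : Nat.card V = 1 := by rw [Nat.card_congr φ]; simp
    have hs : ∑ v, (G.dec v).1 = (G.dec (G.hf (inl (e, true))).1).1 := by
      rw [← Equiv.sum_comp φ.symm]
      simp [φ]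
    rw [hs, hE1, hc] at hgen
    refine ⟨by omega, Gr.Iso.mk' φ ρ ?_ ?_ ?_⟩
    · intro v
      rw [hv v]
      refine Prod.ext ?_ (hK' _).symm
      change g - 1 = _
      omega
    · intro e' s
      exact Prod.ext rfl (hp' _).symm
    · intro x
      exact Prod.ext rfl (hp' _).symm
  · right
    let φ : V ≃ Fin 2 :=
      { toFun := fun v => if v = (G.hf (inl (e, true))).1 then 1 else 0
        invFun := fun i => if i = 1 then (G.hf (inl (e, true))).1 else (G.hf (inl (e, false))).1
        left_inv := by
          intro v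
          rcases hV2 v with h | h
          · simp [h]
          · have : v ≠ (G.hf (inl (e, true))).1 := by
              intro h'
              exact hab (h'.symm.trans h)
            simp only [this, if_false]
            simp [h]
        right_inv := by
          intro i
          fin_cases i
          · simp [Ne.symm hab]
          · simp }
    have hc : Nat.card V = 2 := by rw [Nat.card_congr φ]; simp
    have hs : ∑ v, (G.dec v).1 =
        (G.dec (G.hf (inl (e, false))).1).1 + (G.dec (G.hf (inl (e, true))).1).1 := by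
      rw [← Equiv.sum_comp φ.symm, Fin.sum_univ_two]
      simp [φ]
    rw [hs, hE1, hc] at hgen
    refine ⟨(G.dec (G.hf (inl (e, true))).1).1, by omega,
      fun x => decide ((G.hf (inr x)).1 = (G.hf (inl (e, true))).1), Gr.Iso.mk' φ ρ ?_ ?_ ?_⟩
    · intro v
      rcases hV2 v with h | h
      · have h1 : φ v = 1 := by simp [φ, h]
        rw [h1]
        refine Prod.ext ?_ ?_
        · simp [pt2g, h]
        · simp [pt2g, hK']
      · have h1 : φ v = 0 := by simp [φ, h, Ne.symm hab]
        rw [h1]
        refine Prod.ext ?_ ?_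
        · simp [pt2g, h]
          omega
        · simp [pt2g, hK']
    · intro e' s
      rw [hu e']
      refine Prod.ext ?_ (hp' _).symm
      cases s
      · simp [pt2g, φ, Ne.symm hab]
      · simp [pt2g, φ]
    · intro x
      refine Prod.ext ?_ (hp' _).symm
      simp [pt2g, φ]

/-- Graphs of degree one with an edge. -/
theorem edge_form (g : ℕ) (L : Type) (lam : F L →ₗ[ℚ] ℚ) (hL : Finite L)
    (hP : ∀ x, P g x → lam x = 0) (h1 : 0 < g → lam (dl (lp1 (g - 1)) 1) = 0)
    (h2 : ∀ h ≤ g, ∀ ε, lam (dl (pt2g g h ε) 1) = 0) :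
    ∀ (V E : Type) (G : Gr V E L), Nonempty E → G.deg = 1 → lam (dl G 1) = 0 := by
  intro V E G hE hd
  refine no_zero hP ?_ G hd
  intro G hV hd h0
  rcases edge_cases hV hE hd h0 with ⟨hg, h⟩ | ⟨h, hh, ε, hi⟩
  · rw [fl_iso hP h]
    exact h1 hg
  · rw [fl_iso hP hi]
    exact h2 h hh ε

/-! ### No edge -/

lemma vertex_cases [Finite L] {g : ℕ} {G : Gr V E L} (hV : G.Valid g) (hE : ¬ Nonempty E)
    (hd : G.deg = 1) (h0 : ∀ v, (0 : ℕ) ∉ (G.dec v).2) :
    G.Iso (pt1 g {1} (fun _ : L => 0)) ∨
      ∃ x : L, G.Iso (pt1 g 0 (fun y : L => if y = x then 1 else 0)) := by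
  have hfV := hV.1
  have := Fintype.ofFinite V
  have := Fintype.ofFinite L
  have hEe : IsEmpty E := not_nonempty_iff.mp hE
  obtain ⟨⟨v0⟩, hconn, hgen, -⟩ := hV.2.2.1
  have hv : ∀ v, v = v0 := by
    intro v
    rcases hconn {v0} (fun e => (hEe.false e).elim) with h | h
    · exact absurd h (Set.singleton_nonempty v0).ne_empty
    · have : v ∈ ({v0} : Set V) := by rw [h]; exact Set.mem_univ v
      simpa using this
  let φ : V ≃ Fin 1 :=
    { toFun := fun _ => 0
      invFun := fun _ => v0
      left_inv := fun v => (hv v).symm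
      right_inv := fun _ => Subsingleton.elim _ _ }
  let ρ : E ≃ Fin 0 := Equiv.equivOfIsEmpty E (Fin 0)
  have hc : Nat.card V = 1 := by rw [Nat.card_congr φ]; simp
  have hc' : Nat.card E = 0 := by rw [Nat.card_congr ρ]; simp
  have hsum : ∀ f : V → ℕ, ∑ᶠ v, f v = f v0 := by
    intro f
    rw [finsum_eq_sum_of_fintype, ← Equiv.sum_comp φ.symm]
    simp [φ]
  rw [hsum, hc, hc'] at hgen
  unfold Gr.deg at hd
  have := Fintype.ofFinite E
  rw [hsum, hc', finsum_eq_sum_of_fintype, Fintype.sum_sum_type] at hd
  have hz : ∑ y : E × Bool, (G.hf (inl y)).2 = 0 := by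
    apply Finset.sum_eq_zero
    intro y _
    exact (hEe.false y.1).elim
  rw [hz] at hd
  have hg : (G.dec v0).1 = g := by omega
  by_cases hk : (G.dec v0).2.sum = 1
  · left
    have hs : ∑ x, (G.hf (inr x)).2 = 0 := by omega
    have hx : ∀ x, (G.hf (inr x)).2 = 0 := fun x =>
      (Finset.sum_eq_zero_iff.mp hs) x (Finset.mem_univ x)
    refine Gr.Iso.mk' φ ρ ?_ ?_ ?_
    · intro v
      rw [hv v]
      exact Prod.ext hg.symm (mul_one_of (h0 v0) hk).symm
    · intro e
      exact (hEe.false e).elim
    · intro x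
      exact Prod.ext rfl (hx x).symm
  · right
    have hk0 : (G.dec v0).2.sum = 0 := by omega
    have hs : ∑ x, (G.hf (inr x)).2 = 1 := by omega
    obtain ⟨x, hx⟩ : ∃ x, (G.hf (inr x)).2 ≠ 0 := by
      by_contra hcon
      push Not at hcon
      simp [hcon] at hs
    rw [← Finset.add_sum_erase _ _ (Finset.mem_univ x)] at hs
    have hx1 : (G.hf (inr x)).2 = 1 := by omega
    have hs' : ∑ y ∈ Finset.univ.erase x, (G.hf (inr y)).2 = 0 := by omega
    have hy : ∀ y, y ≠ x → (G.hf (inr y)).2 = 0 := fun y h =>
      (Finset.sum_eq_zero_iff.mp hs') y (Finset.mem_erase.mpr ⟨h, Finset.mem_univ y⟩)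
    refine ⟨x, Gr.Iso.mk' φ ρ ?_ ?_ ?_⟩
    · intro v
      rw [hv v]
      exact Prod.ext hg.symm (mul_zero_of (h0 v0) hk0).symm
    · intro e
      exact (hEe.false e).elim
    · intro y
      refine Prod.ext rfl ?_
      change (if y = x then 1 else 0) = _
      by_cases h : y = x
      · rw [if_pos h, h, hx1]
      · rw [if_neg h, hy y h]

/-- Block DE. -/
theorem de : DE := by
  intro g L lam hL hP hk hp h1 h2 V E G hd
  by_cases hE : Nonempty E
  · exact edge_form g L lam hL hP h1 h2 V E G hE hd
  · refine no_zero hP ?_ G hd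
    intro G hV hd h0
    rcases vertex_cases hV hE hd h0 with h | ⟨x, h⟩
    · rw [fl_iso hP h]
      exact hk
    · rw [fl_iso hP h]
      exact hp x

/-! ### Symmetry and stability -/

lemma pt2g_iso {g h : ℕ} (hh : h ≤ g) (ε : L → Bool) :
    (pt2g g (g - h) (fun x => !ε x)).Iso (pt2g g h ε) := by
  refine ⟨fun v => if v = 1 then 0 else 1, fun y => (y.1, !y.2), ?_, ?_, fun e => rfl, ?_, ?_⟩
  · constructor
    · intro a b hab
      fin_cases a <;> fin_cases b <;> simp_all
    · intro b
      fin_cases b
      · exact ⟨1, by simp⟩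
      · exact ⟨0, by simp⟩
  · constructor
    · rintro ⟨a, s⟩ ⟨b, t⟩ hab
      simp only [Prod.mk.injEq, Bool.not_eq_eq_eq_not, Bool.not_not] at hab
      exact Prod.ext hab.1 hab.2
    · rintro ⟨a, s⟩
      exact ⟨(a, !s), by simp⟩
  · intro v
    fin_cases v
    · simp [pt2g]
      omega
    · simp [pt2g]
  · rintro (⟨e, s⟩ | x)
    · cases s <;> simp [pt2g]
    · cases hx : ε x <;> simp [pt2g, hx]

lemma nv_pt2g [Finite L] (g h : ℕ) (ε : L → Bool) :
    (pt2g g h ε).nv 1 ≤ Nat.card {x // ε x = true} + 1 := by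
  unfold Gr.nv
  rw [← Finite.card_option]
  refine Nat.card_le_card_of_injective
    (fun y : {y // ((pt2g g h ε).hf y).1 = 1} => match y with
      | ⟨inl _, _⟩ => none
      | ⟨inr x, hx⟩ => some ⟨x, by
        by_contra hne
        simp [pt2g, hne] at hx⟩) ?_
  rintro ⟨(⟨e, s⟩ | x), hy⟩ ⟨(⟨e', s'⟩ | x'), hy'⟩ hab
  · apply Subtype.ext
    have hs : s = true := by
      by_contra hne
      simp [pt2g, hne] at hy
    have hs' : s' = true := by
      by_contra hne
      simp [pt2g, hne] at hy'
    change inl (e, s) = inl (e', s')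
    rw [hs, hs', Subsingleton.elim e e']
  · simp at hab
  · simp at hab
  · simp only [Option.some.injEq, Subtype.mk.injEq] at hab
    subst hab
    rfl

/-- Block DS. -/
theorem ds : DS := by
  intro g L lam hL hP h hh ε
  refine ⟨fl_iso hP (pt2g_iso hh ε) 1, ?_⟩
  intro h0 hc
  apply fl_not_valid hP
  intro hV
  have h1 := hV.2.2.1.2.2.2 1
  have h2 := nv_pt2g g h ε
  have h3 : ((pt2g g h ε).dec 1).1 = h := by simp [pt2g]
  rw [h3] at h1
  omega

end Vale.Agent.P273.C1
end
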