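import Vale.Agent.P273.C1.DDefs

/-!
Degree one in genus one and two, from the classification of the boundary classes.
-/

noncomputable section
namespace Vale.Agent.P273.C1
open Sum Vale.Agent.P273
open scoped Classical

/-- A graph of degree one with an edge has value zero if the graphs `lp1` and `pt2g` have. -/
def EdgeForm : Prop := ∀ (g : ℕ) (L : Type) (lam : F L →ₗ[ℚ] ℚ), Finite L →
  (∀ x, P g x → lam x = 0) → (0 < g → lam (dl (lp1 (g - 1)) 1) = 0) →
  (∀ h ≤ g, ∀ ε, lam (dl (pt2g g h ε) 1) = 0) →
  ∀ (V E : Type) (G : Gr V E L), Nonempty E → G.deg = 1 → lam (dl G 1) = 0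

namespace DG12

variable {L : Type}

private theorem card_false : Nat.card {x : L // (fun _ : L => false) x = true} = 0 := by
  simp

/-- The indicator of `x`, if `p x`. -/
private def sg (x : L) (p : L → Prop) : L → Bool := fun y => decide (y = x ∧ p y)

private theorem sg_true {x : L} {p : L → Prop} {y : L} : sg x p y = true ↔ y = x ∧ p y := by
  simp [sg]

private theorem card_single (x : L) (p : L → Prop) : Nat.card {y : L // sg x p y = true} ≤ 1 := by
  have : Subsingleton {y : L // sg x p y = true} :=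
    ⟨fun a b => Subtype.ext ((sg_true.1 a.2).1.trans (sg_true.1 b.2).1.symm)⟩
  exact Finite.card_le_one_iff_subsingleton.2 inferInstance

private theorem count1 [Fintype L] :
    Fintype.card {ε : L → Bool // 2 ≤ Nat.card {x // ε x = true}} + 1 + Fintype.card L ≤
      2 ^ Fintype.card L := by
  have h := Fintype.card_le_of_injective (α := Option L ⊕
      {ε : L → Bool // 2 ≤ Nat.card {x // ε x = true}}) (β := L → Bool)
    (Sum.elim (fun o => o.elim (fun _ => false) (fun x => sg x fun _ => True))
      Subtype.val) ?_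
  · simp only [Fintype.card_sum, Fintype.card_option, Fintype.card_fun, Fintype.card_bool] at h
    omega
  · rintro ((_ | x) | ⟨ε, hε⟩) ((_ | x') | ⟨ε', hε'⟩) h
    all_goals simp only [Sum.elim_inl, Sum.elim_inr, Option.elim_none, Option.elim_some] at h
    · rfl
    · have := (congrFun h x').trans (sg_true.2 ⟨rfl, trivial⟩)
      simp at this
    · subst h
      rw [card_false] at hε'
      omega
    · have := (congrFun h x).symm.trans (sg_true.2 ⟨rfl, trivial⟩)
      simp at this
    · have := (congrFun h x).symm.trans (sg_true.2 ⟨rfl, trivial⟩)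
      rw [(sg_true.1 this).1]
    · subst h
      have := card_single x (fun _ => True)
      exact absurd (hε'.trans this) (by norm_num)
    · subst h
      rw [card_false] at hε
      omega
    · subst h
      have := card_single x' (fun _ => True)
      exact absurd (hε.trans this) (by norm_num)
    · subst h
      rfl

/-- Stable classes. -/
private def St (p : Fin 3 × (L → Bool)) : Prop :=
  ¬ (p.1 = 0 ∧ Nat.card {x // p.2 x = true} ≤ 1) ∧
    ¬ (p.1 = 2 ∧ Nat.card {x // (fun x => !p.2 x) x = true} ≤ 1)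

private def emb2 (x0 : L) :
    Option L ⊕ {p : Fin 3 × (L → Bool) // St p ∧ p.2 x0 = false} → Fin 3 × (L → Bool) :=
  Sum.elim (fun o => o.elim (2, fun y => decide (y ≠ x0))
    (fun x => (0, sg x fun y => y ≠ x0))) Subtype.val

private theorem emb2_x0 (x0 : L) (i) : (emb2 x0 i).2 x0 = false := by
  rcases i with (_ | x) | ⟨p, hp⟩
  · simp [emb2]
  · simp [emb2, sg]
  · exact hp.2

private theorem card_co (x0 : L) :
    Nat.card {x : L // (fun x => !(fun y => decide (y ≠ x0)) x) x = true} ≤ 1 := by
  have : Subsingleton {x : L // (fun x => !(fun y => decide (y ≠ x0)) x) x = true} := by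
    refine ⟨fun a b => Subtype.ext ?_⟩
    have ha := a.2
    have hb := b.2
    simp at ha hb
    exact ha.trans hb.symm
  exact Finite.card_le_one_iff_subsingleton.2 inferInstance

private theorem emb2_inj (x0 : L) : Function.Injective (emb2 x0) := by
  rintro ((_ | x) | ⟨ε, hε⟩) ((_ | x') | ⟨ε', hε'⟩) h
  all_goals simp only [emb2, Sum.elim_inl, Sum.elim_inr, Option.elim_none, Option.elim_some] at h
  · rfl
  · exact absurd (congrArg Prod.fst h) (by simp)
  · subst h
    exact absurd ⟨rfl, card_co x0⟩ hε'.1.2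
  · exact absurd (congrArg Prod.fst h) (by simp)
  · have h2 := congrArg Prod.snd h
    simp only at h2
    by_cases hx : x = x'
    · rw [hx]
    · have hx0 : x = x0 := by
        by_contra hne
        exact hx (sg_true.1 ((congrFun h2 x).symm.trans (sg_true.2 ⟨rfl, hne⟩))).1
      have hx0' : x' = x0 := by
        by_contra hne
        exact hx (sg_true.1 ((congrFun h2 x').trans (sg_true.2 ⟨rfl, hne⟩))).1.symm
      exact absurd (hx0.trans hx0'.symm) hx
  · subst h
    exact absurd ⟨rfl, card_single x (fun y => y ≠ x0)⟩ hε'.1.1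
  · subst h
    exact absurd ⟨rfl, card_co x0⟩ hε.1.2
  · subst h
    exact absurd ⟨rfl, card_single x' (fun y => y ≠ x0)⟩ hε.1.1
  · subst h
    rfl

private theorem count2 [Fintype L] (x0 : L) :
    2 * Fintype.card (Option L ⊕ {p : Fin 3 × (L → Bool) // St p ∧ p.2 x0 = false}) ≤
      3 * 2 ^ Fintype.card L := by
  have h := Fintype.card_le_of_injective
    (α := Bool × (Option L ⊕ {p : Fin 3 × (L → Bool) // St p ∧ p.2 x0 = false}))
    (β := Fin 3 × (L → Bool))
    (fun q => bif q.1 then ((emb2 x0 q.2).1, fun y => !(emb2 x0 q.2).2 y) else emb2 x0 q.2) ?_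
  · simp only [Fintype.card_prod, Fintype.card_fun, Fintype.card_bool, Fintype.card_fin] at h
    exact h
  · rintro ⟨b, i⟩ ⟨b', i'⟩ h
    have h0 := congrFun (congrArg Prod.snd h) x0
    have e1 := emb2_x0 x0 i
    have e2 := emb2_x0 x0 i'
    have hb : b = b' := by
      cases b <;> cases b' <;> simp [e1, e2] at h0 ⊢
    subst hb
    refine Prod.ext rfl (emb2_inj x0 ?_)
    cases b
    · exact h
    · have h1 := congrArg Prod.fst h
      have h2 := congrArg Prod.snd h
      simp only [cond_true] at h1 h2
      refine Prod.ext h1 (funext fun y => ?_)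
      have := congrFun h2 y
      simpa using this

end DG12

open DG12

/-- Degree one in genus one. -/
theorem dg1_of (ef : EdgeForm) : DS → DI → DegAt 1 := by
  intro hS hI L hL hn
  have := Fintype.ofFinite L
  refine ⟨Unit ⊕ {ε : L → Bool // 2 ≤ Nat.card {x // ε x = true}}, inferInstance,
    Sum.elim (fun _ => ⟨_, _, lp1 0⟩) (fun ε => ⟨_, _, pt2g 1 0 ε.1⟩), ?_, ?_⟩
  · have h := count1 (L := L)
    rw [Fintype.card_sum, Fintype.card_unit, AC, Nat.card_eq_fintype_card]
    simp only [one_ne_zero, if_false, if_true]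
    omega
  · intro lam hP ht
    have h0 := ht (inl ())
    have ht2 : ∀ ε : L → Bool, lam (dl (pt2g 1 0 ε) 1) = 0 := by
      intro ε
      by_cases h : 2 ≤ Nat.card {x // ε x = true}
      · exact ht (inr ⟨ε, h⟩)
      · exact (hS 1 L lam hL hP 0 (by omega) ε).2 rfl (by omega)
    have ht3 : ∀ h ≤ 1, ∀ ε : L → Bool, lam (dl (pt2g 1 h ε) 1) = 0 := by
      intro h hh ε
      interval_cases h
      · exact ht2 ε
      · have := (hS 1 L lam hL hP 1 le_rfl ε).1
        rw [← this]
        exact ht2 _
    exact (hI 1 L lam hL hn hP (ef 1 L lam hL hP (fun _ => h0) ht3)).1 le_rfl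

/-- Degree one in genus two. -/
theorem dg2_of (ef : EdgeForm) : DE → DS → DI → DegAt 2 := by
  intro hE hS hI L hL hn
  have := Fintype.ofFinite L
  suffices key : ∃ (I : Type) (_ : Fintype I) (D : I → DG L),
      Fintype.card I ≤ AC 2 (Nat.card L) ∧
      ∀ lam : F L →ₗ[ℚ] ℚ, (∀ x, P 2 x → lam x = 0) → (∀ i, lam (dl (D i).G 1) = 0) →
        lam (dl (lp1 1) 1) = 0 ∧
        (∀ x, lam (dl (pt1 2 0 (fun y => if y = x then 1 else 0)) 1) = 0) ∧
        ∀ h ≤ 2, ∀ ε : L → Bool, lam (dl (pt2g 2 h ε) 1) = 0 by
    obtain ⟨I, hI1, D, h1, h2⟩ := key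
    refine ⟨I, hI1, D, h1, fun lam hP ht => ?_⟩
    obtain ⟨hl, hp, hb⟩ := h2 lam hP ht
    have he := ef 2 L lam hL hP (fun _ => hl) hb
    exact hE 2 L lam hL hP ((hI 2 L lam hL hn hP he).2 rfl hp) hp (fun _ => hl) hb
  rcases isEmpty_or_nonempty L with hem | ⟨⟨x0⟩⟩
  · refine ⟨Bool, inferInstance, fun b => bif b then ⟨_, _, lp1 1⟩ else
      ⟨_, _, pt2g 2 1 (fun _ => false)⟩, ?_, ?_⟩
    · simp [AC]
    · intro lam hP ht
      refine ⟨ht true, fun x => (hem.false x).elim, ?_⟩
      have hz : ∀ ε : L → Bool, lam (dl (pt2g 2 0 ε) 1) = 0 := by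
        intro ε
        exact (hS 2 L lam hL hP 0 (by omega) ε).2 rfl (by simp)
      intro h hh ε
      interval_cases h
      · exact hz ε
      · rw [show ε = fun _ => false from funext fun x => (hem.false x).elim]
        exact ht false
      · have := (hS 2 L lam hL hP 2 le_rfl ε).1
        rw [← this]
        exact hz _
  · refine ⟨Option L ⊕ {p : Fin 3 × (L → Bool) // St p ∧ p.2 x0 = false}, inferInstance,
      Sum.elim (fun o => o.elim ⟨_, _, lp1 1⟩
        (fun x => ⟨_, _, pt1 2 0 (fun y => if y = x then 1 else 0)⟩))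
        (fun p => ⟨_, _, pt2g 2 p.1.1.1 p.1.2⟩), ?_, ?_⟩
    · have h := count2 x0
      have e : AC 2 (Nat.card L) = (3 * 2 ^ Fintype.card L + 1) / 2 := by
        rw [Nat.card_eq_fintype_card]
        rfl
      rw [e]
      omega
    · intro lam hP ht
      refine ⟨ht (inl none), fun x => ht (inl (some x)), ?_⟩
      have hA : ∀ (k : Fin 3) (ε : L → Bool), ε x0 = false →
          lam (dl (pt2g 2 k.1 ε) 1) = 0 := by
        intro k ε h0
        by_cases hs : St (k, ε)
        · exact ht (inr ⟨(k, ε), hs, h0⟩)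
        · rw [St, not_and_or, not_not, not_not] at hs
          rcases hs with ⟨hk, hc⟩ | ⟨hk, hc⟩
          · simp only at hk hc
            subst hk
            exact (hS 2 L lam hL hP 0 (by omega) ε).2 rfl hc
          · simp only at hk
            subst hk
            have h1 := (hS 2 L lam hL hP 2 le_rfl ε).1
            have h2 := (hS 2 L lam hL hP 0 (by omega) (fun x => !ε x)).2 rfl hc
            exact h1.symm.trans h2
      intro h hh ε
      cases h0 : ε x0
      · exact hA ⟨h, by omega⟩ ε h0
      · have h1 := (hS 2 L lam hL hP h hh ε).1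
        rw [← h1]
        exact hA ⟨2 - h, by omega⟩ (fun x => !ε x) (by simp [h0])

/-- Block DG1. -/
theorem dg1 (ef : EdgeForm) : DG1 := fun _ hS hI => dg1_of ef hS hI

/-- Block DG2. -/
theorem dg2 (ef : EdgeForm) : DG2 := fun hE hS hI => dg2_of ef hE hS hI

end Vale.Agent.P273.C1
end
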