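import Vale.Agent.P273.C1.DDefs

/-!
Block DG3: degree one in genus at least three.
-/

noncomputable section
namespace Vale.Agent.P273.C1
open Sum Vale.Agent.P273
open scoped Classical

namespace DG3

variable {L : Type}

/-- Extend a map to the leg `x0` by `false`. -/
def ext (x0 : L) (δ : {x // x ≠ x0} → Bool) (x : L) : Bool :=
  if h : x ≠ x0 then δ ⟨x, h⟩ else false

lemma ext_self (x0 : L) (δ : {x // x ≠ x0} → Bool) : ext x0 δ x0 = false := by
  simp [ext]

lemma ext_of_ne (x0 : L) (δ : {x // x ≠ x0} → Bool) {x : L} (h : x ≠ x0) :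
    ext x0 δ x = δ ⟨x, h⟩ := by
  simp [ext, h]

lemma ext_restrict (x0 : L) (ε : L → Bool) (h : ε x0 = false) :
    ext x0 (fun x => ε x.1) = ε := by
  funext x
  by_cases hx : x = x0
  · rw [hx, ext_self, h]
  · rw [ext_of_ne x0 _ hx]

/-- The vanishing of all two-vertex graphs from the vanishing of those with `ε x0 = false` that are
not visibly unstable. -/
lemma pt2g_zero {g : ℕ} (hg : 0 < g) [Finite L] (lam : F L →ₗ[ℚ] ℚ)
    (hS : ∀ h ≤ g, ∀ ε : L → Bool,
      lam (dl (pt2g g (g - h) (fun x => !ε x)) 1) = lam (dl (pt2g g h ε) 1) ∧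
      (h = 0 → Nat.card {x // ε x = true} ≤ 1 → lam (dl (pt2g g h ε) 1) = 0)) (x0 : L)
    (hT : ∀ h ≤ g, ∀ δ : {x // x ≠ x0} → Bool,
      ¬ ((h = 0 ∧ Nat.card {x // ext x0 δ x = true} ≤ 1) ∨ (h = g ∧ ∀ x, δ x = true)) →
      lam (dl (pt2g g h (ext x0 δ)) 1) = 0) :
    ∀ h ≤ g, ∀ ε, lam (dl (pt2g g h ε) 1) = 0 := by
  have key : ∀ h ≤ g, ∀ ε : L → Bool, ε x0 = false → lam (dl (pt2g g h ε) 1) = 0 := by
    intro h hh ε hε
    have he := ext_restrict x0 ε hε
    by_cases hb : (h = 0 ∧ Nat.card {x // ext x0 (fun x => ε x.1) x = true} ≤ 1) ∨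
        (h = g ∧ ∀ x : {x // x ≠ x0}, ε x.1 = true)
    · rcases hb with ⟨h0, hc⟩ | ⟨h1, hc⟩
      · rw [he] at hc
        exact (hS h hh ε).2 h0 hc
      · subst h1
        rw [← (hS h le_rfl ε).1, Nat.sub_self]
        refine (hS 0 (Nat.zero_le _) _).2 rfl ?_
        have hsub : Subsingleton {x // (!ε x) = true} := by
          constructor
          intro a b
          have ha : ∀ a : {x // (!ε x) = true}, a.1 = x0 := by
            intro a
            by_contra hne
            have h1 := hc ⟨a.1, hne⟩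
            have h2 := a.2
            simp only at h1
            rw [h1] at h2
            simp at h2
          exact Subtype.ext ((ha a).trans (ha b).symm)
        exact Finite.card_le_one_iff_subsingleton.2 hsub
    · have h2 := hT h hh (fun x => ε x.1) hb
      rwa [he] at h2
  intro h hh ε
  cases hε : ε x0
  · exact key h hh ε hε
  · rw [← (hS h hh ε).1]
    exact key (g - h) (Nat.sub_le _ _) _ (by simp [hε])

/-- The visibly unstable pairs. -/
def Bad (g : ℕ) (x0 : L) (p : Fin (g + 1) × ({x // x ≠ x0} → Bool)) : Prop :=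
  (p.1.1 = 0 ∧ Nat.card {x // ext x0 p.2 x = true} ≤ 1) ∨ (p.1.1 = g ∧ ∀ x, p.2 x = true)

/-- `n + 1` visibly unstable pairs. -/
def bd (g : ℕ) (x0 : L) : Option L → Fin (g + 1) × ({x // x ≠ x0} → Bool)
  | none => (0, fun _ => false)
  | some x => if x = x0 then (Fin.last g, fun _ => true) else (0, fun y => decide (y.1 = x))

lemma bd_bad (g : ℕ) [Finite L] (x0 : L) (o : Option L) : Bad g x0 (bd g x0 o) := by
  rcases o with _ | x
  · left
    refine ⟨rfl, ?_⟩
    refine Finite.card_le_one_iff_subsingleton.2 ⟨fun a b => ?_⟩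
    have h := a.2
    simp [bd, ext] at h
  · by_cases hx : x = x0
    · right
      rw [show bd g x0 (some x) = (Fin.last g, fun _ => true) from if_pos hx]
      exact ⟨rfl, fun _ => rfl⟩
    · left
      simp only [bd, hx, if_false]
      refine ⟨rfl, Finite.card_le_one_iff_subsingleton.2 ⟨fun a b => ?_⟩⟩
      have ha : ∀ a : {y // ext x0 (fun z => decide (z.1 = x)) y = true}, a.1 = x := by
        intro a
        have h := a.2
        by_cases h1 : a.1 = x0
        · rw [h1, ext_self] at h
          cases h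
        · rw [ext_of_ne x0 _ h1] at h
          simpa using h
      exact Subtype.ext ((ha a).trans (ha b).symm)

lemma bd_inj (g : ℕ) (hg : 0 < g) (x0 : L) : (bd g x0).Injective := by
  have h0 : ∀ δ δ' : {x // x ≠ x0} → Bool,
      ((0 : Fin (g + 1)), δ) ≠ (Fin.last g, δ') := by
    intro δ δ' h
    have h1 := congrArg (fun p : Fin (g + 1) × ({x // x ≠ x0} → Bool) => p.1.1) h
    simp only [Fin.val_last, Fin.val_zero] at h1
    omega
  rintro (_ | x) (_ | x') h
  · rfl
  · by_cases hx : x' = x0
    · simp only [bd, hx, if_true] at h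
      exact absurd h (h0 _ _)
    · simp only [bd, hx, if_false] at h
      have h1 := congrFun (congrArg Prod.snd h) ⟨x', hx⟩
      simp at h1
  · by_cases hx : x = x0
    · simp only [bd, hx, if_true] at h
      exact absurd h.symm (h0 _ _)
    · simp only [bd, hx, if_false] at h
      have h1 := congrFun (congrArg Prod.snd h) ⟨x, hx⟩
      simp at h1
  · by_cases hx : x = x0
    · by_cases hx' : x' = x0
      · rw [hx, hx']
      · simp only [bd, hx, hx', if_true, if_false] at h
        exact absurd h.symm (h0 _ _)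
    · by_cases hx' : x' = x0
      · simp only [bd, hx, hx', if_true, if_false] at h
        exact absurd h (h0 _ _)
      · simp only [bd, hx, hx', if_false] at h
        have h1 := congrFun (congrArg Prod.snd h) ⟨x, hx⟩
        simp only [decide_true] at h1
        have h2 : x = x' := by simpa using h1.symm
        rw [h2]

/-- The number of remaining pairs. -/
lemma card_good (g : ℕ) (hg : 0 < g) [Fintype L] (x0 : L) (k : ℕ) (hk : Fintype.card L = k + 1) :
    Fintype.card {p // ¬ Bad g x0 p} + (k + 2) ≤ (g + 1) * 2 ^ k := by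
  have h1 : Fintype.card (Fin (g + 1) × ({x // x ≠ x0} → Bool)) = (g + 1) * 2 ^ k := by
    have h2 : Fintype.card {x // x ≠ x0} = k := by
      have h3 := Fintype.card_subtype_compl (fun x => x = x0)
      rw [Fintype.card_subtype_eq, hk] at h3
      exact h3
    rw [Fintype.card_prod, Fintype.card_fin, Fintype.card_fun, Fintype.card_bool, h2]
  have h4 : Fintype.card (Option L) ≤ Fintype.card {p // Bad g x0 p} :=
    Fintype.card_le_of_injective (fun o => ⟨bd g x0 o, bd_bad g x0 o⟩)
      (fun a b h => bd_inj g hg x0 (congrArg Subtype.val h))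
  rw [Fintype.card_option, hk] at h4
  have h5 := Fintype.card_subtype_compl (Bad g x0)
  have h6 := Fintype.card_subtype_le (Bad g x0)
  rw [h1] at h5 h6
  omega

/-- The tests other than the graphs with two vertices. -/
def tst (g : ℕ) (L : Type) : Unit ⊕ L ⊕ Unit → DG L :=
  Sum.elim (fun _ => ⟨Fin 1, Fin 0, pt1 g {1} (fun _ => 0)⟩)
    (Sum.elim (fun x => ⟨Fin 1, Fin 0, pt1 g 0 (fun y => if y = x then 1 else 0)⟩)
      (fun _ => ⟨Fin 1, Fin 1, lp1 (g - 1)⟩))

end DG3

open DG3 in
/-- Block DG3. -/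
theorem dg3 : DG3 := by
  intro hE hS g hg L hL _
  have := Fintype.ofFinite L
  have hAC : AC g (Nat.card L) = ((g + 1) * 2 ^ Nat.card L + 1) / 2 + 1 := by
    unfold AC
    rw [if_neg (by omega), if_neg (by omega), if_neg (by omega)]
  rcases isEmpty_or_nonempty L with hem | ⟨⟨x0⟩⟩
  · have h0 : Fintype.card L = 0 := Fintype.card_eq_zero
    have h0' : Nat.card L = 0 := by rw [Nat.card_eq_fintype_card, h0]
    refine ⟨(Unit ⊕ L ⊕ Unit) ⊕ Fin (g / 2), inferInstance,
      Sum.elim (tst g L) (fun i => ⟨Fin 2, Fin 1, pt2g g (i.1 + 1) (fun _ => false)⟩), ?_, ?_⟩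
    · rw [hAC, h0']
      simp only [Fintype.card_sum, Fintype.card_unit, Fintype.card_fin, h0]
      omega
    · intro lam hP hT
      have hsub : Subsingleton (L → Bool) := inferInstance
      have hS' := hS g L lam hL hP
      have key : ∀ h, h ≤ g / 2 → ∀ ε, lam (dl (pt2g g h ε) 1) = 0 := by
        intro h hh ε
        rcases Nat.eq_zero_or_pos h with h1 | h1
        · refine (hS' h (by omega) ε).2 h1 ?_
          have : IsEmpty {x // ε x = true} := ⟨fun a => hem.false a.1⟩
          rw [Nat.card_of_isEmpty]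
          omega
        · have h2 := hT (inr ⟨h - 1, by omega⟩)
          have h3 : h - 1 + 1 = h := by omega
          simp only [Sum.elim_inr, h3] at h2
          rwa [hsub.elim ε (fun _ => false)]
      refine hE g L lam hL hP (hT (inl (inl ()))) (fun x => hT (inl (inr (inl x))))
        (fun _ => hT (inl (inr (inr ())))) ?_
      intro h hh ε
      by_cases h1 : h ≤ g / 2
      · exact key h h1 ε
      · rw [← (hS' h hh ε).1]
        exact key (g - h) (by omega) _
  · obtain ⟨k, hk⟩ : ∃ k, Fintype.card L = k + 1 :=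
      Nat.exists_eq_succ_of_ne_zero (Fintype.card_pos_iff.2 ⟨x0⟩).ne'
    refine ⟨(Unit ⊕ L ⊕ Unit) ⊕ {p // ¬ Bad g x0 p}, inferInstance,
      Sum.elim (tst g L) (fun p => ⟨Fin 2, Fin 1, pt2g g p.1.1.1 (ext x0 p.1.2)⟩), ?_, ?_⟩
    · rw [hAC, Nat.card_eq_fintype_card, hk]
      have h1 := card_good g (by omega) x0 k hk
      have h2 : ((g + 1) * 2 ^ (k + 1) + 1) / 2 = (g + 1) * 2 ^ k := by
        rw [pow_succ, ← mul_assoc]
        omega
      rw [h2]
      simp only [Fintype.card_sum, Fintype.card_unit, hk]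
      omega
    · intro lam hP hT
      refine hE g L lam hL hP (hT (inl (inl ()))) (fun x => hT (inl (inr (inl x))))
        (fun _ => hT (inl (inr (inr ())))) ?_
      refine pt2g_zero (by omega) lam (hS g L lam hL hP) x0 ?_
      intro h hh δ hb
      exact hT (inr ⟨(⟨h, by omega⟩, δ), hb⟩)

end Vale.Agent.P273.C1
end
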