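import Vale.Agent.P273.C1.DDefs
import Vale.Agent.P273.C1.AB12

/-!
Block DI: degree one, the interior classes.
-/

set_option linter.all false

noncomputable section

namespace Vale.Agent.P273.C1.DIx
open Finset MvPolynomial Vale.Agent.P273.Alg

variable {P : Type} [Fintype P]

open Classical in
/-- the exponent function of one psi class -/
def dt (p : P) : P → ℕ := fun x => if x = p then 1 else 0

open Classical in
lemma sum_dt (p : P) : ∑ x, dt p x = 1 := by
  simp [dt]

lemma dt_self (p : P) : dt p p = 1 := by simp [dt]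

lemma dt_ne {p x : P} (h : x ≠ p) : dt p x = 0 := by simp [dt, h]

lemma dt_inj : (dt : P → P → ℕ).Injective := by
  intro p p' h
  by_contra hne
  have h1 := congrFun h p
  rw [dt_self, dt_ne hne] at h1
  exact one_ne_zero h1

lemma small_cases (c : P → ℕ) (h : ∑ x, c x ≤ 1) : c = (fun _ => 0) ∨ ∃ p, c = dt p := by
  classical
  by_cases h0 : ∑ x, c x = 0
  · left
    funext x
    exact (sum_eq_zero_iff.mp h0) x (mem_univ x)
  · right
    obtain ⟨p, -, hp⟩ := exists_ne_zero_of_sum_ne_zero h0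
    refine ⟨p, ?_⟩
    have h1 := add_sum_erase univ c (mem_univ p)
    have h2 : ∑ x ∈ univ.erase p, c x = 0 := by omega
    funext x
    by_cases hx : x = p
    · subst hx
      rw [dt_self]
      omega
    · rw [dt_ne hx]
      exact (sum_eq_zero_iff.mp h2) x (mem_erase.mpr ⟨hx, mem_univ x⟩)

lemma Psi_one {χ : ℚ} {Φ : (P → ℕ) → MvPolynomial ℕ ℚ →ₗ[ℚ] ℚ}
    (hΦ : Fun P χ 1 Φ) (w : P → ℕ → ℚ) (q : MvPolynomial ℕ ℚ) :
    Psi 1 Φ w q = (∏ x, w x 0) * Φ (fun _ => 0) (ex 1 * q) +
      ∑ p, (∏ x, w x (dt p x)) * Φ (dt p) (ex 1 * q) := by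
  classical
  have hsub : (insert (fun _ => 0) (univ.image dt) : Finset (P → ℕ)) ⊆ box P 1 := by
    intro c hc
    rw [mem_box]
    simp only [mem_insert, mem_image, mem_univ, true_and] at hc
    intro x
    rcases hc with rfl | ⟨p, rfl⟩
    · exact Nat.zero_lt_two
    · by_cases hx : x = p
      · rw [hx, dt_self]; omega
      · rw [dt_ne hx]; omega
  unfold Psi
  rw [← sum_subset hsub, sum_insert, sum_image]
  · intro p _ p' _ h
    exact dt_inj h
  · simp only [mem_image, mem_univ, true_and, not_exists]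
    intro p h
    have := congrFun h p
    rw [dt_self] at this
    exact one_ne_zero this
  · intro c _ hc'
    have h3 : Φ c (ex 1 * q) = 0 := by
      apply hΦ.zero_of_Ge (Ge.zero id _)
      by_contra h4
      apply hc'
      simp only [mem_insert, mem_image, mem_univ, true_and]
      rcases small_cases c (by omega) with h5 | ⟨p, h5⟩
      · exact Or.inl h5
      · exact Or.inr ⟨p, h5.symm⟩
    rw [h3, mul_zero]

lemma prod_dt (A : P → ℕ) (p : P) (hA : A = (fun _ => 0) ∨ ∃ p', A = dt p') :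
    ∏ x, Bc (A x) (dt p x) = if A p = 0 then -60 else 84 := by
  classical
  have hA1 : ∀ x, A x = 0 ∨ A x = 1 := by
    intro x
    rcases hA with rfl | ⟨p', rfl⟩
    · exact Or.inl rfl
    · by_cases hx : x = p'
      · right; rw [hx, dt_self]
      · left; exact dt_ne hx
  rw [prod_eq_single p]
  · rw [dt_self]
    rcases hA1 p with h | h
    · rw [h, if_pos rfl, Bc_zero, b0_one]
    · rw [h, if_neg one_ne_zero, Bc_one, b1_one]
  · intro x _ hx
    rw [dt_ne hx]
    rcases hA1 x with h | h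
    · rw [h, Bc_zero, b0_zero]
    · rw [h, Bc_one, b1_zero]
  · intro h
    exact absurd (mem_univ p) h

lemma prod_zero_one (A : P → ℕ) (hA : A = (fun _ => 0) ∨ ∃ p', A = dt p') :
    ∏ x, Bc (A x) 0 = 1 := by
  classical
  apply prod_eq_one
  intro x _
  rcases hA with rfl | ⟨p', rfl⟩
  · rw [Bc_zero, b0_zero]
  · by_cases hx : x = p'
    · rw [hx, dt_self, Bc_one, b1_zero]
    · rw [dt_ne hx, Bc_zero, b0_zero]

section
variable {χ : ℚ} {Φ : (P → ℕ) → MvPolynomial ℕ ℚ →ₗ[ℚ] ℚ}

lemma v_one (hΦ : Fun P χ 1 Φ) : Φ (fun _ => 0) 1 = 0 := by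
  have e0 : (1 : MvPolynomial ℕ ℚ) = monomial 0 1 := rfl
  rw [e0]
  apply hΦ.deg
  simp

lemma v_X (hΦ : Fun P χ 1 Φ) (p : P) : Φ (dt p) (X 1) = 0 := by
  have e1 : (X 1 : MvPolynomial ℕ ℚ) = monomial (Finsupp.single 1 1) 1 := rfl
  rw [e1]
  apply hΦ.deg
  rw [sum_dt, Finsupp.weight_single]
  simp

lemma v_XX (hΦ : Fun P χ 1 Φ) (c : P → ℕ) : Φ c (X 1 * X 1) = 0 := by
  have e11 : (X 1 * X 1 : MvPolynomial ℕ ℚ) = monomial (Finsupp.single 1 2) 1 := by
    have e1 : (X 1 : MvPolynomial ℕ ℚ) = monomial (Finsupp.single 1 1) 1 := rfl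
    rw [e1, monomial_mul, one_mul, ← Finsupp.single_add]
  rw [e11]
  apply hΦ.deg
  rw [Finsupp.weight_single]
  simp

lemma v_X0 (hΦ : Fun P χ 1 Φ) (c : P → ℕ) : Φ c (X 0) = χ * Φ c 1 := by
  have := hΦ.X0 (c := c) (isHomogeneous_one ℕ ℚ)
  rw [mul_one] at this
  rw [this]
  norm_num

lemma v_X01 (hΦ : Fun P χ 1 Φ) (c : P → ℕ) : Φ c (X 0 * X 1) = (χ + 1) * Φ c (X 1) := by
  rw [hΦ.X0 (isHomogeneous_X ℚ 1)]
  norm_num

/-- the relation without extra points -/
lemma rel_zero (hΦ : Fun P χ 1 Φ) (A : P → ℕ) (hA : A = (fun _ => 0) ∨ ∃ p', A = dt p') :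
    Psi 1 Φ (fun p => Bc (A p)) 1 = 60 * Φ (fun _ => 0) (X 1) +
      ∑ p, (if A p = 0 then -60 else 84) * Φ (dt p) 1 := by
  have f1 : (ex 1 : MvPolynomial ℕ ℚ) * 1 = 1 + (60 : ℚ) • X 1 := by
    rw [ex_one_eq, smul_eq_C_mul, mul_one]
  rw [Psi_one hΦ, prod_zero_one A hA, f1]
  congr 1
  · rw [map_add, map_smul, v_one hΦ, smul_eq_mul]
    ring
  · apply sum_congr rfl
    intro p _
    rw [prod_dt A p hA, map_add, map_smul, v_X hΦ, smul_eq_mul, mul_zero, add_zero]

/-- the relation with one extra point -/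
lemma rel_one (hΦ : Fun P χ 1 Φ) :
    Psi 1 Φ (fun _ => Bc 0) (Xs 1 (Bc 1)) = (84 + 60 * (χ + 1)) * Φ (fun _ => 0) (X 1) -
      60 * χ * ∑ p, Φ (dt p) 1 := by
  have f2 : ex 1 * Xs 1 (Bc 1) = X 0 + (84 : ℚ) • X 1 + (60 : ℚ) • (X 0 * X 1) +
      (60 * 84 : ℚ) • (X 1 * X 1) := by
    rw [ex_one_eq]
    unfold Xs
    rw [sum_range_succ, sum_range_succ, sum_range_zero, Bc_one, Bc_one, b1_zero, b1_one]
    simp only [smul_eq_C_mul, map_mul, map_one]
    ring
  have h0 := prod_zero_one (P := P) (fun _ => 0) (Or.inl rfl)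
  have h1 := fun p : P => prod_dt (P := P) (fun _ => 0) p (Or.inl rfl)
  simp only [if_true] at h1
  rw [Psi_one hΦ, h0, f2, mul_sum, sub_eq_add_neg, ← sum_neg_distrib]
  congr 1
  · simp only [map_add, map_smul, smul_eq_mul, v_one hΦ, v_XX hΦ, v_X0 hΦ, v_X01 hΦ]
    ring
  · apply sum_congr rfl
    intro p _
    rw [h1 p]
    simp only [map_add, map_smul, smul_eq_mul, v_X hΦ, v_XX hΦ, v_X0 hΦ, v_X01 hΦ]
    ring
end

/-- Genus one, degree one. -/
theorem vanish_one {Φ : (P → ℕ) → MvPolynomial ℕ ℚ →ₗ[ℚ] ℚ}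
    (hΦ : Fun P (Fintype.card P) 1 Φ) (hrel : RelM 1 1 Φ) (c : P → ℕ)
    (q : MvPolynomial ℕ ℚ) : Φ c q = 0 := by
  classical
  have s1 : ∀ p, 60 * Φ (fun _ => 0) (X 1) - 60 * ∑ p, Φ (dt p) 1 + 144 * Φ (dt p) 1 = 0 := by
    intro p
    have h := hrel (dt p) 0 (by
      intro x
      by_cases hx : x = p
      · rw [hx, dt_self]; norm_num
      · rw [dt_ne hx]; norm_num) (by simp) (by rw [sum_dt]; simp) (by rw [sum_dt]; simp)
    rw [Multiset.map_zero, Multiset.prod_zero, rel_zero hΦ _ (Or.inr ⟨p, rfl⟩)] at h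
    have h2 : ∑ p', (if dt p p' = 0 then (-60 : ℚ) else 84) * Φ (dt p') 1 =
        - 60 * ∑ p, Φ (dt p) 1 + 144 * Φ (dt p) 1 := by
      have h3 : ∀ p', (if dt p p' = 0 then (-60 : ℚ) else 84) * Φ (dt p') 1 =
          -60 * Φ (dt p') 1 + (if p' = p then 144 * Φ (dt p') 1 else 0) := by
        intro p'
        by_cases hp : p' = p
        · rw [hp, dt_self, if_neg one_ne_zero, if_pos rfl]
          ring
        · rw [dt_ne hp, if_pos rfl, if_neg hp, add_zero]
      simp_rw [h3]
      rw [sum_add_distrib, ← mul_sum, sum_ite_eq' univ p, if_pos (mem_univ p)]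
    rw [h2] at h
    linarith only [h]
  have s3 := hrel (fun _ => 0) {1} (by simp) (by simp) (by simp) (by simp)
  rw [Multiset.map_singleton, Multiset.prod_singleton, rel_one hΦ] at s3
  have s2 : (Fintype.card P : ℚ) * (60 * Φ (fun _ => 0) (X 1)) -
      Fintype.card P * (60 * ∑ p, Φ (dt p) 1) + 144 * ∑ p, Φ (dt p) 1 = 0 := by
    have := sum_congr (s₁ := (univ : Finset P)) rfl (fun p _ => s1 p)
    rw [sum_add_distrib, ← mul_sum, sum_const, sum_const_zero, card_univ, nsmul_eq_mul] at this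
    linarith only [this]
  set K := Φ (fun _ => 0) (X 1) with hK
  set S := ∑ p, Φ (dt p) 1 with hS
  set n : ℚ := ((Fintype.card P : ℕ) : ℚ) with hn
  have hn0 : 0 ≤ n := by positivity
  have hS0 : S = 0 := by
    have h1 : (144 + 60 * n) * (n * (60 * K) - n * (60 * S) + 144 * S) -
        60 * n * ((84 + 60 * (n + 1)) * K - 60 * n * S) = 0 := by
      rw [s2, s3]; ring
    have h2 : 20736 * S = 0 := by linarith only [h1]
    linarith only [h2]
  have hK0 : K = 0 := by
    rw [hS0] at s3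
    have h1 : (84 + 60 * (n + 1)) * K = 0 := by linarith only [s3]
    rcases mul_eq_zero.mp h1 with h2 | h2
    · exfalso; linarith only [h2, hn0]
    · exact h2
  have hψ : ∀ p, Φ (dt p) 1 = 0 := by
    intro p
    have := s1 p
    rw [hS0, hK0] at this
    linarith only [this]
  apply hΦ.zero_of_reduced
  intro c e he
  by_cases hw : ∑ p, c p + Finsupp.weight id e = 1
  · rcases small_cases c (by omega) with h5 | ⟨p, h5⟩
    · rw [h5, wt_one he (by rw [h5] at hw; simpa using hw)]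
      exact hK0
    · rw [h5, wt_zero he (by rw [h5, sum_dt] at hw; omega)]
      exact hψ p
  · exact hΦ.deg c e hw

/-- Genus two, degree one. -/
theorem kappa_two {χ : ℚ} {Φ : (P → ℕ) → MvPolynomial ℕ ℚ →ₗ[ℚ] ℚ}
    (hΦ : Fun P χ 1 Φ) (hrel : RelM 2 1 Φ) (hψ : ∀ p, Φ (dt p) 1 = 0) :
    Φ (fun _ => 0) (X 1) = 0 := by
  have h := hrel (fun _ => 0) 0 (by simp) (by simp) (by simp) (by simp)
  rw [Multiset.map_zero, Multiset.prod_zero, rel_zero hΦ _ (Or.inl rfl)] at h
  simp only [hψ, mul_zero, sum_const_zero, add_zero] at h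
  linarith only [h]

end Vale.Agent.P273.C1.DIx

namespace Vale.Agent.P273.C1
open Sum Vale.Agent.P273
open scoped Classical

variable {V E L : Type}

/-- Block DI. -/
theorem di : DI := by
  intro g L lam hL hst hlam hE
  have IH : ∀ (V E : Type) (G : Gr V E L), G.deg = 1 → ∀ (V' E' : Type) (G' : Gr V' E' L),
      Finite V' → Finite E' → G'.deg = G.deg → Nat.card E < Nat.card E' →
      lam (dl G' 1) = 0 := by
    intro V E G hG V' E' G' _ _ hd hc
    have : Nonempty E' := (Nat.card_pos_iff.mp (by omega)).1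
    exact hE V' E' G' this (by omega)
  constructor
  · intro hg V E G hG
    by_cases hne : Nonempty E
    · exact hE V E G hne hG
    by_cases hV : G.Valid g
    swap
    · exact fl_not_valid hlam hV 1
    have hEe : IsEmpty E := not_nonempty_iff.mp hne
    have hfV : Finite V := hV.1
    have hfE : Finite E := hV.2.1
    have := Fintype.ofFinite V
    obtain ⟨⟨v⟩, hconn, hgen, hstab⟩ := hV.2.2.1
    have hsub : ∀ u : V, u = v := by
      intro u
      rcases hconn {v} (fun e => hEe.elim e) with h | h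
      · exact absurd h (Set.singleton_ne_empty v)
      · have : u ∈ ({v} : Set V) := by rw [h]; trivial
        exact this
    have hV1 : Unique V := ⟨⟨v⟩, hsub⟩
    have hcV : Nat.card V = 1 := Nat.card_unique
    have hcE : Nat.card E = 0 := by rw [Nat.card_of_isEmpty]
    have hg1 : (G.dec v).1 = g := by
      rw [finsum_eq_sum_of_fintype, hcV, hcE] at hgen
      have : ∑ u, (G.dec u).1 = (G.dec v).1 := by
        rw [Fintype.sum_eq_single v (fun u hu => absurd (hsub u) hu)]
      omega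
    have hnv : G.nv v = Nat.card L := by
      have h1 := sum_nv G
      rw [Fintype.sum_eq_single v (fun u hu => absurd (hsub u) hu), hcE] at h1
      omega
    have hD : G.degAt v = 1 := by
      have h1 := sum_degAt G
      rw [Fintype.sum_eq_single v (fun u hu => absurd (hsub u) hu), hcE] at h1
      omega
    have hst' : 2 < 2 * (G.dec v).1 + G.nv v := hstab v
    have IH' := IH V E G hG
    interval_cases hgg : g
    · apply vertex_vanish hlam G v hst' IH'
      left
      omega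
    · have := Fintype.ofFinite (G.Fl v)
      have hFun := PhiV_Fun hlam G v (G.degAt v)
      have hRel := PhiV_RelM hlam G v hst' IH'
      have hG' : lam (dl G 1) = PhiV lam G v (G.degAt v) (fun f => (G.hf f.1).2)
          (MvPolynomial.monomial (Multiset.toFinsupp (G.dec v).2) 1) := by
        rw [PhiV_monomial, if_pos, Multiset.toFinsupp_toMultiset, G.star_self]
        rw [weight_toFinsupp, Gr.degAt, finsum_eq_sum_of_fintype, add_comm]
      rw [hG']
      have e1 : (2 * ((G.dec v).1 : ℚ) - 2 + G.nv v) = (Fintype.card (G.Fl v) : ℕ) := by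
        have h2 : G.nv v = Fintype.card (G.Fl v) := Nat.card_eq_fintype_card
        rw [hg1, h2]; norm_num
      rw [e1] at hFun
      have key : ∀ D, D = 1 → ∀ γ, γ = 1 → ∀ Φ : (G.Fl v → ℕ) → MvPolynomial ℕ ℚ →ₗ[ℚ] ℚ,
          Alg.Fun (G.Fl v) (Fintype.card (G.Fl v) : ℕ) D Φ → Alg.RelM γ D Φ →
          ∀ c q, Φ c q = 0 := by
        rintro D rfl γ rfl Φ hF hR c q
        exact DIx.vanish_one hF hR c q
      exact key _ hD _ hg1 _ hFun hRel _ _
  · rintro rfl hψ
    have := Fintype.ofFinite L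
    let G : Gr (Fin 1) (Fin 0) L := pt1 2 {1} (fun _ => 0)
    have hdec : G.dec 0 = (2, {1}) := rfl
    have := Fintype.ofFinite (G.Fl 0)
    have hD : G.degAt 0 = 1 := by
      unfold Gr.degAt
      have h1 : ∀ f : G.Fl 0, (G.hf f.1).2 = 0 := by
        rintro ⟨⟨y, b⟩ | x, hf⟩
        · exact y.elim0
        · rfl
      rw [finsum_eq_zero_of_forall_eq_zero h1, hdec]
      rfl
    have hdeg : G.deg = 1 := by
      have h1 := sum_degAt G
      simp only [Finset.univ_unique, Finset.sum_singleton, Nat.card_eq_fintype_card,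
        Fintype.card_fin, add_zero] at h1
      rw [← h1]
      exact hD
    have hst' : 2 < 2 * (G.dec 0).1 + G.nv 0 := by
      rw [hdec]
      omega
    have hFun := PhiV_Fun hlam G 0 (G.degAt 0)
    have hRel := PhiV_RelM hlam G 0 hst' (IH _ _ G hdeg)
    have hval : ∀ (c : G.Fl 0 → ℕ) (e : ℕ →₀ ℕ), ∑ f, c f + Finsupp.weight id e = 1 →
        PhiV lam G 0 (G.degAt 0) c (MvPolynomial.monomial e 1) =
          lam (dl (G.star 0 c (Finsupp.toMultiset e)) 1) := by
      intro c e h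
      rw [PhiV_monomial, if_pos (by rw [hD]; exact h)]
    have key : ∀ D, D = 1 → ∀ Φ : (G.Fl 0 → ℕ) → MvPolynomial ℕ ℚ →ₗ[ℚ] ℚ,
        Alg.Fun (G.Fl 0) (2 * ((G.dec 0).1 : ℚ) - 2 + G.nv 0) D Φ → Alg.RelM 2 D Φ →
        (∀ p, Φ (DIx.dt p) 1 = 0) → Φ (fun _ => 0) (MvPolynomial.X 1) = 0 := by
      rintro D rfl Φ hF hR h
      exact DIx.kappa_two hF hR h
    have h1 := key _ hD _ hFun hRel ?_
    · have e1 : (MvPolynomial.X 1 : MvPolynomial ℕ ℚ) =
        MvPolynomial.monomial (Finsupp.single 1 1) 1 := rfl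
      rw [e1, hval _ _ (by rw [Finsupp.weight_single]; simp)] at h1
      rw [← h1]
      congr 2
      apply Gr.ext'
      · intro v
        have hv : v = 0 := Subsingleton.elim _ _
        subst hv
        rw [Gr.star_dec_self]
        simp [hdec, pt1]
      · rintro (⟨y, b⟩ | x)
        · exact y.elim0
        · have h2 : (G.hf (inr x)).1 = 0 := rfl
          rw [Gr.star_hf_of G _ _ h2]
          rfl
    · rintro ⟨⟨y, b⟩ | x, hf⟩
      · exact y.elim0
      · have e0 : (1 : MvPolynomial ℕ ℚ) = MvPolynomial.monomial 0 1 := rfl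
        rw [e0, hval _ _ (by rw [DIx.sum_dt]; simp)]
        rw [← hψ x]
        congr 2
        apply Gr.ext'
        · intro v
          have hv : v = 0 := Subsingleton.elim _ _
          subst hv
          rw [Gr.star_dec_self]
          simp [hdec, pt1]
        · rintro (⟨y, b⟩ | x')
          · exact y.elim0
          · have h2 : (G.hf (inr x')).1 = 0 := rfl
            rw [Gr.star_hf_of G _ _ h2]
            simp [DIx.dt, pt1]

end Vale.Agent.P273.C1
end
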