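import Vale.Agent.P273.C1.Defs

/-!
The relation of degree one in genus zero, for any number of points.
-/

noncomputable section
namespace Vale.Agent.P273.C1
open Sum Vale.Agent.P273 Vale.Agent.P273.Alg
open scoped Classical

variable {V E L M : Type}

namespace WG

/-- both parts have at least two elements -/
def Bg {M : Type} [Fintype M] (ε : M → Bool) : Prop :=
  2 ≤ (Finset.univ.filter (fun x => ε x = true)).card ∧
    2 ≤ (Finset.univ.filter (fun x => ε x = false)).card

lemma Bg.le [Fintype M] {ε : M → Bool} (h : Bg ε) (b : Bool) :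
    2 ≤ (Finset.univ.filter (fun x => ε x = b)).card := by
  cases b
  · exact h.2
  · exact h.1

lemma stab_pt2 [Fintype M] {ε : M → Bool} (hε : Bg ε) (o : Bool) :
    (pt2 ε o).Stab 0 := by
  refine ⟨⟨0⟩, ?_, ?_, ?_⟩
  · intro s hs
    have h1 := hs 0
    have h2 : (0 : Fin 2) ∈ s ↔ (1 : Fin 2) ∈ s := by
      cases o
      · simpa only [Fin.isValue, pt2, elim_inl, Bool.true_eq_false, ↓reduceIte] using h1
      · simpa only [Fin.isValue, pt2, elim_inl, Bool.false_eq_true, ↓reduceIte] using h1.symm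
    by_cases h0 : (0 : Fin 2) ∈ s
    · right
      ext i
      fin_cases i
      · simpa using h0
      · simpa using h2.mp h0
    · left
      ext i
      fin_cases i
      · simpa using h0
      · simpa using fun h => h0 (h2.mpr h)
  · rw [finsum_eq_sum_of_fintype]
    simp [pt2]
  · intro v
    have h1 := nv_pt2 ε o (decide (v = 1))
    have h3 := hε.le (decide (v = 1))
    have h2 : (if decide (v = 1) = true then (1 : Fin 2) else 0) = v := by
      fin_cases v <;> simp
    rw [h2] at h1
    rw [h1]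
    omega

theorem wt_pt2 [Fintype M] {ε : M → Bool} (hε : Bg ε) (o : Bool)
    (a : M → ℕ) (ha : Even (∑ x, a x)) :
    wt (pt2 ε o) 0 a 1 = if Even (∑ x, if ε x then a x else 0) then 60 else -84 := by
  rw [wt_eq_wsum, if_pos ⟨stab_pt2 hε o, deg_pt2 ε o⟩, finsum_eq_sum_of_fintype]
  have h1 : ∀ s0 s1 : ℚ, s0 ^ 2 = 1 → s1 ^ 2 = 1 →
      wsum (pt2 ε o) a (fun v => if v = 0 then s0 else s1) =
      s0 * s1 * (60 * (s0 * s1) - 84) * (s1 ^ (∑ x, if ε x then a x else 0) *
        s0 ^ (∑ x, if ε x then 0 else a x)) := by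
    intro s0 s1 hs0 hs1
    unfold wsum
    rw [finprod_eq_prod_of_fintype, finprod_eq_prod_of_fintype, finprod_eq_prod_of_fintype,
      Fin.prod_univ_two, Fintype.prod_subsingleton _ (0 : Fin 1)]
    congr 1
    · congr 1
      · simp only [Fin.isValue, ↓reduceIte, pt2, zero_add, pow_one, kapF, Multiset.map_zero, Multiset.prod_zero, Multiset.toFinset_zero, Multiset.notMem_zero, not_false_eq_true, Multiset.count_eq_zero_of_notMem, Nat.factorial_zero, Nat.cast_one, Finset.prod_const_one, ne_eq, one_ne_zero, div_self, mul_one]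
      · cases o
        · simp only [pt2, Sum.elim_inl]
          simp
          rw [edgeF_zero _ _ hs0]
        · simp only [pt2, Sum.elim_inl]
          simp
          rw [edgeF_zero _ _ hs1]
          ring
    · rw [← Finset.prod_pow_eq_pow_sum, ← Finset.prod_pow_eq_pow_sum, ← Finset.prod_mul_distrib]
      apply Finset.prod_congr rfl
      intro x _
      simp only [pt2, Sum.elim_inr, B_at_zero]
      by_cases h : ε x = true
      · simp [h]
      · have h' : ε x = false := by simpa using h
        simp [h']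
  have h2 : ∀ ζ : Fin 2 → Bool, (fun v => sg (ζ v)) =
      fun v : Fin 2 => if v = 0 then sg (ζ 0) else sg (ζ 1) := by
    intro ζ
    funext v
    fin_cases v <;> simp
  have h3 : ∀ ζ : Fin 2 → Bool, wsum (pt2 ε o) a (fun v => sg (ζ v)) =
      sg (ζ 0) * sg (ζ 1) * (60 * (sg (ζ 0) * sg (ζ 1)) - 84) *
        (sg (ζ 1) ^ (∑ x, if ε x then a x else 0) *
        sg (ζ 0) ^ (∑ x, if ε x then 0 else a x)) := by
    intro ζ
    rw [h2, h1 _ _ (sg_sq _) (sg_sq _)]
  simp_rw [h3]
  rw [← Equiv.sum_comp (finTwoArrowEquiv Bool).symm, Fintype.sum_prod_type, Fintype.sum_bool,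
    Fintype.sum_bool, Fintype.sum_bool]
  have hA : ∑ x, a x = (∑ x, if ε x then a x else 0) + (∑ x, if ε x then 0 else a x) := by
    rw [← Finset.sum_add_distrib]
    apply Finset.sum_congr rfl
    intro x _
    split_ifs <;> simp
  rw [hA, Nat.even_add] at ha
  have e1 : sg true = 1 := rfl
  have e2 : sg false = -1 := rfl
  simp only [finTwoArrowEquiv_symm_apply, Matrix.cons_val_zero, Matrix.cons_val_one, e1, e2,
    one_pow]
  have e3 : Nat.card (Fin 1) = 1 := by simp
  rw [e3]
  by_cases hev : Even (∑ x, if ε x then a x else 0)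
  · rw [if_pos hev, hev.neg_one_pow, (ha.mp hev).neg_one_pow]
    norm_num
  · have hod : ¬ Even (∑ x, if ε x then 0 else a x) := fun h => hev (ha.mpr h)
    rw [if_neg hev, (Nat.not_even_iff_odd.mp hev).neg_one_pow,
      (Nat.not_even_iff_odd.mp hod).neg_one_pow]
    norm_num

lemma wt_form_none [Fintype M] (hM : 4 ≤ Fintype.card M) (a : M → ℕ) (ha : Even (∑ x, a x)) :
    wt (pt1 0 {1} (fun _ : M => 0)) 0 a 1 = 60 := by
  rw [wt_pt1 0 {1} (fun _ => 0) a 1 (by rw [Nat.card_eq_fintype_card]; omega)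
    (by simp) (by rw [finsum_eq_sum_of_fintype]; simpa only [zero_add, Nat.reduceAdd, Nat.even_add, even_two, true_iff] using ha)]
  rw [finprod_eq_prod_of_fintype, Finset.prod_eq_one (fun x _ => by rw [B_at_zero, one_pow])]
  simp only [kapF, Multiset.map_singleton, pow_one, B_zero_one, mul_one, sub_neg_eq_add, zero_add, Multiset.prod_singleton, Multiset.toFinset_singleton, Multiset.nodup_singleton, Finset.prod_singleton, Multiset.mem_singleton, Multiset.count_eq_one_of_mem, Nat.factorial_one, Nat.cast_one, div_one]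

lemma wt_form_some [Fintype M] (hM : 4 ≤ Fintype.card M) (a : M → ℕ) (ha : Even (∑ x, a x))
    (h1 : ∀ x, a x ≤ 1) (x : M) :
    wt (pt1 0 0 (fun y : M => if y = x then 1 else 0)) 0 a 1 = if a x = 0 then -60 else 84 := by
  rw [wt_pt1 0 0 _ a 1 (by rw [Nat.card_eq_fintype_card]; omega)
    (by rw [finsum_eq_sum_of_fintype]; simp only [Multiset.sum_zero, Finset.sum_ite_eq', Finset.mem_univ, ↓reduceIte, zero_add])
    (by rw [finsum_eq_sum_of_fintype]; simpa only [zero_add, Nat.reduceAdd, Nat.even_add, even_two, true_iff] using ha)]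
  rw [finprod_eq_prod_of_fintype, Finset.prod_eq_single x]
  · rw [if_pos rfl]
    have := h1 x
    interval_cases h : a x
    · simp only [kapF, Multiset.map_zero, Multiset.prod_zero, Multiset.toFinset_zero, Multiset.notMem_zero, not_false_eq_true, Multiset.count_eq_zero_of_notMem, Nat.factorial_zero, Nat.cast_one, Finset.prod_const_one, ne_eq, one_ne_zero, div_self, B_zero_one, mul_one, mul_neg, one_mul, ↓reduceIte]
    · simp only [kapF, Multiset.map_zero, Multiset.prod_zero, Multiset.toFinset_zero, Multiset.notMem_zero, not_false_eq_true, Multiset.count_eq_zero_of_notMem, Nat.factorial_zero, Nat.cast_one, Finset.prod_const_one, ne_eq, one_ne_zero, div_self, B_one_one, one_pow, mul_one, one_mul, ↓reduceIte]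
  · intro y _ hy
    rw [if_neg hy, B_at_zero, one_pow]
  · intro h
    exact absurd (Finset.mem_univ x) h

lemma wt_form_pair [Fintype M] (a : M → ℕ) (ha : Even (∑ x, a x))
    (ε : M → Bool) (o : Bool) :
    wt (pt2 ε o) 0 a 1 = if Bg ε then (if Even (∑ x, if ε x then a x else 0) then 60 else -84)
      else 0 := by
  by_cases hε : Bg ε
  · rw [if_pos hε, wt_pt2 hε o a ha]
  · rw [if_neg hε]
    by_contra hne
    apply hε
    obtain ⟨⟨_, _, _, h4⟩, _⟩ := wt_ne_zero hne
    have h5 := h4 0
    have h6 := h4 1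
    have e1 := nv_pt2 ε o true
    have e0 := nv_pt2 ε o false
    simp only [if_true] at e1
    rw [if_neg (by simp)] at e0
    rw [e0] at h5
    rw [e1] at h6
    have h9 : ((pt2 ε o).dec 0).1 = 0 := rfl
    have h10 : ((pt2 ε o).dec 1).1 = 0 := rfl
    constructor <;> omega

theorem wd_evalM [Fintype M] (hM : 4 ≤ Fintype.card M) {R T N : Type} [Finite R] [Finite T]
    {g : ℕ} {lam : F N →ₗ[ℚ] ℚ} (hlam : ∀ x, P g x → lam x = 0)
    (Q : Env R T M N) (hQ : ∀ y z x, Q.use y = inl x → Q.use z = inl x → y = z)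
    (a : M → ℕ) (ha : Even (∑ x, a x)) (h1 : ∀ x, a x ≤ 1) (h2 : ∑ x, a x < 3) :
    60 * lam (dl (Q.graft (pt1 0 {1} (fun _ => 0))) 1) +
      ∑ x, (if a x = 0 then -60 else 84) *
        lam (dl (Q.graft (pt1 0 0 (fun y => if y = x then 1 else 0))) 1) +
      ∑ ε : M → Bool, ∑ o : Bool, (if Bg ε then
        (if Even (∑ x, if ε x then a x else 0) then 15 else -21) else 0) *
        lam (dl (Q.graft (pt2 ε o)) 1) = 0 := by
  have h3 : lam (Q.pix 0 a 1) = 0 := by
    apply hlam
    apply P.pix Q 0 1 a inferInstance inferInstance inferInstance hQ h1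
    rw [finsum_eq_sum_of_fintype]
    omega
  rw [Env.pix_eq_sum, map_sum] at h3
  have h4 : ∀ p : Σ k m : ℕ, Gr (Fin k) (Fin m) M, lam (dl (Q.graft p.2.2)
      (wt p.2.2 0 a 1 / (p.1.factorial * p.2.1.factorial * 2 ^ p.2.1))) =
      wt p.2.2 0 a 1 * (lam (dl (Q.graft p.2.2) 1) /
        (p.1.factorial * p.2.1.factorial * 2 ^ p.2.1)) := by
    intro p
    rw [fl_smul lam _ (wt _ _ _ _ / _)]
    ring
  simp_rw [h4] at h3
  rw [sum_formE (fun p => lam (dl (Q.graft p.2.2) 1) /
        (p.1.factorial * p.2.1.factorial * 2 ^ p.2.1)), Fintype.sum_sum_type, Fintype.sum_option,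
        Fintype.sum_prod_type] at h3
  simp only [formE] at h3
  rw [wt_form_none hM a ha] at h3
  simp_rw [wt_form_some hM a ha h1, wt_form_pair a ha] at h3
  refine Eq.trans ?_ h3
  have e1 : ((Nat.factorial 1 : ℕ) : ℚ) = 1 := by norm_num
  have e0 : ((Nat.factorial 0 : ℕ) : ℚ) = 1 := by norm_num
  have e2 : ((Nat.factorial 2 : ℕ) : ℚ) = 2 := by norm_num
  rw [e0, e1, e2]
  simp only [pow_zero, mul_one, div_one, pow_one]
  congr 1
  apply Finset.sum_congr rfl
  intro ε _
  apply Finset.sum_congr rfl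
  intro o _
  split_ifs <;> ring

lemma wd_linM [Fintype M] (K : ℚ) (ψ : M → ℚ) (T : (M → Bool) → ℚ)
    (h : ∀ a : M → ℕ, Even (∑ x, a x) → (∀ x, a x ≤ 1) → ∑ x, a x < 3 →
      60 * K + ∑ x, (if a x = 0 then -60 else 84) * ψ x +
      ∑ ε : M → Bool, ∑ _o : Bool, (if Bg ε then
        (if Even (∑ x, if ε x then a x else 0) then 15 else -21) else 0) * T ε = 0)
    (i j : M) (hij : i ≠ j) :
    2 * (ψ i + ψ j) = ∑ ε : M → Bool, if Bg ε ∧ ε i ≠ ε j then T ε else 0 := by
  have hset : ∀ φ : M → ℚ, ∑ x, (if x = i ∨ x = j then φ x else 0) = φ i + φ j := by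
    intro φ
    rw [Fintype.sum_eq_add i j hij (fun x hx => if_neg (by tauto)), if_pos (Or.inl rfl),
      if_pos (Or.inr rfl)]
  have hset' : ∀ φ : M → ℕ, ∑ x, (if x = i ∨ x = j then φ x else 0) = φ i + φ j := by
    intro φ
    rw [Fintype.sum_eq_add i j hij (fun x hx => if_neg (by tauto)), if_pos (Or.inl rfl),
      if_pos (Or.inr rfl)]
  have hsum : ∑ x : M, (if x = i ∨ x = j then 1 else 0) = 2 := hset' (fun _ => 1)
  have h0 := h (fun _ => 0) (by simp only [Finset.sum_const_zero, Even.zero]) (by simp) (by simp only [Finset.sum_const_zero, Nat.ofNat_pos])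
  have h1 := h (fun x => if x = i ∨ x = j then 1 else 0)
    (by rw [hsum]; exact even_two) (by intro x; split_ifs <;> norm_num)
    (by rw [hsum]; norm_num)
  have h0' : 60 * K + ∑ x, (-60) * ψ x + ∑ ε : M → Bool, (if Bg ε then 30 * T ε else 0) = 0 := by
    refine Eq.trans ?_ h0
    congr 1
    apply Finset.sum_congr rfl
    intro ε _
    rw [Fintype.sum_bool]
    have e7 : ∑ x : M, (if ε x = true then (fun _ : M => 0) x else 0) = 0 := by simp only [ite_self, Finset.sum_const_zero]
    rw [e7, if_pos (show Even 0 from ⟨0, rfl⟩)]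
    split_ifs <;> ring
  have h1' : 60 * K + (∑ x, (-60) * ψ x + 144 * (ψ i + ψ j)) +
      ∑ ε : M → Bool, (if Bg ε then (if ε i = ε j then 30 * T ε else (-42) * T ε) else 0) = 0 := by
    refine Eq.trans ?_ h1
    congr 1
    · congr 1
      rw [← hset, Finset.mul_sum, ← Finset.sum_add_distrib]
      apply Finset.sum_congr rfl
      intro x _
      by_cases hx : x = i ∨ x = j
      · rw [if_pos hx, if_neg (by rw [if_pos hx]; exact one_ne_zero)]
        ring
      · rw [if_neg hx, if_pos (by rw [if_neg hx])]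
        ring
    · apply Finset.sum_congr rfl
      intro ε _
      rw [Fintype.sum_bool]
      have e4 : ∑ x : M, (if ε x = true then (fun x => if x = i ∨ x = j then 1 else 0) x else 0) =
          (if ε i = true then 1 else 0) + (if ε j = true then 1 else 0) := by
        rw [← hset' (fun x => if ε x = true then 1 else 0)]
        apply Finset.sum_congr rfl
        intro x _
        dsimp only
        split_ifs <;> rfl
      rw [e4]
      by_cases hb : Bg ε
      · rw [if_pos hb, if_pos hb]
        by_cases hη : ε i = ε j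
        · rw [if_pos hη, if_pos (by rw [hη]; exact ⟨_, rfl⟩)]
          ring
        · rw [if_neg hη, if_neg (by cases h5 : ε i <;> cases h6 : ε j <;> simp_all)]
          ring
      · rw [if_neg hb, if_neg hb]
        ring
  have h2 : ∑ ε : M → Bool, (if Bg ε then 30 * T ε else 0) =
      ∑ ε : M → Bool, (if Bg ε then (if ε i = ε j then 30 * T ε else (-42) * T ε) else 0) +
      72 * ∑ ε : M → Bool, if Bg ε ∧ ε i ≠ ε j then T ε else 0 := by
    rw [Finset.mul_sum, ← Finset.sum_add_distrib]
    apply Finset.sum_congr rfl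
    intro ε _
    by_cases hb : Bg ε
    · by_cases hη : ε i = ε j
      · rw [if_pos hb, if_pos hb, if_pos hη, if_neg (fun h => h.2 hη)]
        ring
      · rw [if_pos hb, if_pos hb, if_neg hη, if_pos ⟨hb, hη⟩]
        ring
    · rw [if_neg hb, if_neg hb, if_neg (fun h => hb h.1)]
      ring
  linarith only [h0', h1', h2]

end WG

/-- Shared lemma: the relation of degree one in genus zero for at least four points. -/
theorem wd_genM {M : Type} [Fintype M] (hM : 4 ≤ Fintype.card M) {R T N : Type} [Finite R]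
    [Finite T] {g : ℕ} {lam : F N →ₗ[ℚ] ℚ} (hlam : ∀ x, P g x → lam x = 0) (Q : Env R T M N)
    (hQ : ∀ y z x, Q.use y = inl x → Q.use z = inl x → y = z) (τ : (M → Bool) → ℚ)
    (hT : ∀ ε o, lam (dl (Q.graft (pt2 ε o)) 1) = τ ε) :
    ∃ ψ : M → ℚ, ∀ i j, i ≠ j → 2 * (ψ i + ψ j) =
      ∑ ε : M → Bool, if 2 ≤ (Finset.univ.filter (fun x => ε x = true)).card ∧
        2 ≤ (Finset.univ.filter (fun x => ε x = false)).card ∧ ε i ≠ ε j then τ ε else 0 := by
  refine ⟨fun x => lam (dl (Q.graft (pt1 0 0 (fun y => if y = x then 1 else 0))) 1), ?_⟩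
  intro i j hij
  have key : 2 * (lam (dl (Q.graft (pt1 0 0 (fun y => if y = i then 1 else 0))) 1) +
      lam (dl (Q.graft (pt1 0 0 (fun y => if y = j then 1 else 0))) 1)) =
      ∑ ε : M → Bool, if WG.Bg ε ∧ ε i ≠ ε j then τ ε else 0 := by
    apply WG.wd_linM (lam (dl (Q.graft (pt1 0 {1} (fun _ => 0))) 1))
      (fun x => lam (dl (Q.graft (pt1 0 0 (fun y => if y = x then 1 else 0))) 1)) τ _ i j hij
    intro a ha h1 h2
    have h := WG.wd_evalM hM hlam Q hQ a ha h1 h2
    simp_rw [hT] at h
    exact h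
  rw [key]
  apply Finset.sum_congr rfl
  intro ε _
  exact if_congr (by unfold WG.Bg; tauto) rfl rfl

end Vale.Agent.P273.C1
end
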