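import Vale.Agent.P273.C1.DDefs
import Vale.Agent.P273.C1.WdGen

/-!
Block DK: in genus 0, `2 (ψ_i + ψ_j)` is the sum of the boundary divisors separating `i` and `j`.
-/

noncomputable section
namespace Vale.Agent.P273.C1
open Sum Vale.Agent.P273 Vale.Agent.P273.Alg
open scoped Classical

namespace DKp

variable {L : Type}

/-- The trivial environment. -/
def env0 (L : Type) : Env Empty Empty L L :=
  ⟨fun r => r.elim, Sum.elim (fun y => y.1.elim) inl, fun _ => 0⟩

lemma env0_inj : ∀ y z x, (env0 L).use y = inl x → (env0 L).use z = inl x → y = z := by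
  rintro (⟨e, -⟩ | y) (⟨e', -⟩ | z) x h1 h2
  · exact e.elim
  · exact e.elim
  · exact e'.elim
  · have h1' : (inl y : L ⊕ (Empty × ℕ)) = inl x := h1
    have h2' : (inl z : L ⊕ (Empty × ℕ)) = inl x := h2
    rw [inl_injective h1', inl_injective h2']

lemma env0_unused {V E : Type} (G : Gr V E L) (v : V) : (env0 L).unused G v = 0 := by
  unfold Env.unused
  rw [← finsum_zero (α := L)]
  apply finsum_congr
  intro x
  have h : ¬ (inl x ∉ Set.range (env0 L).use ∧ (G.hf (inr x)).1 = v) := fun h => h.1 ⟨inr x, rfl⟩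
  rw [finsum_eq_if, if_neg h]

lemma graft_iso (ε : L → Bool) (o : Bool) : ((env0 L).graft (pt2 ε o)).Iso (pt2g 0 0 ε) := by
  refine ⟨Sum.elim id (fun r => r.elim), fun y => (0, y.2 == o), ?_, ?_, fun _ => rfl, ?_, ?_⟩
  · constructor
    · rintro (a | r) (b | r') h
      · exact congrArg inl h
      · exact r'.elim
      · exact r.elim
      · exact r.elim
    · intro b; exact ⟨inl b, rfl⟩
  · constructor
    · rintro ⟨e | e, s⟩ ⟨e' | e', s'⟩ h
      · have h2 : (s == o) = (s' == o) := congrArg Prod.snd h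
        rw [Subsingleton.elim e e']
        cases s <;> cases s' <;> cases o <;> simp_all
      · exact e'.elim
      · exact e.elim
      · exact e.elim
    · rintro ⟨e, s⟩
      refine ⟨(inl 0, s == o), ?_⟩
      rw [Subsingleton.elim e 0]
      cases s <;> cases o <;> rfl
  · rintro (v | r)
    · rw [Env.graft_dec_inl, env0_unused]
      simp only [Sum.elim_inl, id_eq, pt2g, pt2]
      split_ifs <;> rfl
    · exact r.elim
  · rintro (⟨e | e, s⟩ | x)
    · rw [Env.graft_hf_inl]
      simp only [pt2, pt2g, Sum.map_inl, Sum.elim_inl, Prod.map]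
      cases s <;> cases o <;> rfl
    · exact e.elim
    · rw [Env.graft_hf_leg, Env.usehf_inl (show (env0 L).use (inr x) = inl x from rfl)]
      rfl

end DKp

/-- Block DK. -/
theorem dk : DK := by
  intro L _ lam hL hlam
  exact wd_genM (by rw [← Nat.card_eq_fintype_card]; exact hL) hlam (DKp.env0 L) DKp.env0_inj
    (fun ε => lam (dl (pt2g 0 0 ε) 1))
    (fun ε o => fl_iso hlam (DKp.graft_iso ε o) 1)

end Vale.Agent.P273.C1
end
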