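import Vale.Agent.P273.C1.Defs

/-!
Block E0: contraction of links and the relations K1, K3, K4, K5, K6.
-/

noncomputable section
namespace Vale.Agent.P273.C1
open Sum Vale.Agent.P273
open scoped Classical

namespace E0p

variable {L : Type} {g : ℕ} {ψ : (L → Fin 4) → Multiset (Fin 4 × Fin 4) → ℚ}

lemma mp_cons {k l : ℕ} (m : Fin k → Fin l) (a b : Fin k) (M : Multiset (Fin k × Fin k)) :
    mp m ((a, b) ::ₘ M) = (m a, m b) ::ₘ mp m M := by
  simp [mp]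

lemma mp_mp {k l n : ℕ} (m : Fin l → Fin n) (m' : Fin k → Fin l) (M : Multiset (Fin k × Fin k)) :
    mp m (mp m' M) = mp (m ∘ m') M := by
  simp only [mp, Multiset.map_map, Function.comp_def]
  rfl

lemma mp_add {k l : ℕ} (m : Fin k → Fin l) (M N : Multiset (Fin k × Fin k)) :
    mp m (M + N) = mp m M + mp m N := by
  simp [mp]

lemma mp_id {k : ℕ} (M : Multiset (Fin k × Fin k)) : mp (id : Fin k → Fin k) M = M := by
  simp [mp]

/-- Labels linked by `K`. -/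
def Cn {k : ℕ} (K : Multiset (Fin k × Fin k)) : Fin k → Fin k → Prop :=
  Relation.EqvGen fun a b => (a, b) ∈ K

lemma Cn.mono {k : ℕ} {K K' : Multiset (Fin k × Fin k)} (h : K ≤ K') {i j : Fin k}
    (hc : Cn K i j) : Cn K' i j := by
  induction hc with
  | rel a b hab => exact .rel _ _ (Multiset.mem_of_le h hab)
  | refl a => exact .refl _
  | symm a b _ ih => exact .symm _ _ ih
  | trans a b c _ _ ih1 ih2 => exact .trans _ _ _ ih1 ih2

/-- Slide one leg. -/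
lemma slideL' (h : PhiM L g ψ) (α : L → Fin 4) (x : L) (K : Multiset (Fin 4 × Fin 4))
    {i j : Fin 4} (hc : Cn K i j) :
    ψ (Function.update α x i) K = ψ (Function.update α x j) K := by
  induction hc with
  | rel a b hab =>
    obtain ⟨K', rfl⟩ := Multiset.exists_cons_of_mem hab
    exact h.slideL _ _ _ _ _
  | refl a => rfl
  | symm a b _ ih => exact ih.symm
  | trans a b c _ _ ih1 ih2 => exact ih1.trans ih2

/-- Slide one half-edge. -/
lemma slideH' (h : PhiM L g ψ) (α : L → Fin 4) (K : Multiset (Fin 4 × Fin 4))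
    {i j : Fin 4} (c : Fin 4) (hc : Cn K i j) :
    ψ α ((i, c) ::ₘ K) = ψ α ((j, c) ::ₘ K) := by
  induction hc with
  | rel a b hab =>
    obtain ⟨K', rfl⟩ := Multiset.exists_cons_of_mem hab
    rw [Multiset.cons_swap, h.slideH, Multiset.cons_swap]
  | refl a => rfl
  | symm a b _ ih => exact ih.symm
  | trans a b c _ _ ih1 ih2 => exact ih1.trans ih2

lemma slideH2 (h : PhiM L g ψ) (α : L → Fin 4) (K : Multiset (Fin 4 × Fin 4))
    {i j i' j' : Fin 4} (hc : Cn K i j) (hc' : Cn K i' j') :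
    ψ α ((i, i') ::ₘ K) = ψ α ((j, j') ::ₘ K) := by
  rw [slideH' h α K i' hc, h.flip, slideH' h α K j hc', h.flip]

/-- Contraction, legs. -/
lemma contrL [Finite L] (h : PhiM L g ψ) (α α' : L → Fin 4) (K : Multiset (Fin 4 × Fin 4))
    (hc : ∀ x, Cn K (α x) (α' x)) : ψ α K = ψ α' K := by
  have : Fintype L := Fintype.ofFinite L
  have key : ∀ S : Finset L, ψ α K = ψ (fun x => if x ∈ S then α' x else α x) K := by
    intro S
    induction S using Finset.induction_on with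
    | empty => simp
    | insert x S hx ih =>
      rw [ih]
      have e1 : (fun y => if y ∈ S then α' y else α y) =
          Function.update (fun y => if y ∈ S then α' y else α y) x (α x) := by
        ext y
        by_cases hy : y = x
        · subst hy; simp [hx]
        · simp [hy]
      have e2 : (fun y => if y ∈ insert x S then α' y else α y) =
          Function.update (fun y => if y ∈ S then α' y else α y) x (α' x) := by
        ext y
        by_cases hy : y = x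
        · subst hy; simp
        · simp [hy]
      rw [e2]
      conv_lhs => rw [e1]
      exact slideL' h _ x K (hc x)
  have := key Finset.univ
  simpa using this

/-- Contraction, half-edges. -/
lemma contrH {k : ℕ} (h : PhiM L g ψ) (α : L → Fin 4) (K : Multiset (Fin 4 × Fin 4))
    (m m' : Fin k → Fin 4) (hc : ∀ i, Cn K (m i) (m' i)) (N : Multiset (Fin k × Fin k)) :
    ψ α (K + mp m N) = ψ α (K + mp m' N) := by
  have key : ∀ (N : Multiset (Fin k × Fin k)) (M : Multiset (Fin 4 × Fin 4)),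
      ψ α (K + (mp m N + M)) = ψ α (K + (mp m' N + M)) := by
    intro N
    induction N using Multiset.induction_on with
    | empty => intro M; simp [mp]
    | cons p N ih =>
      intro M
      obtain ⟨a, b⟩ := p
      have e1 : K + (mp m ((a, b) ::ₘ N) + M) = (m a, m b) ::ₘ (K + (mp m N + M)) := by
        rw [mp_cons]; simp [Multiset.cons_add, Multiset.add_cons]
      have e2 : K + (mp m' ((a, b) ::ₘ N) + M) = K + (mp m' N + (m' a, m' b) ::ₘ M) := by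
        rw [mp_cons]; simp [Multiset.cons_add, Multiset.add_cons]
      have e3 : (m' a, m' b) ::ₘ (K + (mp m N + M)) = K + (mp m N + (m' a, m' b) ::ₘ M) := by
        simp [Multiset.add_cons]
      rw [e1, e2, slideH2 h α _ ((hc a).mono (Multiset.le_add_right _ _))
        ((hc b).mono (Multiset.le_add_right _ _)), e3, ih]
  simpa using key N 0

/-- Contraction. -/
lemma contr [Finite L] {k : ℕ} (h : PhiM L g ψ) (K : Multiset (Fin 4 × Fin 4))
    (m m' : Fin k → Fin 4) (hc : ∀ i, Cn K (m i) (m' i)) (β : L → Fin k)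
    (N : Multiset (Fin k × Fin k)) :
    ψ (m ∘ β) (K + mp m N) = ψ (m' ∘ β) (K + mp m' N) := by
  rw [contrH h _ K m m' hc N]
  exact contrL h _ _ _ fun x => (hc (β x)).mono (Multiset.le_add_right _ _)

/-- Permutation of the labels. -/
lemma perm' {k : ℕ} (h : PhiM L g ψ) (K : Multiset (Fin 4 × Fin 4)) (m m' : Fin k → Fin 4)
    (σ : Fin 4 → Fin 4) (hσ : Function.Bijective σ) (hm : m' = σ ∘ m) (β : L → Fin k)
    (N : Multiset (Fin k × Fin k)) :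
    ψ (m ∘ β) (K + mp m N) = ψ (m' ∘ β) (mp σ K + mp m' N) := by
  have := h.perm (Equiv.ofBijective σ hσ) (m ∘ β) (K + mp m N)
  rw [← this, hm, mp_add, mp_mp]
  rfl

/-- Permutation followed by contraction. -/
lemma norm [Finite L] {k : ℕ} (h : PhiM L g ψ) (K K' : Multiset (Fin 4 × Fin 4))
    (m m' : Fin k → Fin 4) (σ : Fin 4 → Fin 4) (hσ : Function.Bijective σ) (hK : K' = mp σ K)
    (hm : ∀ i, Cn K' (σ (m i)) (m' i)) (β : L → Fin k) (N : Multiset (Fin k × Fin k)) :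
    ψ (m ∘ β) (K + mp m N) = ψ (m' ∘ β) (K' + mp m' N) := by
  rw [perm' h K m (σ ∘ m) σ hσ rfl, ← hK]
  exact contr h K' (σ ∘ m) m' hm β N

lemma cn1 {k : ℕ} {K : Multiset (Fin k × Fin k)} {a b : Fin k} (h : (a, b) ∈ K) : Cn K a b :=
  .rel _ _ h

lemma cn2 {k : ℕ} {K : Multiset (Fin k × Fin k)} {a b : Fin k} (h : (b, a) ∈ K) : Cn K a b :=
  .symm _ _ (.rel _ _ h)

lemma cn0 {k : ℕ} {K : Multiset (Fin k × Fin k)} (a : Fin k) : Cn K a a := .refl _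

lemma Cn.tr {k : ℕ} {K : Multiset (Fin k × Fin k)} {a b c : Fin k} (h : Cn K a b)
    (h' : Cn K b c) : Cn K a c := .trans _ _ _ h h'

/-- Equal or linked. -/
def St (K : List (Fin 4 × Fin 4)) (i j : Fin 4) : Bool :=
  i == j || K.contains (i, j) || K.contains (j, i)

/-- A path of length at most 3. -/
def Pt (K : List (Fin 4 × Fin 4)) (i j : Fin 4) : Bool :=
  (List.finRange 4).any fun p => (List.finRange 4).any fun q => St K i p && St K p q && St K q j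

lemma cn_St {K : List (Fin 4 × Fin 4)} {M : Multiset (Fin 4 × Fin 4)}
    (hKM : ∀ p ∈ K, p ∈ M) {i j : Fin 4} (h : St K i j = true) : Cn M i j := by
  simp only [St, Bool.or_eq_true, beq_iff_eq, List.contains_iff_mem] at h
  rcases h with (h | h) | h
  · rw [h]; exact cn0 _
  · exact cn1 (hKM _ h)
  · exact cn2 (hKM _ h)

lemma cn_Pt {K : List (Fin 4 × Fin 4)} {M : Multiset (Fin 4 × Fin 4)}
    (hKM : ∀ p ∈ K, p ∈ M) {i j : Fin 4} (h : Pt K i j = true) : Cn M i j := by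
  simp only [Pt, List.any_eq_true, Bool.and_eq_true] at h
  obtain ⟨p, -, q, -, ⟨h1, h2⟩, h3⟩ := h
  exact ((cn_St hKM h1).tr (cn_St hKM h2)).tr (cn_St hKM h3)

/-- Add the pairs of a list. -/
def ap (K : List (Fin 4 × Fin 4)) (X : Multiset (Fin 4 × Fin 4)) : Multiset (Fin 4 × Fin 4) :=
  K.foldr Multiset.cons X

lemma ap_eq (K : List (Fin 4 × Fin 4)) (X : Multiset (Fin 4 × Fin 4)) :
    ap K X = (K : Multiset (Fin 4 × Fin 4)) + X := by
  induction K with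
  | nil => simp [ap]
  | cons p K ih =>
    change p ::ₘ ap K X = _
    rw [ih, ← Multiset.cons_coe, Multiset.cons_add]

/-- Permutation followed by contraction, for use with `decide`. -/
lemma nrm [Finite L] {k : ℕ} (h : PhiM L g ψ) (K : List (Fin 4 × Fin 4))
    (m m' : Fin k → Fin 4) (σ : Fin 4 → Fin 4) (hσ : Function.Bijective σ)
    (hm : ∀ i, Pt (K.map (Prod.map σ σ)) (σ (m i)) (m' i) = true) (β : L → Fin k)
    (N : Multiset (Fin k × Fin k)) :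
    ψ (m ∘ β) (ap K (mp m N)) = ψ (m' ∘ β) (ap (K.map (Prod.map σ σ)) (mp m' N)) := by
  rw [ap_eq, ap_eq]
  refine norm h _ _ m m' σ hσ ?_ (fun i => cn_Pt ?_ (hm i)) β N
  · simp [mp]
  · intro p hp; simpa using hp

/-- The same with a composite target. -/
lemma nrmC [Finite L] {k l : ℕ} (h : PhiM L g ψ) (K : List (Fin 4 × Fin 4))
    (m : Fin k → Fin 4) (n : Fin l → Fin 4) (n' : Fin k → Fin l) (σ : Fin 4 → Fin 4)
    (hσ : Function.Bijective σ)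
    (hm : ∀ i, Pt (K.map (Prod.map σ σ)) (σ (m i)) (n (n' i)) = true) (β : L → Fin k)
    (N : Multiset (Fin k × Fin k)) :
    ψ (m ∘ β) (ap K (mp m N)) =
      ψ (n ∘ (n' ∘ β)) (ap (K.map (Prod.map σ σ)) (mp n (mp n' N))) := by
  rw [mp_mp]
  exact nrm h K m (n ∘ n') σ hσ hm β N

/-- Change the ends of a link. -/
lemma chg (h : PhiM L g ψ) (α : L → Fin 4) (K : List (Fin 4 × Fin 4))
    (X : Multiset (Fin 4 × Fin 4)) (i j i' j' : Fin 4) (hc : Pt K i j = true)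
    (hc' : Pt K i' j' = true) : ψ α ((i, i') ::ₘ ap K X) = ψ α ((j, j') ::ₘ ap K X) := by
  rw [ap_eq]
  exact slideH2 h α _ (cn_Pt (by intro p hp; simp [hp]) hc) (cn_Pt (by intro p hp; simp [hp]) hc')

lemma mp_zero {k l : ℕ} (N : Multiset (Fin k × Fin k)) (c : Fin l) :
    mp (fun _ => c) N = Multiset.replicate (Multiset.card N) (c, c) := by
  induction N using Multiset.induction_on with
  | empty => simp [mp]
  | cons p N ih => obtain ⟨a, b⟩ := p; rw [mp_cons, ih]; simp [Multiset.replicate_succ]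

lemma card_mp {k l : ℕ} (m : Fin k → Fin l) (N : Multiset (Fin k × Fin k)) :
    Multiset.card (mp m N) = Multiset.card N := by
  simp [mp]

/-- The value `Q`. -/
lemma toQ [Finite L] (h : PhiM L g ψ) (α : L → Fin 4) (M : Multiset (Fin 4 × Fin 4))
    (hM : Multiset.card M + 3 = g) :
    ψ α ((0, 1) ::ₘ (1, 2) ::ₘ (2, 3) ::ₘ M) = fQ g ψ := by
  have hg : g - 3 = Multiset.card M := by omega
  have := nrm h [(0, 1), (1, 2), (2, 3)] id (fun _ => 0) id Function.bijective_id (by decide) α M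
  rw [mp_id, mp_zero] at this
  rw [fQ, hg]
  exact this

lemma toQ2 [Finite L] (h : PhiM L g ψ) (α : L → Fin 4) (M : Multiset (Fin 4 × Fin 4))
    (hM : Multiset.card M + 3 = g) :
    ψ α ((0, 3) ::ₘ (0, 1) ::ₘ (1, 2) ::ₘ M) = fQ g ψ := by
  rw [← toQ h α M hM, Multiset.cons_swap (1, 2) (2, 3), Multiset.cons_swap (0, 1) (2, 3)]
  exact chg h α [(0, 1), (1, 2)] M 0 2 3 3 (by decide) (by decide)

lemma toQ3 [Finite L] (h : PhiM L g ψ) (α : L → Fin 4) (M : Multiset (Fin 4 × Fin 4))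
    (hM : Multiset.card M + 3 = g) :
    ψ α ((0, 2) ::ₘ (0, 1) ::ₘ (2, 3) ::ₘ M) = fQ g ψ := by
  rw [← toQ h α M hM, Multiset.cons_swap (0, 1) (1, 2)]
  exact chg h α [(0, 1), (2, 3)] M 0 1 2 2 (by decide) (by decide)

/-- A permutation that takes two given labels to 0 and 1. -/
lemma ex_perm : ∀ a b : Fin 4, a ≠ b → ∃ s : Fin 4 → Fin 4, Function.Bijective s ∧ s a = 0 ∧
    s b = 1 := by
  intro a b hab
  have h1 : (Equiv.swap a 0) b ≠ 0 := by
    intro h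
    apply hab
    have := (Equiv.swap a (0 : Fin 4)).injective (a₁ := b) (a₂ := a) (by rw [h]; simp)
    exact this.symm
  refine ⟨(Equiv.swap ((Equiv.swap a 0) b) 1) ∘ Equiv.swap a 0,
    (Equiv.bijective _).comp (Equiv.bijective _), ?_, ?_⟩
  · simp only [Function.comp_apply, Equiv.swap_apply_left]
    exact Equiv.swap_apply_of_ne_of_ne h1.symm (by decide)
  · simp

variable (L g ψ) in
/-- The relations without cardinality conditions. -/
lemma link [Finite L] (h : PhiM L g ψ) (α : L → Fin 4) (a b : Fin 4) (M : Multiset (Fin 4 × Fin 4))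
    (hab : a ≠ b) : ∃ r : Fin 4 → Fin 3, r.Surjective ∧ r a = 0 ∧ r b = 0 ∧
    ψ α ((a, b) ::ₘ M) = fG ψ (r ∘ α) (mp r M) := by
  obtain ⟨s, hs, ha, hb⟩ := ex_perm a b hab
  refine ⟨![0, 0, 1, 2] ∘ s, ?_, by simp [ha], by simp [hb], ?_⟩
  · exact Function.Surjective.comp (by decide) hs.2
  · have h1 := perm' h ((a, b) ::ₘ 0) id s s hs rfl α M
    rw [mp_id, mp_cons, ha, hb] at h1
    have h2 := nrm h [(0, 1)] id (![0, 2, 3] ∘ ![0, 0, 1, 2]) id Function.bijective_id (by decide)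
      (s ∘ α) (mp s M)
    rw [mp_id, ← mp_mp, mp_mp _ s] at h2
    simp only [Multiset.cons_add, zero_add, mp, Multiset.map_zero] at h1
    rw [Function.id_comp] at h1
    rw [h1]
    exact h2

lemma symG [Finite L] (h : PhiM L g ψ) (α : L → Fin 3) (M : Multiset (Fin 3 × Fin 3)) :
    fG ψ (![0, 2, 1] ∘ α) (mp ![0, 2, 1] M) = fG ψ α M := by
  have h2 := nrm h [(0, 1)] ![0, 2, 3] (![0, 2, 3] ∘ ![0, 2, 1]) ![0, 1, 3, 2] (by decide)
    (by decide) α M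
  rw [← mp_mp] at h2
  exact h2.symm

lemma symH [Finite L] (h : PhiM L g ψ) (α : L → Fin 2) (M : Multiset (Fin 2 × Fin 2)) :
    fH ψ (![1, 0] ∘ α) (mp ![1, 0] M) = fH ψ α M := by
  have h2 := nrm h [(2, 3), (0, 1)] ![0, 2] (![0, 2] ∘ ![1, 0]) ![2, 3, 0, 1] (by decide)
    (by decide) α M
  rw [← mp_mp] at h2
  refine h2.symm.trans ?_
  change _ = ψ _ ((0, 1) ::ₘ (2, 3) ::ₘ mp ![0, 2] M)
  rw [Multiset.cons_swap]
  rfl

lemma GJ1 [Finite L] (h : PhiM L g ψ) (α : L → Fin 3) (M : Multiset (Fin 3 × Fin 3)) :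
    fG ψ α ((0, 1) ::ₘ M) = fJ ψ (![0, 0, 1] ∘ α) (mp ![0, 0, 1] M) := by
  have h2 := nrm h [(0, 1), (1, 2)] ![0, 2, 3] (![0, 3] ∘ ![0, 0, 1]) id (by decide)
    (by decide) α M
  rw [← mp_mp] at h2
  refine Eq.trans ?_ h2
  rw [fG, mp_cons, Multiset.cons_swap]
  refine (chg h _ [(0, 1)] _ 0 1 2 2 (by decide) (by decide)).trans ?_
  change ψ _ ((1, 2) ::ₘ (0, 1) ::ₘ mp ![0, 2, 3] M) = _
  rw [Multiset.cons_swap]
  rfl

lemma GJ2 [Finite L] (h : PhiM L g ψ) (α : L → Fin 3) (M : Multiset (Fin 3 × Fin 3)) :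
    fG ψ α ((0, 2) ::ₘ M) = fJ ψ (![0, 1, 0] ∘ α) (mp ![0, 1, 0] M) := by
  rw [← symG h, mp_cons]
  refine (GJ1 h (![0, 2, 1] ∘ α) (mp ![0, 2, 1] M)).trans ?_
  have e : ((![0, 0, 1] : Fin 3 → Fin 2) ∘ (![0, 2, 1] : Fin 3 → Fin 3)) = ![0, 1, 0] := by decide
  rw [mp_mp, ← Function.comp_assoc, e]

lemma GH [Finite L] (h : PhiM L g ψ) (α : L → Fin 3) (M : Multiset (Fin 3 × Fin 3)) :
    fG ψ α ((1, 2) ::ₘ M) = fH ψ (![0, 1, 1] ∘ α) (mp ![0, 1, 1] M) := by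
  have h2 := nrm h [(0, 1), (2, 3)] ![0, 2, 3] (![0, 2] ∘ ![0, 1, 1]) id (by decide)
    (by decide) α M
  rw [← mp_mp] at h2
  refine Eq.trans ?_ h2
  rw [fG, mp_cons]
  rfl

lemma JQ [Finite L] (h : PhiM L g ψ) (α : L → Fin 2) (M : Multiset (Fin 2 × Fin 2))
    (hM : Multiset.card M + 3 = g) : fJ ψ α ((0, 1) ::ₘ M) = fQ g ψ := by
  rw [← toQ2 h (![0, 3] ∘ α) (mp ![0, 3] M) (by rw [card_mp]; exact hM), fJ, mp_cons,
    Multiset.cons_swap (0, 3) (0, 1), Multiset.cons_swap (0, 3) (1, 2)]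
  rfl

lemma HQ [Finite L] (h : PhiM L g ψ) (α : L → Fin 2) (M : Multiset (Fin 2 × Fin 2))
    (hM : Multiset.card M + 3 = g) : fH ψ α ((0, 1) ::ₘ M) = fQ g ψ := by
  rw [← toQ3 h (![0, 2] ∘ α) (mp ![0, 2] M) (by rw [card_mp]; exact hM), fH, mp_cons,
    Multiset.cons_swap (0, 2) (0, 1), Multiset.cons_swap (0, 2) (2, 3)]
  rfl

lemma hit_cast {k l : ℕ} {i : Fin k} {β : L → Fin k} {N : Multiset (Fin k × Fin k)}
    (h : Hit i β N) (m : Fin k → Fin l) : Hit (m i) (m ∘ β) (mp m N) := by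
  rcases h with ⟨x, hx⟩ | ⟨p, hp, h⟩
  · exact Or.inl ⟨x, by rw [Function.comp_apply, hx]⟩
  · refine Or.inr ⟨Prod.map m m p, Multiset.mem_map_of_mem _ hp, ?_⟩
    rcases h with h | h
    · left; simp [h]
    · right; simp [h]

lemma hit_cons {k : ℕ} {i : Fin k} {β : L → Fin k} {N : Multiset (Fin k × Fin k)}
    (h : Hit i β N) (p : Fin k × Fin k) : Hit i β (p ::ₘ N) := by
  rcases h with h | ⟨q, hq, h⟩
  · exact Or.inl h
  · exact Or.inr ⟨q, Multiset.mem_cons_of_mem hq, h⟩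

lemma hit_l {k : ℕ} {i j : Fin k} {β : L → Fin k} {N : Multiset (Fin k × Fin k)} :
    Hit i β ((i, j) ::ₘ N) := Or.inr ⟨_, Multiset.mem_cons_self _ _, Or.inl rfl⟩

lemma hit_r {k : ℕ} {i j : Fin k} {β : L → Fin k} {N : Multiset (Fin k × Fin k)} :
    Hit i β ((j, i) ::ₘ N) := Or.inr ⟨_, Multiset.mem_cons_self _ _, Or.inr rfl⟩

lemma K1 [Finite L] (h : PhiM L g ψ) (β : L → Fin 4) (N : Multiset (Fin 4 × Fin 4))
    (hN : Multiset.card N + 1 = g) (H1 : Hit 1 β N) (H2 : Hit 2 β N) (H3 : Hit 3 β N) :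
    fG ψ (![0, 1, 1, 2] ∘ β) (mp ![0, 1, 1, 2] N) + ψ β ((0, 0) ::ₘ N) =
      fG ψ (![0, 0, 1, 2] ∘ β) (mp ![0, 0, 1, 2] N) +
        fG ψ (![0, 1, 0, 2] ∘ β) (mp ![0, 1, 0, 2] N) := by
  have hk := h.keel (![0, 2, 3, 4] ∘ β) ((0, 1) ::ₘ mp ![0, 2, 3, 4] N)
    (by rw [Multiset.card_cons, card_mp]; exact hN)
    (by
      intro i
      fin_cases i
      · exact hit_l
      · exact hit_r
      · exact hit_cons (hit_cast H1 _) _
      · exact hit_cons (hit_cast H2 _) _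
      · exact hit_cons (hit_cast H3 _) _)
  simp only [mp_cons, mp_mp] at hk
  have t1 := nrm h [(0, 0)] (![0, 0, 1, 2, 3] ∘ ![0, 2, 3, 4]) id id (by decide) (by decide) β N
  have t2 := nrm h [(0, 1)] (![0, 1, 2, 2, 3] ∘ ![0, 2, 3, 4]) (![0, 2, 3] ∘ ![0, 1, 1, 2]) id
    (by decide) (by decide) β N
  have t3 := nrm h [(0, 1)] (![0, 1, 0, 2, 3] ∘ ![0, 2, 3, 4]) (![0, 2, 3] ∘ ![0, 0, 1, 2]) id
    (by decide) (by decide) β N
  have t4 := nrm h [(0, 1)] (![0, 1, 2, 1, 3] ∘ ![0, 2, 3, 4]) (![0, 2, 3] ∘ ![0, 1, 0, 2]) id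
    (by decide) (by decide) β N
  rw [← mp_mp (![0, 2, 3])] at t2 t3 t4
  rw [mp_id] at t1
  have hk' := ((congrArg₂ (· + ·) t1 t2).symm.trans hk).trans (congrArg₂ (· + ·) t3 t4)
  rw [add_comm]
  exact hk'

lemma K3 [Finite L] (h : PhiM L g ψ) (β : L → Fin 3) (N : Multiset (Fin 3 × Fin 3))
    (hN : Multiset.card N + 2 = g) (H2 : Hit 2 β N) :
    fG ψ (![1, 0, 2] ∘ β) ((1, 1) ::ₘ mp ![1, 0, 2] N) + fG ψ β ((1, 1) ::ₘ N) =
      2 * fJ ψ (![0, 0, 1] ∘ β) (mp ![0, 0, 1] N) := by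
  have hk := h.keel (![0, 2, 4] ∘ β) ((0, 1) ::ₘ (2, 3) ::ₘ mp ![0, 2, 4] N)
    (by rw [Multiset.card_cons, Multiset.card_cons, card_mp]; exact hN)
    (by
      intro i
      fin_cases i
      · exact hit_l
      · exact hit_r
      · exact hit_cons hit_l _
      · exact hit_cons hit_r _
      · exact hit_cons (hit_cons (hit_cast H2 _) _) _)
  simp only [mp_cons, mp_mp] at hk
  have t1 := nrmC h [(1, 2), (0, 0)] (![0, 0, 1, 2, 3] ∘ ![0, 2, 4]) ![0, 2, 3] ![1, 0, 2]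
    ![2, 0, 1, 3] (by decide) (by decide) β N
  have t2 := nrm h [(0, 1), (2, 2)] (![0, 1, 2, 2, 3] ∘ ![0, 2, 4]) ![0, 2, 3] id
    (by decide) (by decide) β N
  have t3 := nrmC h [(0, 1), (1, 2)] (![0, 1, 0, 2, 3] ∘ ![0, 2, 4]) ![0, 3] ![0, 0, 1] id
    (by decide) (by decide) β N
  have t4 := nrmC h [(0, 1), (1, 2)] (![0, 1, 2, 1, 3] ∘ ![0, 2, 4]) ![0, 3] ![0, 0, 1] id
    (by decide) (by decide) β N
  have u1 : ψ (![0, 0, 1, 2, 3] ∘ (![0, 2, 4] ∘ β)) ((0, 0) ::ₘ (1, 2) ::ₘ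
      mp (![0, 0, 1, 2, 3] ∘ ![0, 2, 4]) N) = fG ψ (![1, 0, 2] ∘ β) ((1, 1) ::ₘ mp ![1, 0, 2] N) := by
    rw [Multiset.cons_swap, fG, mp_cons]
    exact t1
  have u2 : ψ (![0, 1, 2, 2, 3] ∘ (![0, 2, 4] ∘ β)) ((0, 1) ::ₘ (2, 2) ::ₘ
      mp (![0, 1, 2, 2, 3] ∘ ![0, 2, 4]) N) = fG ψ β ((1, 1) ::ₘ N) := by
    rw [fG, mp_cons]
    exact t2
  have u3 : ψ (![0, 1, 0, 2, 3] ∘ (![0, 2, 4] ∘ β)) ((0, 1) ::ₘ (0, 2) ::ₘ
      mp (![0, 1, 0, 2, 3] ∘ ![0, 2, 4]) N) = fJ ψ (![0, 0, 1] ∘ β) (mp ![0, 0, 1] N) := by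
    rw [h.slideH]
    exact t3
  have u4 : ψ (![0, 1, 2, 1, 3] ∘ (![0, 2, 4] ∘ β)) ((0, 1) ::ₘ (2, 1) ::ₘ
      mp (![0, 1, 2, 1, 3] ∘ ![0, 2, 4]) N) = fJ ψ (![0, 0, 1] ∘ β) (mp ![0, 0, 1] N) := by
    rw [Multiset.cons_swap, h.flip, Multiset.cons_swap]
    exact t4
  rw [two_mul]
  exact ((congrArg₂ (· + ·) u1 u2).symm.trans hk).trans (congrArg₂ (· + ·) u3 u4)

lemma K4 [Finite L] (h : PhiM L g ψ) (β : L → Fin 3) (N : Multiset (Fin 3 × Fin 3))
    (hN : Multiset.card N + 2 = g) (H2 : Hit 2 β N) :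
    fG ψ (![1, 0, 2] ∘ β) ((1, 1) ::ₘ mp ![1, 0, 2] N) +
        fH ψ (![0, 1, 1] ∘ β) (mp ![0, 1, 1] N) =
      fH ψ (![0, 1, 0] ∘ β) (mp ![0, 1, 0] N) + fJ ψ (![0, 0, 1] ∘ β) (mp ![0, 0, 1] N) := by
  have hk := h.keel (![0, 3, 2] ∘ β) ((0, 1) ::ₘ (3, 4) ::ₘ mp ![0, 3, 2] N)
    (by rw [Multiset.card_cons, Multiset.card_cons, card_mp]; exact hN)
    (by
      intro i
      fin_cases i
      · exact hit_l
      · exact hit_r
      · exact hit_cons (hit_cons (hit_cast H2 _) _) _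
      · exact hit_cons hit_l _
      · exact hit_cons hit_r _)
  simp only [mp_cons, mp_mp] at hk
  have t1 := nrmC h [(2, 3), (0, 0)] (![0, 0, 1, 2, 3] ∘ ![0, 3, 2]) ![0, 2, 3] ![1, 0, 2]
    ![2, 3, 0, 1] (by decide) (by decide) β N
  have t2 := nrmC h [(0, 1), (2, 3)] (![0, 1, 2, 2, 3] ∘ ![0, 3, 2]) ![0, 2] ![0, 1, 1] id
    (by decide) (by decide) β N
  have t3 := nrmC h [(0, 1), (2, 3)] (![0, 1, 0, 2, 3] ∘ ![0, 3, 2]) ![0, 2] ![0, 1, 0] id
    (by decide) (by decide) β N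
  have t4 := nrmC h [(0, 1), (1, 3)] (![0, 1, 2, 1, 3] ∘ ![0, 3, 2]) ![0, 3] ![0, 0, 1]
    ![0, 1, 3, 2] (by decide) (by decide) β N
  have u1 : ψ (![0, 0, 1, 2, 3] ∘ (![0, 3, 2] ∘ β)) ((0, 0) ::ₘ (2, 3) ::ₘ
      mp (![0, 0, 1, 2, 3] ∘ ![0, 3, 2]) N) = fG ψ (![1, 0, 2] ∘ β) ((1, 1) ::ₘ mp ![1, 0, 2] N) := by
    rw [Multiset.cons_swap, fG, mp_cons]
    exact t1
  exact ((congrArg₂ (· + ·) u1 t2).symm.trans hk).trans (congrArg₂ (· + ·) t3 t4)

lemma GJ2' [Finite L] (h : PhiM L g ψ) {k : ℕ} (n : Fin k → Fin 3) (n' : Fin k → Fin 2)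
    (e : n' = ![0, 1, 0] ∘ n) (α : L → Fin k) (M : Multiset (Fin k × Fin k)) :
    fG ψ (n ∘ α) ((0, 2) ::ₘ mp n M) = fJ ψ (n' ∘ α) (mp n' M) := by
  rw [GJ2 h, mp_mp, e]
  rfl

lemma K5 [Finite L] (h : PhiM L g ψ) (β : L → Fin 3) (N : Multiset (Fin 3 × Fin 3))
    (hN : Multiset.card N + 2 = g) (H1 : Hit 1 β N) (H2 : Hit 2 β N) :
    fG ψ β ((0, 0) ::ₘ N) + fJ ψ (![0, 1, 1] ∘ β) (mp ![0, 1, 1] N) =
      fJ ψ (![0, 0, 1] ∘ β) (mp ![0, 0, 1] N) + fJ ψ (![0, 1, 0] ∘ β) (mp ![0, 1, 0] N) := by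
  have hk := K1 h (![0, 1, 2] ∘ β) ((0, 3) ::ₘ mp ![0, 1, 2] N)
    (by rw [Multiset.card_cons, card_mp]; exact hN)
    (hit_cons (hit_cast H1 _) _) (hit_cons (hit_cast H2 _) _) hit_r
  simp only [mp_cons, mp_mp] at hk
  have u1 := GJ2' h (![0, 1, 1, 2] ∘ ![0, 1, 2]) ![0, 1, 1] (by decide) β N
  have u3 := GJ2' h (![0, 0, 1, 2] ∘ ![0, 1, 2]) ![0, 0, 1] (by decide) β N
  have u4 := GJ2' h (![0, 1, 0, 2] ∘ ![0, 1, 2]) ![0, 1, 0] (by decide) β N
  have t2 := nrm h [(0, 3), (0, 0)] ![0, 1, 2] ![0, 2, 3]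
    ![0, 2, 3, 1] (by decide) (by decide) β N
  have u2 : ψ (![0, 1, 2] ∘ β) ((0, 0) ::ₘ (0, 3) ::ₘ mp ![0, 1, 2] N) =
      fG ψ β ((0, 0) ::ₘ N) := by
    rw [Multiset.cons_swap, fG, mp_cons]
    exact t2
  rw [add_comm]
  exact ((congrArg₂ (· + ·) u1 u2).symm.trans hk).trans (congrArg₂ (· + ·) u3 u4)

lemma K6 [Finite L] (h : PhiM L g ψ) (β : L → Fin 2) (N : Multiset (Fin 2 × Fin 2))
    (hN : Multiset.card N + 3 = g) :
    fH ψ β ((0, 0) ::ₘ N) + fJ ψ β ((1, 1) ::ₘ N) = 2 * fQ g ψ := by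
  have hk := h.keel (![0, 2] ∘ β) ((0, 1) ::ₘ (0, 4) ::ₘ (2, 3) ::ₘ mp ![0, 2] N)
    (by rw [Multiset.card_cons, Multiset.card_cons, Multiset.card_cons, card_mp]; exact hN)
    (by
      intro i
      fin_cases i
      · exact hit_l
      · exact hit_r
      · exact hit_cons (hit_cons hit_l _) _
      · exact hit_cons (hit_cons hit_r _) _
      · exact hit_cons hit_r _)
  simp only [mp_cons, mp_mp] at hk
  have t1 := nrm h [(0, 3), (1, 2), (0, 0)] (![0, 0, 1, 2, 3] ∘ ![0, 2]) ![0, 2]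
    ![0, 2, 3, 1] (by decide) (by decide) β N
  have t2 := nrm h [(0, 1), (0, 3), (2, 2)] (![0, 1, 2, 2, 3] ∘ ![0, 2]) ![0, 3]
    ![0, 1, 3, 2] (by decide) (by decide) β N
  have u1 : ψ (![0, 0, 1, 2, 3] ∘ (![0, 2] ∘ β)) ((0, 0) ::ₘ (0, 3) ::ₘ (1, 2) ::ₘ
      mp (![0, 0, 1, 2, 3] ∘ ![0, 2]) N) = fH ψ β ((0, 0) ::ₘ N) := by
    rw [Multiset.cons_swap, Multiset.cons_swap (0, 0), fH, mp_cons]
    exact t1
  have u2 : ψ (![0, 1, 2, 2, 3] ∘ (![0, 2] ∘ β)) ((0, 1) ::ₘ (0, 3) ::ₘ (2, 2) ::ₘ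
      mp (![0, 1, 2, 2, 3] ∘ ![0, 2]) N) = fJ ψ β ((1, 1) ::ₘ N) := by
    rw [fJ, mp_cons]
    refine t2.trans ?_
    change ψ _ ((0, 1) ::ₘ (0, 2) ::ₘ _) = _
    rw [h.slideH]
    rfl
  have hc : ∀ m : Fin 2 → Fin 4, Multiset.card (mp m N) + 3 = g := fun m => by
    rw [card_mp]; exact hN
  have u3 : ψ (![0, 1, 0, 2, 3] ∘ (![0, 2] ∘ β)) ((0, 1) ::ₘ (0, 3) ::ₘ (0, 2) ::ₘ
      mp (![0, 1, 0, 2, 3] ∘ ![0, 2]) N) = fQ g ψ := by
    rw [Multiset.cons_swap (0, 3) (0, 2), h.slideH]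
    refine Eq.trans ?_ (toQ2 h (![0, 1, 0, 2, 3] ∘ (![0, 2] ∘ β)) _
      (hc (![0, 1, 0, 2, 3] ∘ ![0, 2])))
    rw [Multiset.cons_swap (1, 2) (0, 3), Multiset.cons_swap (0, 1) (0, 3)]
  have u4 : ψ (![0, 1, 2, 1, 3] ∘ (![0, 2] ∘ β)) ((0, 1) ::ₘ (0, 3) ::ₘ (2, 1) ::ₘ
      mp (![0, 1, 2, 1, 3] ∘ ![0, 2]) N) = fQ g ψ := by
    refine Eq.trans ?_ (toQ2 h (![0, 1, 2, 1, 3] ∘ (![0, 2] ∘ β)) _
      (hc (![0, 1, 2, 1, 3] ∘ ![0, 2])))
    rw [Multiset.cons_swap (0, 1) (0, 3), Multiset.cons_swap (0, 1) (2, 1),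
      Multiset.cons_swap (0, 3) (2, 1), h.flip, Multiset.cons_swap (1, 2) (0, 3),
      Multiset.cons_swap (1, 2) (0, 1)]
  rw [two_mul]
  exact ((congrArg₂ (· + ·) u1 u2).symm.trans hk).trans (congrArg₂ (· + ·) u3 u4)

end E0p

/-- Block E0: the contraction lemmas and the relations. -/
theorem e0 : E0 := by
  intro L g ψ hL h
  exact
    { flip := h.flip
      flipG := fun α a b M => by
        rw [fG, fG, E0p.mp_cons, E0p.mp_cons, Multiset.cons_swap, h.flip, Multiset.cons_swap]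
      flipJ := fun α a b M => by
        rw [fJ, fJ, E0p.mp_cons, E0p.mp_cons, Multiset.cons_swap (1, 2),
          Multiset.cons_swap (0, 1), h.flip, Multiset.cons_swap _ (0, 1),
          Multiset.cons_swap _ (1, 2)]
      flipH := fun α a b M => by
        rw [fH, fH, E0p.mp_cons, E0p.mp_cons, Multiset.cons_swap (2, 3),
          Multiset.cons_swap (0, 1), h.flip, Multiset.cons_swap _ (0, 1),
          Multiset.cons_swap _ (2, 3)]
      perm := h.perm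
      symG := E0p.symG h
      symH := E0p.symH h
      link := fun α a b M hab => E0p.link L g ψ h α a b M hab
      GJ1 := E0p.GJ1 h
      GJ2 := E0p.GJ2 h
      GH := E0p.GH h
      JQ := E0p.JQ h
      HQ := E0p.HQ h
      K1 := E0p.K1 h
      K3 := E0p.K3 h
      K4 := E0p.K4 h
      K5 := E0p.K5 h
      K6 := E0p.K6 h }

end Vale.Agent.P273.C1
end
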