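import Vale.Agent.P273.C1.Defs

/-!
Codegree one, block E1: the combinatorial statement in genus 0.
-/

noncomputable section
namespace Vale.Agent.P273.C1
open Sum Vale.Agent.P273
open scoped Classical

namespace E1

variable {L : Type} {ψ : (L → Fin 4) → Multiset (Fin 4 × Fin 4) → ℚ}

theorem mp_zero {k l : ℕ} (m : Fin k → Fin l) : mp m 0 = 0 := rfl

theorem sj_of {k : ℕ} {α : L → Fin k} (h : α.Surjective) : Sj α 0 := fun i => Or.inl (h i)

theorem of_sj {k : ℕ} {α : L → Fin k} (h : Sj α 0) : α.Surjective := by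
  intro i
  rcases h i with h | ⟨p, hp, -⟩
  · exact h
  · simp at hp

/-- the support -/
def sup [Fintype L] (α : L → Fin 4) : Finset L := Finset.univ.filter fun x => α x ≠ 0

theorem mem_sup [Fintype L] {α : L → Fin 4} {x : L} : x ∈ sup α ↔ α x ≠ 0 := by simp [sup]

theorem perm0 (h : PhiM L 0 ψ) (σ : Fin 4 ≃ Fin 4) (α : L → Fin 4) : ψ (σ ∘ α) 0 = ψ α 0 := by
  have := h.perm σ α 0
  rwa [mp_zero] at this

/-- the five parts -/
def gm (α : L → Fin 4) (x z : L) : Fin 5 := if z = x then 3 else ![0, 1, 2, 4] (α z)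

theorem gm_self (α : L → Fin 4) (x : L) : gm α x x = 3 := if_pos rfl

theorem gm_ne (α : L → Fin 4) {x z : L} (h : z ≠ x) : gm α x z = ![0, 1, 2, 4] (α z) := if_neg h

/-- moving one element from the part 2 to the part 1 -/
theorem move21 [Fintype L] (h : PhiM L 0 ψ) {α : L → Fin 4} (hα : α.Surjective) {x0 x y : L}
    (h0 : α x0 = 0) (hx : α x = 2) (hy : α y = 2) (hxy : y ≠ x)
    (ih : ∀ β : L → Fin 4, β.Surjective → β x0 = 0 → (sup β).card < (sup α).card → ψ β 0 = 0) :
    ψ (Function.update α x 1) 0 = ψ α 0 := by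
  have h0x : x0 ≠ x := by rintro rfl; rw [hx] at h0; exact absurd h0 (by decide)
  obtain ⟨z1, hz1⟩ := hα 1
  obtain ⟨z3, hz3⟩ := hα 3
  have hz1x : z1 ≠ x := by rintro rfl; rw [hx] at hz1; exact absurd hz1 (by decide)
  have hz3x : z3 ≠ x := by rintro rfl; rw [hx] at hz3; exact absurd hz3 (by decide)
  have g0 : gm α x x0 = 0 := by rw [gm_ne α h0x, h0]; rfl
  have g1 : gm α x z1 = 1 := by rw [gm_ne α hz1x, hz1]; rfl
  have g2 : gm α x y = 2 := by rw [gm_ne α hxy, hy]; rfl
  have g3 : gm α x x = 3 := gm_self α x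
  have g4 : gm α x z3 = 4 := by rw [gm_ne α hz3x, hz3]; rfl
  have hs : (gm α x).Surjective := by
    intro i
    fin_cases i
    exacts [⟨x0, g0⟩, ⟨z1, g1⟩, ⟨y, g2⟩, ⟨x, g3⟩, ⟨z3, g4⟩]
  have key := h.keel (gm α x) 0 rfl (sj_of hs)
  rw [mp_zero, mp_zero, mp_zero, mp_zero] at key
  have e2 : ![0, 1, 2, 2, 3] ∘ gm α x = α := by
    funext z
    by_cases hz : z = x
    · subst hz
      rw [Function.comp_apply, gm_self, hx]; rfl
    · rw [Function.comp_apply, gm_ne α hz]
      generalize α z = c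
      fin_cases c <;> rfl
  have e4 : ![0, 1, 2, 1, 3] ∘ gm α x = Function.update α x 1 := by
    funext z
    by_cases hz : z = x
    · subst hz
      rw [Function.comp_apply, gm_self, Function.update_self]; rfl
    · rw [Function.comp_apply, gm_ne α hz, Function.update_of_ne hz]
      generalize α z = c
      fin_cases c <;> rfl
  have hsub : ∀ m : Fin 5 → Fin 4, m 0 = 0 → sup (m ∘ gm α x) ⊆ sup α := by
    intro m hm z hz
    rw [mem_sup] at hz ⊢
    intro hz0
    have hzx : z ≠ x := by rintro rfl; rw [hx] at hz0; exact absurd hz0 (by decide)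
    apply hz
    rw [Function.comp_apply, gm_ne α hzx, hz0]
    exact hm
  have e1 : ψ (![0, 0, 1, 2, 3] ∘ gm α x) 0 = 0 := by
    refine ih _ ?_ ?_ (Finset.card_lt_card ⟨hsub _ rfl, fun hc => ?_⟩)
    · intro i
      fin_cases i
      · exact ⟨x0, by rw [Function.comp_apply, g0]; rfl⟩
      · exact ⟨y, by rw [Function.comp_apply, g2]; rfl⟩
      · exact ⟨x, by rw [Function.comp_apply, g3]; rfl⟩
      · exact ⟨z3, by rw [Function.comp_apply, g4]; rfl⟩
    · rw [Function.comp_apply, g0]; rfl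
    · have h1 : z1 ∈ sup α := by rw [mem_sup, hz1]; decide
      have h2 := hc h1
      rw [mem_sup, Function.comp_apply, g1] at h2
      exact h2 rfl
  have e3 : ψ (![0, 1, 0, 2, 3] ∘ gm α x) 0 = 0 := by
    refine ih _ ?_ ?_ (Finset.card_lt_card ⟨hsub _ rfl, fun hc => ?_⟩)
    · intro i
      fin_cases i
      · exact ⟨x0, by rw [Function.comp_apply, g0]; rfl⟩
      · exact ⟨z1, by rw [Function.comp_apply, g1]; rfl⟩
      · exact ⟨x, by rw [Function.comp_apply, g3]; rfl⟩
      · exact ⟨z3, by rw [Function.comp_apply, g4]; rfl⟩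
    · rw [Function.comp_apply, g0]; rfl
    · have h1 : y ∈ sup α := by rw [mem_sup, hy]; decide
      have h2 := hc h1
      rw [mem_sup, Function.comp_apply, g2] at h2
      exact h2 rfl
  rw [e1, e2, e3, e4, zero_add, zero_add] at key
  exact key.symm

/-- a permutation of the labels -/
def sg (a b : Fin 4) : Fin 4 ≃ Fin 4 := (Equiv.swap a 2).trans (Equiv.swap (Equiv.swap a 2 b) 1)

theorem sg_spec : ∀ a b : Fin 4, a ≠ 0 → b ≠ 0 → a ≠ b → sg a b 0 = 0 ∧ sg a b a = 2 ∧
    sg a b b = 1 := by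
  intro a b
  fin_cases a <;> fin_cases b <;> simp [sg, Equiv.swap_apply_def]

theorem sup_comp [Fintype L] (σ : Fin 4 ≃ Fin 4) (hσ : σ 0 = 0) (α : L → Fin 4) :
    sup (σ ∘ α) = sup α := by
  ext z
  rw [mem_sup, mem_sup, Function.comp_apply, not_iff_not]
  constructor
  · intro hz; exact σ.injective (hz.trans hσ.symm)
  · intro hz; rw [hz, hσ]

/-- moving one element -/
theorem move [Fintype L] (h : PhiM L 0 ψ) {α : L → Fin 4} (hα : α.Surjective) {x0 x y : L}
    {a b : Fin 4} (h0 : α x0 = 0) (ha0 : a ≠ 0) (hb0 : b ≠ 0) (hab : a ≠ b) (hx : α x = a)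
    (hy : α y = a) (hxy : y ≠ x)
    (ih : ∀ β : L → Fin 4, β.Surjective → β x0 = 0 → (sup β).card < (sup α).card → ψ β 0 = 0) :
    ψ (Function.update α x b) 0 = ψ α 0 := by
  obtain ⟨s0, sa, sb⟩ := sg_spec a b ha0 hb0 hab
  have h1 := move21 h (α := sg a b ∘ α) ((sg a b).surjective.comp hα) (x0 := x0) (x := x) (y := y)
    (by rw [Function.comp_apply, h0, s0]) (by rw [Function.comp_apply, hx, sa])
    (by rw [Function.comp_apply, hy, sa]) hxy (by
      intro β hβ hβ0 hc
      rw [sup_comp _ s0] at hc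
      exact ih β hβ hβ0 hc)
  have e : Function.update (sg a b ∘ α) x 1 = sg a b ∘ Function.update α x b := by
    funext z
    by_cases hz : z = x
    · subst hz
      rw [Function.update_self, Function.comp_apply, Function.update_self, sb]
    · rw [Function.update_of_ne hz, Function.comp_apply, Function.comp_apply,
        Function.update_of_ne hz]
  rw [e, perm0 h, perm0 h] at h1
  exact h1

/-- the test distribution -/
def tst (S : Finset L) (m1 m2 : L) (x : L) : Fin 4 :=
  if x = m1 then 1 else if x = m2 then 2 else if x ∈ S then 3 else 0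

theorem sup_update [Fintype L] {α : L → Fin 4} {x : L} {b : Fin 4} (hx : α x ≠ 0) (hb : b ≠ 0) :
    sup (Function.update α x b) = sup α := by
  ext z
  rw [mem_sup, mem_sup]
  by_cases hz : z = x
  · subst hz
    rw [Function.update_self]
    exact ⟨fun _ => hx, fun _ => hb⟩
  · rw [Function.update_of_ne hz]

theorem surj_update {α : L → Fin 4} (hα : α.Surjective) {x y : L} {b : Fin 4} (hxy : y ≠ x)
    (hy : α y = α x) : (Function.update α x b).Surjective := by
  intro i
  obtain ⟨z, hz⟩ := hα i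
  by_cases hzx : z = x
  · refine ⟨y, ?_⟩
    rw [Function.update_of_ne hxy, hy, ← hzx, hz]
  · exact ⟨z, by rw [Function.update_of_ne hzx, hz]⟩

/-- canonical form -/
theorem canon [Fintype L] (h : PhiM L 0 ψ) {x0 m1 m2 : L} (hm : m1 ≠ m2) (n : ℕ) (S : Finset L)
    (ih : ∀ β : L → Fin 4, β.Surjective → β x0 = 0 → (sup β).card < S.card → ψ β 0 = 0)
    (ht : ψ (tst S m1 m2) 0 = 0) :
    ∀ α : L → Fin 4, α.Surjective → α x0 = 0 → sup α = S → α m1 = 1 → α m2 = 2 →
      (Finset.univ.filter fun x => x ≠ m1 ∧ x ≠ m2 ∧ α x ≠ 0 ∧ α x ≠ 3).card = n → ψ α 0 = 0 := by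
  induction n with
  | zero =>
    intro α hα h0 hS h1 h2 hn
    rw [Finset.card_eq_zero, Finset.filter_eq_empty_iff] at hn
    have e : α = tst S m1 m2 := by
      funext x
      unfold tst
      by_cases hx1 : x = m1
      · rw [if_pos hx1, hx1, h1]
      rw [if_neg hx1]
      by_cases hx2 : x = m2
      · rw [if_pos hx2, hx2, h2]
      rw [if_neg hx2]
      have hx := hn (Finset.mem_univ x)
      by_cases hxS : x ∈ S
      · rw [if_pos hxS]
        rw [← hS, mem_sup] at hxS
        by_contra h3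
        exact hx ⟨hx1, hx2, hxS, h3⟩
      · rw [if_neg hxS]
        rw [← hS, mem_sup, not_not] at hxS
        exact hxS
    rw [e]
    exact ht
  | succ n ihn =>
    intro α hα h0 hS h1 h2 hn
    have hne : (Finset.univ.filter fun x => x ≠ m1 ∧ x ≠ m2 ∧ α x ≠ 0 ∧ α x ≠ 3).Nonempty := by
      rw [← Finset.card_pos, hn]; omega
    obtain ⟨x, hx⟩ := hne
    rw [Finset.mem_filter] at hx
    obtain ⟨-, hx1, hx2, hx0, hx3⟩ := hx
    obtain ⟨y, hyx, hy⟩ : ∃ y, y ≠ x ∧ α y = α x := by
      have : ∀ c : Fin 4, c ≠ 0 → c ≠ 3 → c = 1 ∨ c = 2 := by decide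
      rcases this _ hx0 hx3 with h3 | h3
      · exact ⟨m1, hx1.symm, by rw [h1, h3]⟩
      · exact ⟨m2, hx2.symm, by rw [h2, h3]⟩
    have hmv := move h hα (x0 := x0) (x := x) (y := y) (a := α x) (b := 3) h0 hx0 (by decide) hx3
      rfl hy hyx (by rw [hS]; exact ih)
    rw [← hmv]
    refine ihn _ (surj_update hα hyx hy) ?_ (by rw [sup_update hx0 (by decide), hS]) ?_ ?_ ?_
    · rw [Function.update_of_ne (by rintro rfl; exact hx0 h0), h0]
    · rw [Function.update_of_ne hx1.symm, h1]
    · rw [Function.update_of_ne hx2.symm, h2]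
    · have e : (Finset.univ.filter fun z => z ≠ m1 ∧ z ≠ m2 ∧ Function.update α x 3 z ≠ 0 ∧
          Function.update α x 3 z ≠ 3) =
          (Finset.univ.filter fun x => x ≠ m1 ∧ x ≠ m2 ∧ α x ≠ 0 ∧ α x ≠ 3).erase x := by
        ext z
        rw [Finset.mem_erase, Finset.mem_filter, Finset.mem_filter]
        by_cases hz : z = x
        · subst hz
          rw [Function.update_self]
          constructor
          · rintro ⟨-, -, -, -, h5⟩; exact absurd rfl h5
          · rintro ⟨h5, -⟩; exact absurd rfl h5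
        · rw [Function.update_of_ne hz]
          constructor
          · rintro ⟨h5, h6⟩; exact ⟨hz, h5, h6⟩
          · rintro ⟨-, h5, h6⟩; exact ⟨h5, h6⟩
      rw [e, Finset.card_erase_of_mem, hn]
      · omega
      · rw [Finset.mem_filter]
        exact ⟨Finset.mem_univ _, hx1, hx2, hx0, hx3⟩

/-- all distributions with one support -/
theorem one_sup [Fintype L] (h : PhiM L 0 ψ) {x0 m1 m2 : L} (hm : m1 ≠ m2) (S : Finset L)
    (hm1 : m1 ∈ S) (hm2 : m2 ∈ S)
    (ih : ∀ β : L → Fin 4, β.Surjective → β x0 = 0 → (sup β).card < S.card → ψ β 0 = 0)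
    (ht : ψ (tst S m1 m2) 0 = 0) (α : L → Fin 4) (hα : α.Surjective) (h0 : α x0 = 0)
    (hS : sup α = S) : ψ α 0 = 0 := by
  have ha : α m1 ≠ 0 := by rw [← mem_sup, hS]; exact hm1
  have hb : α m2 ≠ 0 := by rw [← mem_sup, hS]; exact hm2
  by_cases hab : α m1 = α m2
  · -- move `m2` to another label, then permute
    obtain ⟨b, hb0, hb1⟩ : ∃ b : Fin 4, b ≠ 0 ∧ α m2 ≠ b := by
      have : ∀ c : Fin 4, ∃ b : Fin 4, b ≠ 0 ∧ c ≠ b := by decide
      exact this _
    have hmv := move h hα (x0 := x0) (x := m2) (y := m1) (a := α m2) (b := b) h0 hb hb0 hb1 rfl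
      hab hm (by rw [hS]; exact ih)
    rw [← hmv]
    obtain ⟨s0, sa, sb⟩ := sg_spec b (α m1) hb0 ha (by rw [hab]; exact hb1.symm)
    rw [← perm0 h (sg b (α m1))]
    refine canon h hm _ S ih ht _ ((sg b (α m1)).surjective.comp (surj_update hα hm hab)) ?_ ?_ ?_
      ?_ rfl
    · rw [Function.comp_apply, Function.update_of_ne (by rintro rfl; exact hb h0), h0, s0]
    · rw [sup_comp _ s0, sup_update hb hb0, hS]
    · rw [Function.comp_apply, Function.update_of_ne hm, sb]
    · rw [Function.comp_apply, Function.update_self, sa]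
  · obtain ⟨s0, sa, sb⟩ := sg_spec (α m2) (α m1) hb ha (Ne.symm hab)
    rw [← perm0 h (sg (α m2) (α m1))]
    refine canon h hm _ S ih ht _ ((sg (α m2) (α m1)).surjective.comp hα) ?_ ?_ ?_ ?_ rfl
    · rw [Function.comp_apply, h0, s0]
    · rw [sup_comp _ s0, hS]
    · rw [Function.comp_apply, sb]
    · rw [Function.comp_apply, sa]

/-- everything vanishes -/
theorem vanish [Fintype L] (h : PhiM L 0 ψ) {x0 : L}
    (ht : ∀ S : Finset L, x0 ∉ S → 3 ≤ S.card → ∃ m1 ∈ S, ∃ m2 ∈ S, m1 ≠ m2 ∧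
      ψ (tst S m1 m2) 0 = 0) (n : ℕ) :
    ∀ α : L → Fin 4, α.Surjective → α x0 = 0 → (sup α).card = n → ψ α 0 = 0 := by
  induction n using Nat.strong_induction_on with
  | _ n ihn =>
    intro α hα h0 hn
    have hx0 : x0 ∉ sup α := by rw [mem_sup, not_not]; exact h0
    have h3 : 3 ≤ (sup α).card := by
      obtain ⟨z1, h1⟩ := hα 1
      obtain ⟨z2, h2⟩ := hα 2
      obtain ⟨z3, h3⟩ := hα 3
      have : ({z1, z2, z3} : Finset L) ⊆ sup α := by
        intro z hz
        rw [Finset.mem_insert, Finset.mem_insert, Finset.mem_singleton] at hz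
        rw [mem_sup]
        rcases hz with rfl | rfl | rfl
        · rw [h1]; decide
        · rw [h2]; decide
        · rw [h3]; decide
      refine le_trans (le_of_eq ?_) (Finset.card_le_card this)
      rw [Finset.card_insert_of_notMem, Finset.card_insert_of_notMem, Finset.card_singleton]
      · rw [Finset.mem_singleton]; rintro rfl; rw [h2] at h3; exact absurd h3 (by decide)
      · rw [Finset.mem_insert, Finset.mem_singleton]
        rintro (rfl | rfl)
        · rw [h1] at h2; exact absurd h2 (by decide)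
        · rw [h1] at h3; exact absurd h3 (by decide)
    obtain ⟨m1, hm1, m2, hm2, hm, htt⟩ := ht _ hx0 h3
    exact one_sup h hm _ hm1 hm2 (fun β hβ hβ0 hc => ihn _ (by rw [← hn]; exact hc) β hβ hβ0 rfl)
      htt α hα h0 rfl

/-- the number of tests -/
theorem count [Fintype L] (x0 : L) :
    Fintype.card {S : Finset L // x0 ∉ S ∧ 3 ≤ S.card} ≤ AC 0 (Nat.card L) := by
  set T : Finset L := Finset.univ.erase x0 with hT
  obtain ⟨N, hN⟩ : ∃ N, T.card = N := ⟨_, rfl⟩
  have hcard : Nat.card L = N + 1 := by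
    rw [Nat.card_eq_fintype_card, ← hN, hT, Finset.card_erase_of_mem (Finset.mem_univ _),
      Finset.card_univ]
    have : 0 < Fintype.card L := Fintype.card_pos_iff.2 ⟨x0⟩
    omega
  have e1 : Fintype.card {S : Finset L // x0 ∉ S ∧ 3 ≤ S.card} =
      (T.powerset.filter fun S => 3 ≤ S.card).card := by
    rw [Fintype.card_subtype]
    congr 1
    ext S
    rw [Finset.mem_filter, Finset.mem_filter, Finset.mem_powerset, hT]
    constructor
    · rintro ⟨-, h1, h2⟩
      exact ⟨fun z hz => Finset.mem_erase.2 ⟨by rintro rfl; exact h1 hz, Finset.mem_univ _⟩, h2⟩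
    · rintro ⟨h1, h2⟩
      exact ⟨Finset.mem_univ _, fun h3 => (Finset.mem_erase.1 (h1 h3)).1 rfl, h2⟩
  have e2 : (T.powerset.filter fun S => ¬ 3 ≤ S.card) =
      (T.powersetCard 0 ∪ T.powersetCard 1) ∪ T.powersetCard 2 := by
    ext S
    rw [Finset.mem_filter, Finset.mem_powerset, Finset.mem_union, Finset.mem_union,
      Finset.mem_powersetCard, Finset.mem_powersetCard, Finset.mem_powersetCard]
    constructor
    · rintro ⟨h1, h2⟩
      have : S.card = 0 ∨ S.card = 1 ∨ S.card = 2 := by omega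
      rcases this with h | h | h
      · exact Or.inl (Or.inl ⟨h1, h⟩)
      · exact Or.inl (Or.inr ⟨h1, h⟩)
      · exact Or.inr ⟨h1, h⟩
    · rintro ((⟨h1, h⟩ | ⟨h1, h⟩) | ⟨h1, h⟩) <;> exact ⟨h1, by omega⟩
  have e3 : (T.powerset.filter fun S => ¬ 3 ≤ S.card).card = 1 + N + N.choose 2 := by
    rw [e2, Finset.card_union_of_disjoint, Finset.card_union_of_disjoint,
      Finset.card_powersetCard, Finset.card_powersetCard, Finset.card_powersetCard, hN,
      Nat.choose_zero_right, Nat.choose_one_right]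
    · rw [Finset.disjoint_left]
      intro S h1 h2
      rw [Finset.mem_powersetCard] at h1 h2
      omega
    · rw [Finset.disjoint_left]
      intro S h1 h2
      rw [Finset.mem_union, Finset.mem_powersetCard, Finset.mem_powersetCard] at h1
      rw [Finset.mem_powersetCard] at h2
      omega
  have e4 := Finset.card_filter_add_card_filter_not (s := T.powerset) (fun S => 3 ≤ S.card)
  rw [e3, Finset.card_powerset, hN] at e4
  have e5 : (N + 1).choose 2 = N + N.choose 2 := by
    rw [Nat.choose_succ_succ', Nat.choose_one_right]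
  rw [e1, hcard]
  unfold AC
  rw [if_pos rfl, e5, zero_add, one_mul, pow_succ]
  omega

end E1

/-- Block E1. -/
theorem e1 : E1 := by
  intro L hL
  haveI := Fintype.ofFinite L
  rcases isEmpty_or_nonempty L with hE | ⟨⟨x0⟩⟩
  · refine ⟨Empty, inferInstance, Empty.elim, ?_, ?_⟩
    · simp
    · intro ψ h ht α M hM hs
      have hM0 : M = 0 := Multiset.card_eq_zero.1 hM
      subst hM0
      obtain ⟨x, -⟩ := E1.of_sj hs 0
      exact (hE.false x).elim
  · have hch : ∀ S : {S : Finset L // x0 ∉ S ∧ 3 ≤ S.card}, ∃ m1 ∈ S.1, ∃ m2 ∈ S.1, m1 ≠ m2 :=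
      fun S => Finset.one_lt_card.1 (by have := S.2.2; omega)
    choose m1 hm1 m2 hm2 hm using hch
    refine ⟨{S : Finset L // x0 ∉ S ∧ 3 ≤ S.card}, inferInstance,
      fun S => (E1.tst S.1 (m1 S) (m2 S), 0), ?_, ?_⟩
    · have := E1.count x0
      simpa using this
    · intro ψ h ht α M hM hs
      have hM0 : M = 0 := Multiset.card_eq_zero.1 hM
      subst hM0
      have hα := E1.of_sj hs
      rw [← E1.perm0 h (Equiv.swap (α x0) 0)]
      refine E1.vanish h (x0 := x0) ?_ _ _ ((Equiv.swap (α x0) 0).surjective.comp hα) ?_ rfl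
      · intro S h1 h2
        exact ⟨m1 ⟨S, h1, h2⟩, hm1 _, m2 ⟨S, h1, h2⟩, hm2 _, hm _, ht ⟨S, h1, h2⟩⟩
      · rw [Function.comp_apply, Equiv.swap_apply_left]

end Vale.Agent.P273.C1
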