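import Vale.Agent.P273.C1.Defs

/-!
Codegree one, blocks E2 and E3: the combinatorial statement in genus 1 and in genus 2.
-/

noncomputable section
namespace Vale.Agent.P273.C1
open Sum Vale.Agent.P273
open scoped Classical

namespace E23

variable {L : Type} {g : ℕ} {ψ : (L → Fin 4) → Multiset (Fin 4 × Fin 4) → ℚ}
  {G : (L → Fin 3) → Multiset (Fin 3 × Fin 3) → ℚ}
  {J H : (L → Fin 2) → Multiset (Fin 2 × Fin 2) → ℚ} {Q : ℚ}

theorem mp_cons {k l : ℕ} (m : Fin k → Fin l) (p : Fin k × Fin k) (M : Multiset (Fin k × Fin k)) :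
    mp m (p ::ₘ M) = (m p.1, m p.2) ::ₘ mp m M := by
  simp [mp, Prod.map]

theorem mp_zero {k l : ℕ} (m : Fin k → Fin l) : mp m 0 = 0 := rfl

theorem card_mp {k l : ℕ} (m : Fin k → Fin l) (M : Multiset (Fin k × Fin k)) :
    (mp m M).card = M.card := by simp [mp]

theorem hit_map {k l : ℕ} (m : Fin k → Fin l) {i : Fin k} {j : Fin l} {α : L → Fin k}
    {M : Multiset (Fin k × Fin k)} (h : Hit i α M) (hj : m i = j) : Hit j (m ∘ α) (mp m M) := by
  subst hj
  rcases h with ⟨x, hx⟩ | ⟨p, hp, h⟩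
  · exact Or.inl ⟨x, by simp [hx]⟩
  · refine Or.inr ⟨Prod.map m m p, Multiset.mem_map_of_mem _ hp, ?_⟩
    rcases h with h | h
    · exact Or.inl (by simp [h])
    · exact Or.inr (by simp [h])

theorem hit_inv {k : ℕ} {i : Fin k} {α : L → Fin k} {p : Fin k × Fin k}
    {M : Multiset (Fin k × Fin k)} (h : Hit i α (p ::ₘ M)) (h1 : p.1 ≠ i) (h2 : p.2 ≠ i) :
    Hit i α M := by
  rcases h with h | ⟨q, hq, h⟩
  · exact Or.inl h
  · rcases Multiset.mem_cons.1 hq with rfl | hq
    · rcases h with h | h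
      · exact absurd h h1
      · exact absurd h h2
    · exact Or.inr ⟨q, hq, h⟩

theorem hit_zero {k : ℕ} {i : Fin k} {α : L → Fin k} (h : Hit i α 0) : ∃ x, α x = i := by
  rcases h with h | ⟨q, hq, -⟩
  · exact h
  · simp at hq

/-- The value of `G` vanishes on its domain. -/
def GV (g : ℕ) (G : (L → Fin 3) → Multiset (Fin 3 × Fin 3) → ℚ) : Prop :=
  ∀ (α : L → Fin 3) (M : Multiset (Fin 3 × Fin 3)), M.card + 1 = g → Hit 1 α M → Hit 2 α M →
    G α M = 0

/-- If `G` vanishes then `ψ` vanishes. -/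
theorem PZ (K : KRel L g ψ G J H Q) (hG : GV g G) (hg : 1 ≤ g) (α : L → Fin 4)
    (M : Multiset (Fin 4 × Fin 4)) (hc : M.card = g) (hs : Sj α M) : ψ α M = 0 := by
  obtain ⟨p, hp⟩ : ∃ p, p ∈ M := by
    refine Multiset.exists_mem_of_ne_zero ?_
    rintro rfl
    simp at hc
    omega
  obtain ⟨N, rfl⟩ := Multiset.exists_cons_of_mem hp
  rw [Multiset.card_cons] at hc
  obtain ⟨a, b⟩ := p
  by_cases hab : a = b
  · subst hab
    have e : mp (Equiv.swap a 0 : Fin 4 ≃ Fin 4) ((a, a) ::ₘ N) =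
        (0, 0) ::ₘ mp (Equiv.swap a 0 : Fin 4 ≃ Fin 4) N := by
      rw [mp_cons, Equiv.swap_apply_left]
    have hh : ∀ i, i ≠ 0 → Hit i ((Equiv.swap a 0 : Fin 4 ≃ Fin 4) ∘ α)
        (mp (Equiv.swap a 0 : Fin 4 ≃ Fin 4) N) := by
      intro i hi
      have h1 : Hit ((Equiv.swap a 0 : Fin 4 ≃ Fin 4) i) α ((a, a) ::ₘ N) := hs _
      have h2 : a ≠ (Equiv.swap a 0 : Fin 4 ≃ Fin 4) i := by
        intro h
        apply hi
        have := congrArg (Equiv.swap a 0) h
        rwa [Equiv.swap_apply_left, Equiv.swap_apply_self, eq_comm] at this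
      exact hit_map _ (hit_inv h1 h2 h2) (Equiv.swap_apply_self _ _ _)
    rw [← K.perm (Equiv.swap a 0 : Fin 4 ≃ Fin 4), e]
    have k := K.K1 ((Equiv.swap a 0 : Fin 4 ≃ Fin 4) ∘ α) (mp (Equiv.swap a 0 : Fin 4 ≃ Fin 4) N)
      (by rw [card_mp]; omega) (hh 1 (by decide)) (hh 2 (by decide)) (hh 3 (by decide))
    rw [hG _ _ (by rw [card_mp, card_mp]; omega)
        (hit_map _ (hh 1 (by decide)) (by decide)) (hit_map _ (hh 3 (by decide)) (by decide)),
      hG _ _ (by rw [card_mp, card_mp]; omega)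
        (hit_map _ (hh 2 (by decide)) (by decide)) (hit_map _ (hh 3 (by decide)) (by decide)),
      hG _ _ (by rw [card_mp, card_mp]; omega)
        (hit_map _ (hh 1 (by decide)) (by decide)) (hit_map _ (hh 3 (by decide)) (by decide))] at k
    linarith
  · obtain ⟨r, hr, ha, hb, h⟩ := K.link α a b N hab
    rw [h]
    have hh : ∀ j, j ≠ 0 → Hit j (r ∘ α) (mp r N) := by
      intro j hj
      obtain ⟨i, hi⟩ := hr j
      refine hit_map r (hit_inv (hs i) ?_ ?_) hi
      · rintro rfl
        exact hj (hi.symm.trans ha)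
      · rintro rfl
        exact hj (hi.symm.trans hb)
    exact hG _ _ (by rw [card_mp]; omega) (hh 1 (by decide)) (hh 2 (by decide))

/-! ### Genus one -/

/-- Label 1 on `p`, label 2 on `q`. -/
def al (p q : Finset L) (x : L) : Fin 3 := if x ∈ p then 1 else if x ∈ q then 2 else 0

theorem al_1 {p q : Finset L} {x : L} (h : x ∈ p) : al p q x = 1 := if_pos h

theorem al_2 {p q : Finset L} {x : L} (h1 : x ∉ p) (h : x ∈ q) : al p q x = 2 := by
  rw [al, if_neg h1, if_pos h]

theorem al_0 {p q : Finset L} {x : L} (h1 : x ∉ p) (h : x ∉ q) : al p q x = 0 := by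
  rw [al, if_neg h1, if_neg h]

/-- Labels 1, 2, 3 on `p`, `q`, `s`. -/
def be (p q s : Finset L) (x : L) : Fin 4 :=
  if x ∈ p then 1 else if x ∈ q then 2 else if x ∈ s then 3 else 0

theorem be_1 {p q s : Finset L} {x : L} (h : x ∈ p) : be p q s x = 1 := if_pos h

theorem be_2 {p q s : Finset L} {x : L} (h1 : x ∉ p) (h : x ∈ q) : be p q s x = 2 := by
  rw [be, if_neg h1, if_pos h]

theorem be_3 {p q s : Finset L} {x : L} (h1 : x ∉ p) (h2 : x ∉ q) (h : x ∈ s) :
    be p q s x = 3 := by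
  rw [be, if_neg h1, if_neg h2, if_pos h]

theorem be_0 {p q s : Finset L} {x : L} (h1 : x ∉ p) (h2 : x ∉ q) (h : x ∉ s) :
    be p q s x = 0 := by
  rw [be, if_neg h1, if_neg h2, if_neg h]

theorem al_symm (K : KRel L 1 ψ G J H Q) {p q : Finset L} (h : Disjoint p q) :
    G (al p q) 0 = G (al q p) 0 := by
  have k := K.symG (al q p) 0
  rw [mp_zero] at k
  rw [← k]
  congr 1
  funext x
  by_cases hp : x ∈ p
  · have hq : x ∉ q := Finset.disjoint_left.1 h hp
    rw [al_1 hp, Function.comp_apply, al_2 hq hp]; rfl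
  · by_cases hq : x ∈ q
    · rw [al_2 hp hq, Function.comp_apply, al_1 hq]; rfl
    · rw [al_0 hp hq, Function.comp_apply, al_0 hq hp]; rfl

/-- The value at a self-linked branch, in genus one. -/
theorem k1 (K : KRel L 1 ψ G J H Q) {p q s : Finset L} (hpq : Disjoint p q) (hps : Disjoint p s)
    (hqs : Disjoint q s) (hp : p.Nonempty) (hq : q.Nonempty) (hs : s.Nonempty) :
    G (al (p ∪ q) s) 0 + ψ (be p q s) ((0, 0) ::ₘ 0) = G (al q s) 0 + G (al p s) 0 := by
  obtain ⟨x1, h1⟩ := hp
  obtain ⟨x2, h2⟩ := hq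
  obtain ⟨x3, h3⟩ := hs
  have k := K.K1 (be p q s) 0 rfl (Or.inl ⟨x1, be_1 h1⟩)
    (Or.inl ⟨x2, be_2 (Finset.disjoint_right.1 hpq h2) h2⟩)
    (Or.inl ⟨x3, be_3 (Finset.disjoint_right.1 hps h3) (Finset.disjoint_right.1 hqs h3) h3⟩)
  rw [mp_zero, mp_zero, mp_zero] at k
  have e1 : ![0, 1, 1, 2] ∘ be p q s = al (p ∪ q) s := by
    funext x
    by_cases hp : x ∈ p
    · rw [Function.comp_apply, be_1 hp, al_1 (Finset.mem_union_left _ hp)]; rfl
    by_cases hq : x ∈ q
    · rw [Function.comp_apply, be_2 hp hq, al_1 (Finset.mem_union_right _ hq)]; rfl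
    have hn : x ∉ p ∪ q := by
      rw [Finset.mem_union]
      rintro (h | h)
      exacts [hp h, hq h]
    by_cases hs : x ∈ s
    · rw [Function.comp_apply, be_3 hp hq hs, al_2 hn hs]; rfl
    · rw [Function.comp_apply, be_0 hp hq hs, al_0 hn hs]; rfl
  have e2 : ![0, 0, 1, 2] ∘ be p q s = al q s := by
    funext x
    by_cases hp : x ∈ p
    · rw [Function.comp_apply, be_1 hp, al_0 (Finset.disjoint_left.1 hpq hp)
        (Finset.disjoint_left.1 hps hp)]; rfl
    by_cases hq : x ∈ q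
    · rw [Function.comp_apply, be_2 hp hq, al_1 hq]; rfl
    by_cases hs : x ∈ s
    · rw [Function.comp_apply, be_3 hp hq hs, al_2 hq hs]; rfl
    · rw [Function.comp_apply, be_0 hp hq hs, al_0 hq hs]; rfl
  have e3 : ![0, 1, 0, 2] ∘ be p q s = al p s := by
    funext x
    by_cases hp : x ∈ p
    · rw [Function.comp_apply, be_1 hp, al_1 hp]; rfl
    by_cases hq : x ∈ q
    · rw [Function.comp_apply, be_2 hp hq, al_0 hp (Finset.disjoint_left.1 hqs hq)]; rfl
    by_cases hs : x ∈ s
    · rw [Function.comp_apply, be_3 hp hq hs, al_2 hp hs]; rfl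
    · rw [Function.comp_apply, be_0 hp hq hs, al_0 hp hs]; rfl
  rw [e1, e2, e3] at k
  exact k

theorem be_perm (K : KRel L 1 ψ G J H Q) {p q s : Finset L} (hpq : Disjoint p q)
    (hps : Disjoint p s) (hqs : Disjoint q s) :
    ψ (be p q s) ((0, 0) ::ₘ 0) = ψ (be s q p) ((0, 0) ::ₘ 0) := by
  have k := K.perm (Equiv.swap 1 3) (be p q s) ((0, 0) ::ₘ 0)
  have e0 : (Equiv.swap (1 : Fin 4) 3) 0 = 0 := by decide
  have e2 : (Equiv.swap (1 : Fin 4) 3) 2 = 2 := by decide
  rw [mp_cons, mp_zero, e0] at k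
  rw [← k]
  congr 1
  funext x
  by_cases hp : x ∈ p
  · rw [Function.comp_apply, be_1 hp, be_3 (Finset.disjoint_left.1 hps hp)
      (Finset.disjoint_left.1 hpq hp) hp, Equiv.swap_apply_left]
  by_cases hq : x ∈ q
  · rw [Function.comp_apply, be_2 hp hq, be_2 (Finset.disjoint_left.1 hqs hq) hq, e2]
  by_cases hs : x ∈ s
  · rw [Function.comp_apply, be_3 hp hq hs, be_1 hs, Equiv.swap_apply_right]
  · rw [Function.comp_apply, be_0 hp hq hs, be_0 hs hq hp, e0]

/-- `G(p, q) + G(p + q, s) = G(q, s) + G(p, q + s)` -/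
theorem cocycle (K : KRel L 1 ψ G J H Q) {p q s : Finset L} (hpq : Disjoint p q)
    (hps : Disjoint p s) (hqs : Disjoint q s) (hp : p.Nonempty) (hq : q.Nonempty)
    (hs : s.Nonempty) :
    G (al p q) 0 + G (al (p ∪ q) s) 0 = G (al q s) 0 + G (al p (q ∪ s)) 0 := by
  have a := k1 K hpq hps hqs hp hq hs
  have b := k1 K hqs.symm hps.symm hpq.symm hs hq hp
  rw [be_perm K hpq hps hqs] at a
  have c1 := al_symm K hpq
  have c2 := al_symm K hps
  have hd : Disjoint p (q ∪ s) := Finset.disjoint_union_right.2 ⟨hpq, hps⟩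
  have c3 := al_symm K hd
  have c4 : s ∪ q = q ∪ s := Finset.union_comm _ _
  rw [c4] at b
  linarith

/-- Everything vanishes, in genus one. -/
theorem van1 (K : KRel L 1 ψ G J H Q)
    (ht : ∀ S : Finset L, 2 ≤ S.card → ∃ m ∈ S, G (al {m} (S.erase m)) 0 = 0) (n : ℕ) :
    ∀ p q : Finset L, Disjoint p q → p.Nonempty → q.Nonempty → (p ∪ q).card = n →
      G (al p q) 0 = 0 := by
  induction n using Nat.strong_induction_on with
  | _ n ih =>
    have main : ∀ p q : Finset L, ∀ m, Disjoint p q → m ∈ p → q.Nonempty → (p ∪ q).card = n →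
        G (al {m} ((p ∪ q).erase m)) 0 = 0 → G (al p q) 0 = 0 := by
      intro p q m hd hm hq hc h0
      have hmq : m ∉ q := Finset.disjoint_left.1 hd hm
      have hdm : Disjoint {m} (p.erase m) := by
        rw [Finset.disjoint_singleton_left]
        exact Finset.notMem_erase m p
      have hpm : {m} ∪ p.erase m = p := by
        rw [← Finset.insert_eq, Finset.insert_erase hm]
      have hdq : Disjoint (p.erase m) q :=
        Finset.disjoint_of_subset_left (Finset.erase_subset m p) hd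
      have hdmq : Disjoint {m} q := by
        rw [Finset.disjoint_singleton_left]
        exact hmq
      have hu : (p ∪ q).erase m = p.erase m ∪ q := by
        rw [Finset.erase_union_distrib, Finset.erase_eq_of_notMem hmq]
      rw [hu] at h0
      rcases (p.erase m).eq_empty_or_nonempty with he | he
      · rw [he, Finset.empty_union] at h0
        rw [he, Finset.union_empty] at hpm
        rw [← hpm]
        exact h0
      · have k := cocycle K hdm hdmq hdq (Finset.singleton_nonempty m) he hq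
        rw [hpm, h0] at k
        have hq1 : 0 < q.card := Finset.card_pos.2 hq
        have hcu : (p ∪ q).card = p.card + q.card := Finset.card_union_of_disjoint hd
        have hce : (p.erase m).card = p.card - 1 := Finset.card_erase_of_mem hm
        have hp1 : 0 < p.card := Finset.card_pos.2 ⟨m, hm⟩
        have z1 : G (al {m} (p.erase m)) 0 = 0 :=
          ih p.card (by omega) _ _ hdm (Finset.singleton_nonempty m) he (by rw [hpm])
        have z2 : G (al (p.erase m) q) 0 = 0 := by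
          refine ih (n - 1) (by omega) _ _ hdq he hq ?_
          rw [Finset.card_union_of_disjoint hdq, hce]
          omega
        rw [z1, z2] at k
        linarith
    intro p q hd hp hq hc
    have h2 : 2 ≤ (p ∪ q).card := by
      rw [Finset.card_union_of_disjoint hd]
      have h3 : 0 < p.card := Finset.card_pos.2 hp
      have h4 : 0 < q.card := Finset.card_pos.2 hq
      omega
    obtain ⟨m, hm, h0⟩ := ht _ h2
    rcases Finset.mem_union.1 hm with hm | hm
    · exact main p q m hd hm hq hc h0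
    · rw [al_symm K hd]
      rw [Finset.union_comm] at hc h0
      exact main q p m hd.symm hm hp hc h0

theorem eq_al [Fintype L] (α : L → Fin 3) : α = al (Finset.univ.filter fun x => α x = 1)
    (Finset.univ.filter fun x => α x = 2) := by
  funext x
  by_cases h1 : α x = 1
  · rw [h1, al_1]
    rw [Finset.mem_filter]
    exact ⟨Finset.mem_univ _, h1⟩
  have n1 : x ∉ Finset.univ.filter fun x => α x = 1 := by
    rw [Finset.mem_filter]
    exact fun h => h1 h.2
  by_cases h2 : α x = 2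
  · rw [h2, al_2 n1]
    rw [Finset.mem_filter]
    exact ⟨Finset.mem_univ _, h2⟩
  have n2 : x ∉ Finset.univ.filter fun x => α x = 2 := by
    rw [Finset.mem_filter]
    exact fun h => h2 h.2
  rw [al_0 n1 n2]
  have : ∀ c : Fin 3, c ≠ 1 → c ≠ 2 → c = 0 := by decide
  exact this _ h1 h2

theorem GV1 [Fintype L] (K : KRel L 1 ψ G J H Q)
    (ht : ∀ S : Finset L, 2 ≤ S.card → ∃ m ∈ S, G (al {m} (S.erase m)) 0 = 0) : GV 1 G := by
  intro α M hc h1 h2
  have hM : M = 0 := Multiset.card_eq_zero.1 (by omega)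
  subst hM
  obtain ⟨x1, hx1⟩ := hit_zero h1
  obtain ⟨x2, hx2⟩ := hit_zero h2
  rw [eq_al α]
  refine van1 K ht _ _ _ ?_ ⟨x1, ?_⟩ ⟨x2, ?_⟩ rfl
  · rw [Finset.disjoint_left]
    intro x a b
    rw [Finset.mem_filter] at a b
    have := a.2.symm.trans b.2
    exact absurd this (by decide)
  · rw [Finset.mem_filter]
    exact ⟨Finset.mem_univ _, hx1⟩
  · rw [Finset.mem_filter]
    exact ⟨Finset.mem_univ _, hx2⟩

/-- The number of tests in genus one. -/
theorem count1 [Fintype L] :
    Fintype.card {S : Finset L // 2 ≤ S.card} + 1 ≤ AC 1 (Nat.card L) := by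
  obtain ⟨N, hN⟩ : ∃ N, Fintype.card L = N := ⟨_, rfl⟩
  have e1 : Fintype.card {S : Finset L // 2 ≤ S.card} =
      ((Finset.univ : Finset L).powerset.filter fun S => 2 ≤ S.card).card := by
    rw [Fintype.card_subtype, Finset.powerset_univ]
  have e2 : ((Finset.univ : Finset L).powerset.filter fun S => ¬ 2 ≤ S.card) =
      (Finset.univ : Finset L).powersetCard 0 ∪ (Finset.univ : Finset L).powersetCard 1 := by
    ext S
    rw [Finset.mem_filter, Finset.mem_powerset, Finset.mem_union,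
      Finset.mem_powersetCard, Finset.mem_powersetCard]
    constructor
    · rintro ⟨h1, h2⟩
      have : S.card = 0 ∨ S.card = 1 := by omega
      rcases this with h | h
      · exact Or.inl ⟨h1, h⟩
      · exact Or.inr ⟨h1, h⟩
    · rintro (⟨h1, h⟩ | ⟨h1, h⟩) <;> exact ⟨h1, by omega⟩
  have e3 : ((Finset.univ : Finset L).powerset.filter fun S => ¬ 2 ≤ S.card).card = 1 + N := by
    rw [e2, Finset.card_union_of_disjoint, Finset.card_powersetCard, Finset.card_powersetCard,
      Finset.card_univ, hN, Nat.choose_zero_right, Nat.choose_one_right]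
    rw [Finset.disjoint_left]
    intro S h1 h2
    rw [Finset.mem_powersetCard] at h1 h2
    omega
  have e4 := Finset.card_filter_add_card_filter_not (s := (Finset.univ : Finset L).powerset)
    (fun S => 2 ≤ S.card)
  rw [e3, Finset.card_powerset, Finset.card_univ, hN] at e4
  rw [e1, Nat.card_eq_fintype_card, hN]
  unfold AC
  rw [if_neg (by omega), if_pos rfl]
  omega

/-! ### Genus two -/

/-- The first leg lies on the branch 0. -/
def lo (α : L → Fin 2) : Prop := ∀ h : Nonempty L, α (Classical.choice h) = 0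

theorem nn (α : L → Fin 2) : (![1, 0] : Fin 2 → Fin 2) ∘ (![1, 0] : Fin 2 → Fin 2) ∘ α = α := by
  funext x
  simp only [Function.comp]
  generalize α x = u
  revert u
  decide

theorem lo_or (α : L → Fin 2) : lo α ∨ lo (![1, 0] ∘ α) := by
  by_cases h : lo α
  · exact Or.inl h
  · right
    intro hh
    simp only [lo] at h
    push Not at h
    obtain ⟨h', h2⟩ := h
    simp only [Function.comp]
    have : Classical.choice hh = Classical.choice h' := rfl
    rw [this]
    generalize α (Classical.choice h') = u at h2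
    revert h2
    revert u
    decide

theorem HZ (K : KRel L 2 ψ G J H Q) (hH : ∀ α, lo α → H α 0 = 0) (α : L → Fin 2) :
    H α 0 = 0 := by
  rcases lo_or α with h | h
  · exact hH α h
  · have k := K.symH α 0
    rw [mp_zero] at k
    rw [← k]
    exact hH _ h

theorem G11 (K : KRel L 2 ψ G J H Q) (hJ : ∀ α, (∃ x, α x = 1) → J α 0 = 0)
    (hH : ∀ α, H α 0 = 0) (α : L → Fin 3) (h2 : ∃ x, α x = 2) : G α ((1, 1) ::ₘ 0) = 0 := by
  obtain ⟨x, hx⟩ := h2
  have e : (![1, 0, 2] : Fin 3 → Fin 3) ∘ (![1, 0, 2] : Fin 3 → Fin 3) ∘ α = α := by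
    funext y
    simp only [Function.comp]
    generalize α y = u
    revert u
    decide
  have k := K.K4 (![1, 0, 2] ∘ α) 0 rfl (Or.inl ⟨x, by rw [Function.comp_apply, hx]; rfl⟩)
  rw [mp_zero, mp_zero, mp_zero, mp_zero, e, hH, hH, hJ] at k
  · linarith
  · exact ⟨x, by rw [Function.comp_apply, Function.comp_apply, hx]; rfl⟩

theorem GV2 (K : KRel L 2 ψ G J H Q) (hJ : ∀ α, (∃ x, α x = 1) → J α 0 = 0)
    (hH : ∀ α, H α 0 = 0) : GV 2 G := by
  intro α M hc h1 h2
  obtain ⟨p, rfl⟩ : ∃ p, M = p ::ₘ 0 := by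
    obtain ⟨p, hp⟩ := Multiset.card_eq_one.1 (show M.card = 1 by omega)
    exact ⟨p, hp⟩
  have hp : p = (0, 0) ∨ p = (0, 1) ∨ p = (1, 0) ∨ p = (0, 2) ∨ p = (2, 0) ∨ p = (1, 2) ∨
      p = (2, 1) ∨ p = (1, 1) ∨ p = (2, 2) := by
    clear hc h1 h2
    revert p
    decide
  have z01 : ∀ α : L → Fin 3, Hit 2 α 0 → G α ((0, 1) ::ₘ 0) = 0 := by
    intro α h
    obtain ⟨x, hx⟩ := hit_zero h
    rw [K.GJ1, mp_zero]
    exact hJ _ ⟨x, by rw [Function.comp_apply, hx]; rfl⟩
  have z02 : ∀ α : L → Fin 3, Hit 1 α 0 → G α ((0, 2) ::ₘ 0) = 0 := by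
    intro α h
    obtain ⟨x, hx⟩ := hit_zero h
    rw [K.GJ2, mp_zero]
    exact hJ _ ⟨x, by rw [Function.comp_apply, hx]; rfl⟩
  have z12 : ∀ α : L → Fin 3, G α ((1, 2) ::ₘ 0) = 0 := by
    intro α
    rw [K.GH, mp_zero]
    exact hH _
  rcases hp with rfl | rfl | rfl | rfl | rfl | rfl | rfl | rfl | rfl
  · have h1' := hit_inv h1 (by decide) (by decide)
    have h2' := hit_inv h2 (by decide) (by decide)
    obtain ⟨x1, hx1⟩ := hit_zero h1'
    obtain ⟨x2, hx2⟩ := hit_zero h2'
    have k := K.K5 α 0 rfl h1' h2'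
    rw [mp_zero, mp_zero, mp_zero, hJ _ ⟨x1, by rw [Function.comp_apply, hx1]; rfl⟩,
      hJ _ ⟨x2, by rw [Function.comp_apply, hx2]; rfl⟩,
      hJ _ ⟨x1, by rw [Function.comp_apply, hx1]; rfl⟩] at k
    linarith
  · exact z01 α (hit_inv h2 (by decide) (by decide))
  · rw [K.flipG]
    exact z01 α (hit_inv h2 (by decide) (by decide))
  · exact z02 α (hit_inv h1 (by decide) (by decide))
  · rw [K.flipG]
    exact z02 α (hit_inv h1 (by decide) (by decide))
  · exact z12 α
  · rw [K.flipG]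
    exact z12 α
  · exact G11 K hJ hH α (hit_zero (hit_inv h2 (by decide) (by decide)))
  · obtain ⟨x, hx⟩ := hit_zero (hit_inv h1 (by decide) (by decide))
    have k := K.symG α ((2, 2) ::ₘ 0)
    rw [mp_cons, mp_zero] at k
    rw [← k]
    exact G11 K hJ hH _ ⟨x, by rw [Function.comp_apply, hx]; rfl⟩

/-- The number of the representatives for `H`. -/
theorem card_lo [Fintype L] :
    2 * Fintype.card {α : L → Fin 2 // lo α} ≤ 2 ^ Fintype.card L + 1 := by
  rcases isEmpty_or_nonempty L with hL | hL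
  · have h1 : Fintype.card {α : L → Fin 2 // lo α} ≤ 1 := by
      rw [Fintype.card_le_one_iff_subsingleton]
      exact ⟨fun a b => Subtype.ext (Subsingleton.elim _ _)⟩
    have h2 : Fintype.card L = 0 := Fintype.card_eq_zero
    rw [h2]
    omega
  · have h1 : Fintype.card ({α : L → Fin 2 // lo α} ⊕ {α : L → Fin 2 // lo α}) ≤
        Fintype.card (L → Fin 2) := by
      refine Fintype.card_le_of_injective
        (Sum.elim (fun p => p.1) (fun p => ![1, 0] ∘ p.1)) ?_
      have key : ∀ p q : {α : L → Fin 2 // lo α}, p.1 = ![1, 0] ∘ q.1 → False := by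
        intro p q h
        have e1 := p.2 hL
        have e2 := q.2 hL
        rw [h] at e1
        simp only [Function.comp, e2] at e1
        revert e1
        decide
      rintro (p | p) (q | q) h
      · simp only [Sum.elim_inl] at h
        exact congrArg _ (Subtype.ext h)
      · simp only [Sum.elim_inl, Sum.elim_inr] at h
        exact (key p q h).elim
      · simp only [Sum.elim_inl, Sum.elim_inr] at h
        exact (key q p h.symm).elim
      · simp only [Sum.elim_inr] at h
        have e2 : p.1 = q.1 := by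
          rw [← nn p.1, h, nn]
        exact congrArg _ (Subtype.ext e2)
    rw [Fintype.card_sum, Fintype.card_fun, Fintype.card_fin] at h1
    omega

/-- The number of the tests for `J`. -/
theorem card_J [Fintype L] :
    Fintype.card {α : L → Fin 2 // ∃ x, α x = 1} + 1 ≤ 2 ^ Fintype.card L := by
  have h1 : Fintype.card (Option {α : L → Fin 2 // ∃ x, α x = 1}) ≤
      Fintype.card (L → Fin 2) := by
    refine Fintype.card_le_of_injective (fun o => o.elim (fun _ => 0) fun p => p.1) ?_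
    have key : ∀ p : {α : L → Fin 2 // ∃ x, α x = 1}, (fun _ => 0) ≠ p.1 := by
      intro p h
      obtain ⟨x, hx⟩ := p.2
      rw [← h] at hx
      have h01 : (0 : Fin 2) ≠ 1 := by decide
      exact h01 hx
    rintro (_ | p) (_ | q) h
    · rfl
    · exact (key q h).elim
    · exact (key p h.symm).elim
    · exact congrArg some (Subtype.ext h)
  rw [Fintype.card_option, Fintype.card_fun, Fintype.card_fin] at h1
  exact h1

/-- The tests in genus two. -/
def tst2 (L : Type) : {α : L → Fin 2 // ∃ x, α x = 1} ⊕ {α : L → Fin 2 // lo α} →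
    (L → Fin 4) × Multiset (Fin 4 × Fin 4) :=
  Sum.elim (fun p => (![0, 3] ∘ p.1, (0, 1) ::ₘ (1, 2) ::ₘ mp ![0, 3] 0))
    (fun p => (![0, 2] ∘ p.1, (0, 1) ::ₘ (2, 3) ::ₘ mp ![0, 2] 0))

end E23

/-- Block E2. -/
theorem e2 : E2 := by
  intro h0 L hL
  have := Fintype.ofFinite L
  have hch : ∀ S : {S : Finset L // 2 ≤ S.card}, ∃ m, m ∈ S.1 := fun S =>
    Finset.card_pos.1 (by have := S.2; omega)
  choose m hm using hch
  refine ⟨{S : Finset L // 2 ≤ S.card}, inferInstance,
    fun S => (![0, 2, 3] ∘ E23.al {m S} (S.1.erase (m S)), (0, 1) ::ₘ mp ![0, 2, 3] 0), ?_, ?_⟩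
  · exact E23.count1
  · intro ψ h ht α M hM hs
    have K := h0 L 1 ψ hL h
    refine E23.PZ K (E23.GV1 K ?_) le_rfl α M hM hs
    intro S h2
    exact ⟨m ⟨S, h2⟩, hm _, ht ⟨S, h2⟩⟩

/-- Block E3. -/
theorem e3 : E3 := by
  intro h0 L hL
  have := Fintype.ofFinite L
  refine ⟨{α : L → Fin 2 // ∃ x, α x = 1} ⊕ {α : L → Fin 2 // E23.lo α}, inferInstance,
    E23.tst2 L, ?_, ?_⟩
  · rw [Fintype.card_sum, Nat.card_eq_fintype_card]
    have h1 := E23.card_lo (L := L)
    have h2 := E23.card_J (L := L)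
    have h3 : AC 2 (Fintype.card L) = ((2 + 1) * 2 ^ Fintype.card L + 1) / 2 := by
      rw [AC, if_neg (by omega), if_neg (by omega), if_pos rfl]
    have h4 : min 2 1 = 1 := rfl
    rw [h3, h4]
    omega
  · intro ψ h ht α M hM hs
    have K := h0 L 2 ψ hL h
    refine E23.PZ K (E23.GV2 K ?_ (E23.HZ K ?_)) (by omega) α M hM hs
    · intro α hα
      exact ht (Sum.inl ⟨α, hα⟩)
    · intro α hα
      exact ht (Sum.inr ⟨α, hα⟩)

end Vale.Agent.P273.C1
end
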