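import Vale.Agent.P273.C1.Defs

/-!
Block E4: the combinatorial statement in genus at least 3.
-/

noncomputable section
namespace Vale.Agent.P273.C1
open Sum Vale.Agent.P273
open scoped Classical

namespace EF

variable {L : Type} {g : ℕ} {ψ : (L → Fin 4) → Multiset (Fin 4 × Fin 4) → ℚ}
  {G : (L → Fin 3) → Multiset (Fin 3 × Fin 3) → ℚ}
  {J H : (L → Fin 2) → Multiset (Fin 2 × Fin 2) → ℚ} {Q : ℚ}

/-- Complete pairs, two labels. -/
def MJ (a b : ℕ) : Multiset (Fin 2 × Fin 2) :=
  Multiset.replicate a (0, 0) + Multiset.replicate b (1, 1)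

/-- Complete pairs, three labels. -/
def MG (a b c : ℕ) : Multiset (Fin 3 × Fin 3) :=
  Multiset.replicate a (0, 0) + Multiset.replicate b (1, 1) + Multiset.replicate c (2, 2)

theorem card_MJ (a b : ℕ) : (MJ a b).card = a + b := by simp [MJ]

theorem card_MG (a b c : ℕ) : (MG a b c).card = a + b + c := by simp [MG]

theorem mp_cons {k l : ℕ} (m : Fin k → Fin l) (p : Fin k × Fin k) (M : Multiset (Fin k × Fin k)) :
    mp m (p ::ₘ M) = (m p.1, m p.2) ::ₘ mp m M := by
  simp [mp, Prod.map]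

theorem mp_zero {k l : ℕ} (m : Fin k → Fin l) : mp m 0 = 0 := by simp [mp]

theorem card_mp {k l : ℕ} (m : Fin k → Fin l) (M : Multiset (Fin k × Fin k)) :
    (mp m M).card = M.card := by simp [mp]

theorem mp_MG (a b c : ℕ) : mp ![1, 0, 2] (MG a b c) = MG b a c := by
  simp only [mp, MG, Multiset.map_add, Multiset.map_replicate, Prod.map]
  simp only [Matrix.cons_val_zero, Matrix.cons_val_one, Matrix.cons_val]
  abel

theorem mp_MG1 (a b c : ℕ) : mp ![0, 0, 1] (MG a b c) = MJ (a + b) c := by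
  simp only [mp, MG, MJ, Multiset.map_add, Multiset.map_replicate, Prod.map]
  simp only [Matrix.cons_val_zero, Matrix.cons_val_one, Matrix.cons_val]
  rw [Multiset.replicate_add]

theorem mp_MG2 (a b c : ℕ) : mp ![0, 1, 1] (MG a b c) = MJ a (b + c) := by
  simp only [mp, MG, MJ, Multiset.map_add, Multiset.map_replicate, Prod.map]
  simp only [Matrix.cons_val_zero, Matrix.cons_val_one, Matrix.cons_val]
  rw [Multiset.replicate_add]
  abel

theorem mp_MG3 (a b c : ℕ) : mp ![0, 1, 0] (MG a b c) = MJ (a + c) b := by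
  simp only [mp, MG, MJ, Multiset.map_add, Multiset.map_replicate, Prod.map]
  simp only [Matrix.cons_val_zero, Matrix.cons_val_one, Matrix.cons_val]
  rw [Multiset.replicate_add]
  abel

theorem sw (a b c : ℕ) : ((1 : Fin 3), (1 : Fin 3)) ::ₘ MG (a + 1) b c = (0, 0) ::ₘ MG a (b + 1) c := by
  simp only [MG, Multiset.replicate_add, Multiset.replicate_one, ← Multiset.singleton_add]
  abel

theorem c1 : (![0, 1, 1] : Fin 3 → Fin 2) ∘ (![1, 0, 2] : Fin 3 → Fin 3) = ![1, 0, 1] := by decide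
theorem c2 : (![0, 0, 1] : Fin 3 → Fin 2) ∘ (![1, 0, 2] : Fin 3 → Fin 3) = ![0, 0, 1] := by decide
theorem c3 : (![0, 1, 0] : Fin 3 → Fin 2) ∘ (![1, 0, 2] : Fin 3 → Fin 3) = ![1, 0, 0] := by decide

theorem hitG2 {a b c : ℕ} {β : L → Fin 3} (h : c ≠ 0 ∨ ∃ x, β x = 2) : Hit 2 β (MG a b c) := by
  rcases h with h | h
  · right
    exact ⟨(2, 2), by simp [MG, Multiset.mem_replicate, h], Or.inl rfl⟩
  · exact Or.inl h

theorem hitG1 {a b c : ℕ} {β : L → Fin 3} (h : b ≠ 0) : Hit 1 β (MG a b c) :=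
  Or.inr ⟨(1, 1), by simp [MG, Multiset.mem_replicate, h], Or.inl rfl⟩

theorem star (K : KRel L g ψ G J H Q) (a b c : ℕ) (h : a + b + c + 4 = g) (β : L → Fin 3)
    (h2 : c ≠ 0 ∨ ∃ x, β x = 2) :
    J (![1, 0, 0] ∘ β) (MJ (b + c) (a + 2)) - J (![0, 1, 1] ∘ β) (MJ a (b + c + 2)) +
      (J (![0, 1, 0] ∘ β) (MJ (a + c) (b + 2)) - J (![1, 0, 1] ∘ β) (MJ b (a + c + 2))) = 0 := by
  have h2' : c ≠ 0 ∨ ∃ x, ((![1, 0, 2] : Fin 3 → Fin 3) ∘ β) x = 2 := by
    rcases h2 with h2 | ⟨x, hx⟩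
    · exact Or.inl h2
    · exact Or.inr ⟨x, by simp [hx]⟩
  have k3 := K.K3 β (MG (a + 1) (b + 1) c) (by rw [card_MG]; omega) (hitG2 h2)
  have k5a := K.K5 (![1, 0, 2] ∘ β) (MG b (a + 2) c) (by rw [card_MG]; omega) (hitG1 (by omega))
    (hitG2 h2')
  have k5b := K.K5 β (MG a (b + 2) c) (by rw [card_MG]; omega) (hitG1 (by omega)) (hitG2 h2)
  rw [mp_MG, mp_MG1, sw, sw] at k3
  rw [mp_MG1, mp_MG2, mp_MG3, ← Function.comp_assoc, ← Function.comp_assoc, ← Function.comp_assoc,
    c1, c2, c3] at k5a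
  rw [mp_MG1, mp_MG2, mp_MG3] at k5b
  have e1 : a + 1 + (b + 1) = a + (b + 2) := by omega
  have e2 : b + (a + 2) = a + (b + 2) := by omega
  have e3 : a + 2 + c = a + c + 2 := by omega
  have e4 : b + 2 + c = b + c + 2 := by omega
  have e5 : b + 1 + 1 = b + 2 := rfl
  have e6 : a + 1 + 1 = a + 2 := rfl
  rw [e1, e5, e6] at k3
  rw [e2, e3] at k5a
  rw [e4] at k5b
  linarith

theorem not_not (α : L → Fin 2) : (![1, 0] : Fin 2 → Fin 2) ∘ (![1, 0] : Fin 2 → Fin 2) ∘ α = α := by
  funext x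
  simp only [Function.comp]
  generalize α x = u
  revert u
  decide

/-- The difference of the values at complementary contents. -/
def Df (J : (L → Fin 2) → Multiset (Fin 2 × Fin 2) → ℚ) (a b : ℕ) (α : L → Fin 2) : ℚ :=
  J α (MJ b (a + 2)) - J (![1, 0] ∘ α) (MJ a (b + 2))

theorem Df_anti (a b : ℕ) (α : L → Fin 2) : Df J b a (![1, 0] ∘ α) = - Df J a b α := by
  simp only [Df, not_not]
  ring

theorem Df_const (K : KRel L g ψ G J H Q) (a b : ℕ) (h : a + b + 4 = g) (α : L → Fin 2) :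
    Df J a b α = Df J 0 (a + b) (fun _ => 0) := by
  by_cases h2 : a ≠ 0 ∨ ∃ x, α x = 1
  · set β : L → Fin 3 := fun x => if α x = 0 then 1 else 2 with hβ
    have hb : a ≠ 0 ∨ ∃ x, β x = 2 := by
      rcases h2 with h2 | ⟨x, hx⟩
      · exact Or.inl h2
      · exact Or.inr ⟨x, by simp [hβ, hx]⟩
    have hs := star K 0 b a (by omega) β hb
    have f1 : (![1, 0, 0] : Fin 3 → Fin 2) ∘ β = fun _ => 0 := by
      funext x
      simp only [Function.comp, hβ]
      split_ifs <;> rfl
    have f2 : (![0, 1, 1] : Fin 3 → Fin 2) ∘ β = (![1, 0] : Fin 2 → Fin 2) ∘ (fun _ => 0) := by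
      funext x
      simp only [Function.comp, hβ]
      split_ifs <;> rfl
    have f3 : (![0, 1, 0] : Fin 3 → Fin 2) ∘ β = (![1, 0] : Fin 2 → Fin 2) ∘ α := by
      funext x
      simp only [Function.comp, hβ]
      split_ifs with hx
      · rw [hx]; rfl
      · have : α x = 1 := by
          generalize α x = u at hx
          revert u
          decide
        rw [this]; rfl
    have f4 : (![1, 0, 1] : Fin 3 → Fin 2) ∘ β = α := by
      funext x
      simp only [Function.comp, hβ]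
      split_ifs with hx
      · rw [hx]; rfl
      · have : α x = 1 := by
          generalize α x = u at hx
          revert u
          decide
        rw [this]; rfl
    rw [f1, f2, f3, f4] at hs
    have e : b + a = a + b := by omega
    simp only [Df]
    rw [e] at hs
    simp only [Nat.zero_add] at hs ⊢
    linarith
  · push Not at h2
    obtain ⟨h0, h1⟩ := h2
    subst h0
    have : α = fun _ => 0 := by
      funext x
      have := h1 x
      generalize α x = u at this
      revert u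
      decide
    rw [this, Nat.zero_add]

theorem Df_zero (K : KRel L g ψ G J H Q) (a b : ℕ) (h : a + b + 4 = g) (α : L → Fin 2) :
    Df J a b α = 0 := by
  have h1 := Df_const K (a + b) 0 (by omega) (![1, 0] ∘ (fun _ : L => (0 : Fin 2)))
  have h2 := Df_anti (J := J) 0 (a + b) (fun _ : L => (0 : Fin 2))
  have h3 := Df_const K a b h α
  rw [h2, Nat.add_zero] at h1
  rw [h3]
  linarith

/-- The legs outweighing rule. -/
def lo (α : L → Fin 2) : Prop := ∀ h : Nonempty L, α (Classical.choice h) = 0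

theorem lo_or (α : L → Fin 2) : lo α ∨ lo (![1, 0] ∘ α) := by
  by_cases h : lo α
  · exact Or.inl h
  · right
    intro hh
    simp only [lo] at h
    push Not at h
    obtain ⟨h', h2⟩ := h
    simp only [Function.comp]
    have : Classical.choice hh = Classical.choice h' := rfl
    rw [this]
    generalize α (Classical.choice h') = u at h2
    revert u
    decide

/-- The representatives. -/
def Rep (g h : ℕ) (α : L → Fin 2) : Prop := 2 * h < g ∨ (2 * h = g ∧ lo α)

theorem allB (K : KRel L g ψ G J H Q)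
    (ht : ∀ a b α, a + b + 2 = g → Rep g b α → (b ≠ 0 ∨ ∃ x, α x = 1) → J α (MJ a b) = 0)
    (a b : ℕ) (h : a + b + 2 = g) (α : L → Fin 2) (h2 : b ≠ 0 ∨ ∃ x, α x = 1) :
    J α (MJ a b) = 0 := by
  by_cases hr : Rep g b α
  · exact ht a b α h hr h2
  · obtain ⟨b', rfl⟩ : ∃ b', b = b' + 2 := by
      refine ⟨b - 2, ?_⟩
      simp only [Rep] at hr
      push Not at hr
      omega
    have hz := Df_zero K b' a (by omega) α
    simp only [Df] at hz
    have hr' : Rep g (a + 2) (![1, 0] ∘ α) := by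
      simp only [Rep] at hr ⊢
      push Not at hr
      by_cases he : 2 * (b' + 2) = g
      · right
        refine ⟨by omega, ?_⟩
        rcases lo_or α with h5 | h5
        · exact absurd h5 (hr.2 he)
        · exact h5
      · left
        omega
    have := ht b' (a + 2) (![1, 0] ∘ α) (by omega) hr' (Or.inl (by omega))
    linarith

/-- A multiset of pairs of labels in `Fin 2` without mixed pairs is complete. -/
theorem two_complete (M : Multiset (Fin 2 × Fin 2)) (h : ∀ p ∈ M, p = (0, 0) ∨ p = (1, 1)) :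
    ∃ a b, M = MJ a b := by
  induction M using Multiset.induction_on with
  | empty => exact ⟨0, 0, by simp [MJ]⟩
  | cons p M ih =>
    obtain ⟨a, b, rfl⟩ := ih (fun q hq => h q (Multiset.mem_cons_of_mem hq))
    rcases h p (Multiset.mem_cons_self p _) with rfl | rfl
    · refine ⟨a + 1, b, ?_⟩
      simp only [MJ, Multiset.replicate_add, Multiset.replicate_one, ← Multiset.singleton_add]
      abel
    · refine ⟨a, b + 1, ?_⟩
      simp only [MJ, Multiset.replicate_add, Multiset.replicate_one, ← Multiset.singleton_add]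
      abel

theorem hit_MJ {a b : ℕ} {α : L → Fin 2} (h : Hit 1 α (MJ a b)) : b ≠ 0 ∨ ∃ x, α x = 1 := by
  rcases h with h | ⟨p, hp, h⟩
  · exact Or.inr h
  · left
    rintro rfl
    simp only [MJ, Multiset.replicate_zero, add_zero, Multiset.mem_replicate] at hp
    rw [hp.2] at h
    revert h
    decide

theorem JZ (K : KRel L g ψ G J H Q) (hQ : Q = 0)
    (hB : ∀ a b α, a + b + 2 = g → (b ≠ 0 ∨ ∃ x, α x = 1) → J α (MJ a b) = 0)
    (α : L → Fin 2) (M : Multiset (Fin 2 × Fin 2)) (hc : M.card + 2 = g) (hh : Hit 1 α M) :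
    J α M = 0 := by
  by_cases hm : ∀ p ∈ M, p = (0, 0) ∨ p = (1, 1)
  · obtain ⟨a, b, rfl⟩ := two_complete M hm
    rw [card_MJ] at hc
    exact hB a b α hc (hit_MJ hh)
  · push Not at hm
    obtain ⟨p, hp, h1, h2⟩ := hm
    obtain ⟨N, rfl⟩ := Multiset.exists_cons_of_mem hp
    rw [Multiset.card_cons] at hc
    have hp2 : p = (0, 1) ∨ p = (1, 0) := by
      revert h1 h2
      clear hp hh
      revert p
      decide
    rcases hp2 with rfl | rfl
    · rw [K.JQ α N (by omega), hQ]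
    · rw [K.flipJ, K.JQ α N (by omega), hQ]

theorem hit_map {k l : ℕ} (m : Fin k → Fin l) {i : Fin k} {j : Fin l} {α : L → Fin k}
    {M : Multiset (Fin k × Fin k)} (h : Hit i α M) (hj : m i = j) : Hit j (m ∘ α) (mp m M) := by
  subst hj
  rcases h with ⟨x, hx⟩ | ⟨p, hp, h⟩
  · exact Or.inl ⟨x, by simp [hx]⟩
  · refine Or.inr ⟨Prod.map m m p, Multiset.mem_map_of_mem _ hp, ?_⟩
    rcases h with h | h
    · exact Or.inl (by simp [h])
    · exact Or.inr (by simp [h])

theorem hit_inv {k : ℕ} {i : Fin k} {α : L → Fin k} {p : Fin k × Fin k}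
    {M : Multiset (Fin k × Fin k)} (h : Hit i α (p ::ₘ M)) (h1 : p.1 ≠ i) (h2 : p.2 ≠ i) :
    Hit i α M := by
  rcases h with h | ⟨q, hq, h⟩
  · exact Or.inl h
  · rcases Multiset.mem_cons.1 hq with rfl | hq
    · rcases h with h | h
      · exact absurd h h1
      · exact absurd h h2
    · exact Or.inr ⟨q, hq, h⟩

theorem hit_cons {k : ℕ} {i : Fin k} {α : L → Fin k} {p : Fin k × Fin k}
    {M : Multiset (Fin k × Fin k)} (h : Hit i α M) : Hit i α (p ::ₘ M) := by
  rcases h with h | ⟨q, hq, h⟩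
  · exact Or.inl h
  · exact Or.inr ⟨q, Multiset.mem_cons_of_mem hq, h⟩

/-- The value of `J` vanishes on its domain. -/
def JV (g : ℕ) (J : (L → Fin 2) → Multiset (Fin 2 × Fin 2) → ℚ) : Prop :=
  ∀ (α : L → Fin 2) (M : Multiset (Fin 2 × Fin 2)), M.card + 2 = g → Hit 1 α M → J α M = 0

theorem G_zero (K : KRel L g ψ G J H Q) (hJ : JV g J) (α : L → Fin 3)
    (M : Multiset (Fin 3 × Fin 3)) (hc : M.card + 1 = g) (h1 : Hit 1 α M) (h2 : Hit 2 α M)
    (p : Fin 3 × Fin 3) (hp : p ∈ M) (h0 : p.1 = 0 ∨ p.2 = 0) : G α M = 0 := by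
  obtain ⟨N, rfl⟩ := Multiset.exists_cons_of_mem hp
  rw [Multiset.card_cons] at hc
  have hp2 : p = (0, 0) ∨ p = (0, 1) ∨ p = (1, 0) ∨ p = (0, 2) ∨ p = (2, 0) := by
    clear hp h1 h2
    revert p
    decide
  rcases hp2 with rfl | rfl | rfl | rfl | rfl
  · have h1' := hit_inv h1 (by decide) (by decide)
    have h2' := hit_inv h2 (by decide) (by decide)
    have k := K.K5 α N (by omega) h1' h2'
    rw [hJ _ _ (by rw [card_mp]; omega) (hit_map _ h1' (by decide)),
      hJ _ _ (by rw [card_mp]; omega) (hit_map _ h2' (by decide)),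
      hJ _ _ (by rw [card_mp]; omega) (hit_map _ h1' (by decide))] at k
    linarith
  · have h2' := hit_inv h2 (by decide) (by decide)
    rw [K.GJ1]
    exact hJ _ _ (by rw [card_mp]; omega) (hit_map _ h2' (by decide))
  · have h2' := hit_inv h2 (by decide) (by decide)
    rw [K.flipG, K.GJ1]
    exact hJ _ _ (by rw [card_mp]; omega) (hit_map _ h2' (by decide))
  · have h1' := hit_inv h1 (by decide) (by decide)
    rw [K.GJ2]
    exact hJ _ _ (by rw [card_mp]; omega) (hit_map _ h1' (by decide))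
  · have h1' := hit_inv h1 (by decide) (by decide)
    rw [K.flipG, K.GJ2]
    exact hJ _ _ (by rw [card_mp]; omega) (hit_map _ h1' (by decide))

theorem H_zero (K : KRel L g ψ G J H Q) (hQ : Q = 0) (hJ : JV g J) (m : ℕ) (hm : m + 3 = g)
    (α : L → Fin 2) : H α (Multiset.replicate (m + 1) (1, 1)) = 0 := by
  have e : (![1, 0] : Fin 2 → Fin 2) ∘ ((![1, 0] : Fin 2 → Fin 2) ∘ α) = α := not_not α
  have h := K.symH (![1, 0] ∘ α) (Multiset.replicate (m + 1) (0, 0))
  rw [e] at h
  have e2 : mp ![1, 0] (Multiset.replicate (m + 1) ((0 : Fin 2), (0 : Fin 2))) =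
      Multiset.replicate (m + 1) ((1 : Fin 2), (1 : Fin 2)) := by
    simp [mp, Multiset.map_replicate, Prod.map]
  rw [e2] at h
  rw [h, Multiset.replicate_succ]
  have k := K.K6 (![1, 0] ∘ α) (Multiset.replicate m (0, 0)) (by simp; omega)
  rw [hJ _ _ (by simp; omega) (Or.inr ⟨(1, 1), by simp, Or.inl rfl⟩), hQ] at k
  linarith

theorem G_link (K : KRel L g ψ G J H Q) (hQ : Q = 0) (hJ : JV g J) (hg : 3 ≤ g) (α : L → Fin 3)
    (N : Multiset (Fin 3 × Fin 3)) (hc : N.card + 2 = g) (hn : ∀ p ∈ N, p.1 ≠ 0 ∧ p.2 ≠ 0) :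
    G α ((1, 2) ::ₘ N) = 0 := by
  rw [K.GH]
  have e : mp ![0, 1, 1] N = Multiset.replicate (g - 3 + 1) ((1 : Fin 2), (1 : Fin 2)) := by
    rw [Multiset.eq_replicate]
    refine ⟨by rw [card_mp]; omega, ?_⟩
    intro b hb
    obtain ⟨p, hp, rfl⟩ := Multiset.mem_map.1 hb
    have := hn p hp
    clear hb hp
    revert this
    revert p
    decide
  rw [e]
  exact H_zero K hQ hJ (g - 3) (by omega) _

theorem G_11 (K : KRel L g ψ G J H Q) (hJ : JV g J) (α : L → Fin 3)
    (N : Multiset (Fin 3 × Fin 3)) (hc : N.card + 3 = g) (h2 : Hit 2 α N) :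
    G α ((1, 1) ::ₘ (1, 1) ::ₘ N) = 0 := by
  have k := K.K3 α ((1, 1) ::ₘ N) (by rw [Multiset.card_cons]; omega) (hit_cons h2)
  rw [hJ _ _ (by rw [card_mp, Multiset.card_cons]; omega)
    (hit_map _ (hit_cons h2) (by decide)), mp_cons] at k
  rw [G_zero K hJ (![1, 0, 2] ∘ α) _ (by simp only [Multiset.card_cons, card_mp]; omega)
    (Or.inr ⟨(1, 1), by simp, Or.inl rfl⟩)
    (hit_cons (hit_cons (hit_map _ h2 (by decide)))) (0, 0) (by simp) (Or.inl rfl)] at k
  linarith

theorem G_12 (K : KRel L g ψ G J H Q) (hJ : JV g J) (hg : g = 3) (α : L → Fin 3) :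
    G α ((1, 1) ::ₘ (2, 2) ::ₘ 0) = 0 := by
  have hs : ∀ β : L → Fin 3, G (![1, 0, 2] ∘ β) ((1, 1) ::ₘ (2, 2) ::ₘ 0) =
      - G β ((1, 1) ::ₘ (2, 2) ::ₘ 0) := by
    intro β
    have h2 : Hit 2 β ((2, 2) ::ₘ 0) := Or.inr ⟨(2, 2), by simp, Or.inl rfl⟩
    have k := K.K3 β ((2, 2) ::ₘ 0) (by simp; omega) h2
    rw [hJ _ _ (by rw [card_mp]; simp; omega) (hit_map _ h2 (by decide)), mp_cons, mp_zero] at k
    have e : ((![1, 0, 2] : Fin 3 → Fin 3) ((2 : Fin 3), (2 : Fin 3)).1,
        (![1, 0, 2] : Fin 3 → Fin 3) ((2 : Fin 3), (2 : Fin 3)).2) = (2, 2) := rfl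
    rw [e] at k
    linarith
  have hr : ∀ β : L → Fin 3, G (![0, 2, 1] ∘ β) ((1, 1) ::ₘ (2, 2) ::ₘ 0) =
      G β ((1, 1) ::ₘ (2, 2) ::ₘ 0) := by
    intro β
    have k := K.symG β ((2, 2) ::ₘ (1, 1) ::ₘ 0)
    rw [mp_cons, mp_cons, mp_zero] at k
    have e : ((![0, 2, 1] : Fin 3 → Fin 3) ((2 : Fin 3), (2 : Fin 3)).1,
        (![0, 2, 1] : Fin 3 → Fin 3) ((2 : Fin 3), (2 : Fin 3)).2) = (1, 1) := rfl
    have e' : ((![0, 2, 1] : Fin 3 → Fin 3) ((1 : Fin 3), (1 : Fin 3)).1,
        (![0, 2, 1] : Fin 3 → Fin 3) ((1 : Fin 3), (1 : Fin 3)).2) = (2, 2) := rfl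
    rw [e, e'] at k
    rw [k, Multiset.cons_swap]
  have h6 : (![1, 0, 2] : Fin 3 → Fin 3) ∘ (![0, 2, 1] : Fin 3 → Fin 3) ∘
      (![1, 0, 2] : Fin 3 → Fin 3) ∘ (![0, 2, 1] : Fin 3 → Fin 3) ∘
      (![1, 0, 2] : Fin 3 → Fin 3) ∘ (![0, 2, 1] : Fin 3 → Fin 3) ∘ α = α := by
    funext x
    simp only [Function.comp]
    generalize α x = u
    revert u
    decide
  have h7 := hs ((![0, 2, 1] : Fin 3 → Fin 3) ∘
      (![1, 0, 2] : Fin 3 → Fin 3) ∘ (![0, 2, 1] : Fin 3 → Fin 3) ∘
      (![1, 0, 2] : Fin 3 → Fin 3) ∘ (![0, 2, 1] : Fin 3 → Fin 3) ∘ α)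
  rw [h6, hr, hs, hr, hs, hr] at h7
  linarith

/-- A multiset of pairs of labels in `Fin 3` that are all `(1,1)` or `(2,2)`. -/
theorem three_complete (M : Multiset (Fin 3 × Fin 3)) (h : ∀ p ∈ M, p = (1, 1) ∨ p = (2, 2)) :
    ∃ b c, M = Multiset.replicate b (1, 1) + Multiset.replicate c (2, 2) := by
  induction M using Multiset.induction_on with
  | empty => exact ⟨0, 0, by simp⟩
  | cons p M ih =>
    obtain ⟨a, b, rfl⟩ := ih (fun q hq => h q (Multiset.mem_cons_of_mem hq))
    rcases h p (Multiset.mem_cons_self p _) with rfl | rfl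
    · refine ⟨a + 1, b, ?_⟩
      simp only [Multiset.replicate_add, Multiset.replicate_one, ← Multiset.singleton_add]
      abel
    · refine ⟨a, b + 1, ?_⟩
      simp only [Multiset.replicate_add, Multiset.replicate_one, ← Multiset.singleton_add]
      abel

theorem G_bb (K : KRel L g ψ G J H Q) (hJ : JV g J) (b c : ℕ) (h : b + c + 3 = g)
    (α : L → Fin 3) (h2 : Hit 2 α (Multiset.replicate (b + 2) (1, 1) + Multiset.replicate c (2, 2))) :
    G α (Multiset.replicate (b + 2) (1, 1) + Multiset.replicate c (2, 2)) = 0 := by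
  have e : Multiset.replicate (b + 2) ((1 : Fin 3), (1 : Fin 3)) + Multiset.replicate c (2, 2) =
      (1, 1) ::ₘ (1, 1) ::ₘ (Multiset.replicate b (1, 1) + Multiset.replicate c (2, 2)) := by
    simp only [Multiset.replicate_succ, Multiset.cons_add]
  rw [e] at h2 ⊢
  exact G_11 K hJ α _ (by simp; omega) (hit_inv (hit_inv h2 (by decide) (by decide))
    (by decide) (by decide))

theorem GZ (K : KRel L g ψ G J H Q) (hQ : Q = 0) (hJ : JV g J) (hg : 3 ≤ g) (α : L → Fin 3)
    (M : Multiset (Fin 3 × Fin 3)) (hc : M.card + 1 = g) (h1 : Hit 1 α M) (h2 : Hit 2 α M) :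
    G α M = 0 := by
  by_cases h0 : ∃ p ∈ M, p.1 = 0 ∨ p.2 = 0
  · obtain ⟨p, hp, h0⟩ := h0
    exact G_zero K hJ α M hc h1 h2 p hp h0
  push Not at h0
  by_cases hl : ∃ p ∈ M, p = (1, 2) ∨ p = (2, 1)
  · obtain ⟨p, hp, hl⟩ := hl
    obtain ⟨N, rfl⟩ := Multiset.exists_cons_of_mem hp
    rw [Multiset.card_cons] at hc
    rcases hl with rfl | rfl
    · exact G_link K hQ hJ hg α N (by omega) fun q hq => h0 q (Multiset.mem_cons_of_mem hq)
    · rw [K.flipG]
      exact G_link K hQ hJ hg α N (by omega) fun q hq => h0 q (Multiset.mem_cons_of_mem hq)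
  push Not at hl
  obtain ⟨b, c, rfl⟩ := three_complete M (by
    intro p hp
    have a1 := h0 p hp
    have a2 := hl p hp
    clear hp
    revert a1 a2
    revert p
    decide)
  simp only [Multiset.card_add, Multiset.card_replicate] at hc
  by_cases hb : 2 ≤ b
  · obtain ⟨b, rfl⟩ : ∃ b', b = b' + 2 := ⟨b - 2, by omega⟩
    exact G_bb K hJ b c (by omega) α h2
  by_cases hc2 : 2 ≤ c
  · obtain ⟨c, rfl⟩ : ∃ c', c = c' + 2 := ⟨c - 2, by omega⟩
    have e : mp (![0, 2, 1] : Fin 3 → Fin 3) (Multiset.replicate b ((1 : Fin 3), (1 : Fin 3)) +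
        Multiset.replicate (c + 2) (2, 2)) =
        Multiset.replicate (c + 2) (1, 1) + Multiset.replicate b (2, 2) := by
      simp only [mp, Multiset.map_add, Multiset.map_replicate, Prod.map]
      rw [add_comm]
      rfl
    have h3 := hit_map (![0, 2, 1] : Fin 3 → Fin 3) (j := 2) h1 (by decide)
    rw [← K.symG, e]
    rw [e] at h3
    exact G_bb K hJ c b (by omega) _ h3
  obtain rfl : b = 1 := by omega
  obtain rfl : c = 1 := by omega
  have e : Multiset.replicate 1 ((1 : Fin 3), (1 : Fin 3)) + Multiset.replicate 1 (2, 2) =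
      (1, 1) ::ₘ (2, 2) ::ₘ 0 := rfl
  rw [e]
  exact G_12 K hJ (by omega) α

theorem PZ (K : KRel L g ψ G J H Q) (hQ : Q = 0) (hJ : JV g J) (hg : 3 ≤ g) (α : L → Fin 4)
    (M : Multiset (Fin 4 × Fin 4)) (hc : M.card = g) (hs : Sj α M) : ψ α M = 0 := by
  obtain ⟨p, hp⟩ : ∃ p, p ∈ M := by
    refine Multiset.exists_mem_of_ne_zero ?_
    rintro rfl
    simp at hc
    omega
  obtain ⟨N, rfl⟩ := Multiset.exists_cons_of_mem hp
  rw [Multiset.card_cons] at hc
  obtain ⟨a, b⟩ := p
  by_cases hab : a = b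
  · subst hab
    have e : mp (Equiv.swap a 0 : Fin 4 ≃ Fin 4) ((a, a) ::ₘ N) =
        (0, 0) ::ₘ mp (Equiv.swap a 0 : Fin 4 ≃ Fin 4) N := by
      rw [mp_cons, Equiv.swap_apply_left]
    have hh : ∀ i, i ≠ 0 → Hit i ((Equiv.swap a 0 : Fin 4 ≃ Fin 4) ∘ α)
        (mp (Equiv.swap a 0 : Fin 4 ≃ Fin 4) N) := by
      intro i hi
      have h1 : Hit ((Equiv.swap a 0 : Fin 4 ≃ Fin 4) i) α ((a, a) ::ₘ N) := hs _
      have h2 : a ≠ (Equiv.swap a 0 : Fin 4 ≃ Fin 4) i := by
        intro h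
        apply hi
        have := congrArg (Equiv.swap a 0) h
        rwa [Equiv.swap_apply_left, Equiv.swap_apply_self, eq_comm] at this
      exact hit_map _ (hit_inv h1 h2 h2) (Equiv.swap_apply_self _ _ _)
    rw [← K.perm (Equiv.swap a 0 : Fin 4 ≃ Fin 4), e]
    have k := K.K1 ((Equiv.swap a 0 : Fin 4 ≃ Fin 4) ∘ α) (mp (Equiv.swap a 0 : Fin 4 ≃ Fin 4) N)
      (by rw [card_mp]; omega) (hh 1 (by decide)) (hh 2 (by decide)) (hh 3 (by decide))
    rw [GZ K hQ hJ hg _ _ (by rw [card_mp, card_mp]; omega)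
        (hit_map _ (hh 1 (by decide)) (by decide)) (hit_map _ (hh 3 (by decide)) (by decide)),
      GZ K hQ hJ hg _ _ (by rw [card_mp, card_mp]; omega)
        (hit_map _ (hh 2 (by decide)) (by decide)) (hit_map _ (hh 3 (by decide)) (by decide)),
      GZ K hQ hJ hg _ _ (by rw [card_mp, card_mp]; omega)
        (hit_map _ (hh 1 (by decide)) (by decide)) (hit_map _ (hh 3 (by decide)) (by decide))] at k
    linarith
  · obtain ⟨r, hr, ha, hb, h⟩ := K.link α a b N hab
    rw [h]
    have hh : ∀ j, j ≠ 0 → Hit j (r ∘ α) (mp r N) := by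
      intro j hj
      obtain ⟨i, hi⟩ := hr j
      refine hit_map r (hit_inv (hs i) ?_ ?_) hi
      · rintro rfl
        exact hj (hi.symm.trans ha)
      · rintro rfl
        exact hj (hi.symm.trans hb)
    exact GZ K hQ hJ hg _ _ (by rw [card_mp]; omega) (hh 1 (by decide)) (hh 2 (by decide))

/-- The index set of the representatives. -/
abbrev Sx (L : Type) (g : ℕ) : Type := {p : Fin (g / 2 + 1) × (L → Fin 2) // Rep g p.1 p.2}

/-- The index set of the tests. -/
abbrev Ix (L : Type) (g : ℕ) : Type :=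
  {p : Fin (g / 2 + 1) × (L → Fin 2) //
    Rep g p.1 p.2 ∧ (((p.1 : ℕ) ≠ 0) ∨ ∃ x, p.2 x = 1)}

theorem card_Sx [Fintype L] (hg : 3 ≤ g) :
    Fintype.card (Sx L g) ≤ ((g + 1) * 2 ^ Fintype.card L + 1) / 2 := by
  rcases isEmpty_or_nonempty L with hL | hL
  · have h1 : Fintype.card (Sx L g) ≤ Fintype.card (Fin (g / 2 + 1)) := by
      refine Fintype.card_le_of_injective (fun p => p.1.1) ?_
      intro p q h
      apply Subtype.ext
      apply Prod.ext h
      exact Subsingleton.elim _ _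
    rw [Fintype.card_fin] at h1
    have h2 : Fintype.card L = 0 := Fintype.card_eq_zero
    rw [h2]
    omega
  · have h1 : Fintype.card (Sx L g ⊕ Sx L g) ≤ Fintype.card (Fin (g + 1) × (L → Fin 2)) := by
      refine Fintype.card_le_of_injective
        (Sum.elim (fun p => (⟨p.1.1, by have := p.1.1.2; omega⟩, p.1.2))
          (fun p => (⟨g - p.1.1, by omega⟩, ![1, 0] ∘ p.1.2))) ?_
      have key : ∀ p q : Sx L g, (p.1.1 : ℕ) = g - (q.1.1 : ℕ) → p.1.2 = ![1, 0] ∘ q.1.2 →
          False := by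
        intro p q h1 h2
        have hp := p.2
        have hq := q.2
        simp only [Rep] at hp hq
        have hpl : lo p.1.2 := by
          rcases hp with hp | hp
          · rcases hq with hq | hq
            · omega
            · omega
          · exact hp.2
        have hql : lo q.1.2 := by
          rcases hq with hq | hq
          · rcases hp with hp | hp
            · omega
            · omega
          · exact hq.2
        have e1 := hpl hL
        have e2 := hql hL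
        rw [h2] at e1
        simp only [Function.comp, e2] at e1
        revert e1
        decide
      rintro (p | p) (q | q) h
      · simp only [Sum.elim_inl, Prod.mk.injEq, Fin.mk.injEq] at h
        congr 1
        exact Subtype.ext (Prod.ext (Fin.ext h.1) h.2)
      · simp only [Sum.elim_inl, Sum.elim_inr, Prod.mk.injEq, Fin.mk.injEq] at h
        exact (key p q h.1 h.2).elim
      · simp only [Sum.elim_inl, Sum.elim_inr, Prod.mk.injEq, Fin.mk.injEq] at h
        exact (key q p h.1.symm h.2.symm).elim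
      · simp only [Sum.elim_inr, Prod.mk.injEq, Fin.mk.injEq] at h
        congr 1
        have e1 : (p.1.1 : ℕ) = q.1.1 := by
          have := p.1.1.2
          have := q.1.1.2
          omega
        have e2 : p.1.2 = q.1.2 := by
          rw [← not_not p.1.2, h.2, not_not]
        exact Subtype.ext (Prod.ext (Fin.ext e1) e2)
    rw [Fintype.card_sum, Fintype.card_prod, Fintype.card_fin, Fintype.card_fun,
      Fintype.card_fin] at h1
    omega

theorem card_Ix [Fintype L] (hg : 3 ≤ g) :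
    Fintype.card (Option (Ix L g)) ≤ Fintype.card (Sx L g) := by
  have hz : Rep (L := L) g ((0 : Fin (g / 2 + 1)) : ℕ) (fun _ => 0) := by
    left
    simp
    omega
  refine Fintype.card_le_of_injective
    (fun o => o.elim (⟨(0, fun _ => 0), hz⟩ : Sx L g) (fun p => ⟨p.1, p.2.1⟩)) ?_
  have key : ∀ p : Ix L g, (⟨(0, fun _ => 0), hz⟩ : Sx L g) ≠ ⟨p.1, p.2.1⟩ := by
    intro p h
    have h' := congrArg Subtype.val h
    simp only at h'
    rcases p.2.2 with h1 | ⟨x, h1⟩
    · rw [← h'] at h1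
      simp at h1
    · rw [← h'] at h1
      simp at h1
  rintro (_ | p) (_ | q) h
  · rfl
  · exact (key q h).elim
  · exact (key p h.symm).elim
  · simp only [Option.elim_some, Subtype.mk.injEq] at h
    exact congrArg some (Subtype.ext h)

/-- The tests. -/
def tst (L : Type) (g : ℕ) : Option (Ix L g) → (L → Fin 4) × Multiset (Fin 4 × Fin 4)
  | none => (fun _ => 0, (0, 1) ::ₘ (1, 2) ::ₘ (2, 3) ::ₘ Multiset.replicate (g - 3) (0, 0))
  | some p => (![0, 3] ∘ p.1.2,
      (0, 1) ::ₘ (1, 2) ::ₘ mp ![0, 3] (MJ (g - 2 - (p.1.1 : ℕ)) p.1.1))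

theorem comb (h0 : E0) (g : ℕ) (hg : 3 ≤ g) : CombAt g := by
  intro L hL
  have : Fintype L := Fintype.ofFinite L
  refine ⟨Option (Ix L g), inferInstance, tst L g, ?_, ?_⟩
  · have h1 := card_Ix (L := L) hg
    have h2 := card_Sx (L := L) hg
    rw [Nat.card_eq_fintype_card]
    have h3 : AC g (Fintype.card L) = ((g + 1) * 2 ^ Fintype.card L + 1) / 2 + 1 := by
      rw [AC, if_neg (by omega), if_neg (by omega), if_neg (by omega)]
    rw [h3]
    have h4 : min g 1 = 1 := by omega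
    rw [h4]
    exact Nat.add_le_add_right (h1.trans h2) 1
  · intro ψ hψ ht α M hM hs
    have K := h0 L g ψ hL hψ
    have hQ : fQ g ψ = 0 := ht none
    have hR : ∀ a b (α : L → Fin 2), a + b + 2 = g → Rep g b α → (b ≠ 0 ∨ ∃ x, α x = 1) →
        fJ ψ α (MJ a b) = 0 := by
      intro a b α h1 h2 h3
      have hb : b < g / 2 + 1 := by
        simp only [Rep] at h2
        omega
      have := ht (some ⟨(⟨b, hb⟩, α), h2, h3⟩)
      have e : g - 2 - b = a := by omega
      simp only [tst, e] at this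
      exact this
    exact PZ K hQ (JZ K hQ fun a b α h => allB K hR a b h α) hg α M hM hs

end EF

/-- Block E4. -/
theorem e4 : E4 := fun h0 g hg => EF.comb h0 g hg

end Vale.Agent.P273.C1
end
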