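import Vale.Agent.P273.C1.D1ab

/-! Assembly of the graph part. -/

noncomputable section
namespace Vale.Agent.P273.C1
open Sum Vale.Agent.P273
open scoped Classical

variable {V E L T V' E' : Type}

/-! ### Enumerations of multisets -/

lemma exists_enum {X : Type} (g : ℕ) (M : Multiset X) (h : M.card = g) :
    ∃ e : Fin g → X, Finset.univ.val.map e = M := by
  subst h
  refine ⟨fun i => M.toList.get (i.cast (by simp)), ?_⟩
  have h2 : List.ofFn (fun i : Fin M.card => M.toList.get (i.cast (by simp))) = M.toList := by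
    apply List.ext_get
    · simp
    · intro n h1 h2
      simp
  rw [Fin.univ_val_map, h2, Multiset.coe_toList]

lemma perm_enum {X : Type} {g : ℕ} (e e' : Fin g → X)
    (h : Finset.univ.val.map e = Finset.univ.val.map e') : ∃ σ : Fin g ≃ Fin g, e = e' ∘ σ := by
  have hc : ∀ x, Fintype.card {i // e i = x} = Fintype.card {i // e' i = x} := by
    intro x
    have h1 := congrArg (Multiset.count x) h
    rw [Multiset.count_map, Multiset.count_map] at h1
    rw [Fintype.card_subtype, Fintype.card_subtype]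
    have h2 : ∀ u : Fin g → X, (Finset.univ.filter (fun i => u i = x)).card =
        (Multiset.filter (fun a => x = u a) Finset.univ.val).card := by
      intro u
      rw [Finset.card_def, Finset.filter_val]
      congr 1
      apply Multiset.filter_congr
      intro a _
      exact eq_comm
    rw [h2, h2]
    exact h1
  let q : (Σ x, {i // e i = x}) ≃ (Σ x, {i // e' i = x}) :=
    Equiv.sigmaCongrRight (fun x => Fintype.equivOfCardEq (hc x))
  refine ⟨((Equiv.sigmaFiberEquiv e).symm.trans q).trans (Equiv.sigmaFiberEquiv e'), ?_⟩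
  funext i
  exact ((q ⟨e i, ⟨i, rfl⟩⟩).2.2).symm

/-- The distribution of legs and half-edges over the branches. -/
def mk {k g : ℕ} (α : L → Fin k) (e : Fin g → Fin k × Fin k) : L ⊕ Fin g × Bool → Fin k :=
  Sum.elim α (fun p => if p.2 then (e p.1).1 else (e p.1).2)

lemma mk_comp {k l g : ℕ} (m : Fin k → Fin l) (α : L → Fin k) (e : Fin g → Fin k × Fin k) :
    m ∘ mk α e = mk (m ∘ α) (Prod.map m m ∘ e) := by
  funext y
  rcases y with x | ⟨t, b⟩
  · rfl
  · cases b <;> rfl

lemma mk_surj {k g : ℕ} (α : L → Fin k) (e : Fin g → Fin k × Fin k) :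
    Sj α (Finset.univ.val.map e) ↔ (mk α e).Surjective := by
  constructor
  · intro h i
    rcases h i with ⟨x, hx⟩ | ⟨p, hp, h1⟩
    · exact ⟨inl x, hx⟩
    · obtain ⟨t, _, rfl⟩ := Multiset.mem_map.mp hp
      rcases h1 with h1 | h1
      · exact ⟨inr (t, true), h1⟩
      · exact ⟨inr (t, false), h1⟩
  · intro h i
    obtain ⟨x | ⟨t, b⟩, hx⟩ := h i
    · exact Or.inl ⟨x, hx⟩
    · refine Or.inr ⟨e t, Multiset.mem_map_of_mem _ (Finset.mem_univ t), ?_⟩
      cases b
      · exact Or.inr hx
      · exact Or.inl hx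

/-! ### Types under relabelling -/

lemma Ty.perm {k : ℕ} {A : (E × Bool) ⊕ L → V} {v0 : V} {τ : L → Fin k} (h : Ty k A v0 τ)
    (σ : Fin k ≃ Fin k) : Ty k A v0 (σ ∘ τ) := by
  obtain ⟨h1, h2, β, h3, h4, h5, h6⟩ := h
  exact ⟨h1, h2, σ ∘ β, fun e => congrArg σ (h3 e), fun y z a b => congrArg σ (h4 y z a b),
    fun y z a b c => h5 y z a b (σ.injective c), fun x => congrArg σ (h6 x)⟩

lemma card_sum_congr {X : Type} (η : X ≃ L) (A : (E × Bool) ⊕ L → V) (v : V) :
    Nat.card {y : (E × Bool) ⊕ X // A (y.map id η) = v} = Nat.card {y // A y = v} := by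
  apply Nat.card_congr
  refine (Equiv.sumCongr (Equiv.refl (E × Bool)) η).subtypeEquiv ?_
  intro y
  rcases y with y | x <;> exact Iff.rfl

lemma Gd.relabel {X : Type} {k : ℕ} {A : (E × Bool) ⊕ L → V} {v0 : V} (h : Gd k A v0) (η : X ≃ L) :
    Gd k (fun y : (E × Bool) ⊕ X => A (y.map id η)) v0 where
  fV := h.fV
  fE := h.fE
  root := by rw [card_sum_congr]; exact h.root
  cub := fun v hv => by rw [card_sum_congr]; exact h.cub v hv
  conn := fun s hs => h.conn s hs

lemma Ty.relabel {X : Type} {k : ℕ} {A : (E × Bool) ⊕ L → V} {v0 : V} {τ : L → Fin k}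
    (h : Ty k A v0 τ) (η : X ≃ L) : Ty k (fun y : (E × Bool) ⊕ X => A (y.map id η)) v0 (τ ∘ η) := by
  obtain ⟨h1, h2, β, h3, h4, h5, h6⟩ := h
  refine ⟨h1.relabel η, h2, fun y => β (y.map id η), h3, fun y z a b => h4 _ _ a b, ?_, ?_⟩
  · intro y z a b c
    have h7 := h5 _ _ a b c
    rcases y with y | x <;> rcases z with z | w <;> simp at h7
    · rw [h7]
    · rw [h7]
  · intro x
    exact h6 (η x)

lemma gd_lpg [Finite T] {k : ℕ} {A : (E × Bool) ⊕ (L ⊕ T × Bool) → V} {v0 : V} (h : Gd k A v0) :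
    Gd k (lpg A) v0 where
  fV := h.fV
  fE := by have := h.fE; infer_instance
  root := by
    rw [← h.root]
    exact Nat.card_congr ((lpgE E L T).subtypeEquiv (fun y => Iff.rfl))
  cub := fun v hv => by
    rw [← h.cub v hv]
    exact Nat.card_congr ((lpgE E L T).subtypeEquiv (fun y => Iff.rfl))
  conn := fun s hs => h.conn s (fun e => hs (inl e))

/-! ### Values on glued trees -/

/-- Relabelling the glued pairs. -/
lemma lpg_relab {A : (E × Bool) ⊕ (L ⊕ T × Bool) → V} {v0 : V} (ρ : T × Bool ≃ T × Bool)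
    (h : ∀ t, (ρ (t, true)).1 = (ρ (t, false)).1) :
    IsoR (lpg (fun y : (E × Bool) ⊕ (L ⊕ T × Bool) =>
      A (y.map id (Equiv.sumCongr (Equiv.refl L) ρ)))) v0 (lpg A) v0 := by
  refine ⟨Equiv.refl V, ⟨fun y => y.1.elim (fun e => (inl e, y.2))
      (fun t => (inr (ρ (t, y.2)).1, (ρ (t, y.2)).2)),
    fun y => y.1.elim (fun e => (inl e, y.2))
      (fun t => (inr (ρ.symm (t, y.2)).1, (ρ.symm (t, y.2)).2)), ?_, ?_⟩, ?_, ?_, rfl⟩
  · rintro ⟨e | t, b⟩ <;> simp
  · rintro ⟨e | t, b⟩ <;> simp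
  · rintro (e | t)
    · rfl
    · simpa using h t
  · rintro (⟨e | t, b⟩ | x)
    · rfl
    · rfl
    · rfl

section main

variable {g : ℕ} [Finite L] (h3 : D1c) (h5 : D2) (h6 : D3b)

include h5 h6 in
lemma f_ty {T : Type} [Finite T] {f : ∀ V E : Type, ((E × Bool) ⊕ L → V) → ℚ} (hf : W f)
    {τ : L ⊕ T × Bool → Fin 4} (hτ : τ.Surjective)
    {A : (E × Bool) ⊕ (L ⊕ T × Bool) → V} {v0 : V}
    {A' : (E' × Bool) ⊕ (L ⊕ T × Bool) → V'} {v0' : V'} (hA : Ty 4 A v0 τ) (hA' : Ty 4 A' v0' τ) :
    f V (E ⊕ T) (lpg A) = f V' (E' ⊕ T) (lpg A') :=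
  h5 (L ⊕ T × Bool) _ V E V' E' A v0 A' v0' τ inferInstance hτ
    (h6 L T f inferInstance inferInstance hf) hA hA'

include h5 h6 in
lemma f_relab {T : Type} [Finite T] {f : ∀ V E : Type, ((E × Bool) ⊕ L → V) → ℚ} (hf : W f)
    {τ : L ⊕ T × Bool → Fin 4} (hτ : τ.Surjective) (ρ : T × Bool ≃ T × Bool)
    (h : ∀ t, (ρ (t, true)).1 = (ρ (t, false)).1)
    {A : (E × Bool) ⊕ (L ⊕ T × Bool) → V} {v0 : V}
    {A' : (E' × Bool) ⊕ (L ⊕ T × Bool) → V'} {v0' : V'} (hA : Ty 4 A v0 τ)
    (hA' : Ty 4 A' v0' (τ ∘ Sum.map id ρ)) :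
    f V (E ⊕ T) (lpg A) = f V' (E' ⊕ T) (lpg A') := by
  have h1 := hA.relabel (Equiv.sumCongr (Equiv.refl L) ρ)
  have h2 : (τ ∘ (Equiv.sumCongr (Equiv.refl L) ρ : L ⊕ T × Bool → L ⊕ T × Bool)) =
      τ ∘ Sum.map id ρ := by
    funext y
    rcases y with y | x <;> rfl
  rw [h2] at h1
  have h4 : (τ ∘ Sum.map id ρ).Surjective := by
    rw [← h2]
    exact hτ.comp (Equiv.surjective _)
  rw [← f_ty h5 h6 hf h4 h1 hA']
  exact (hf.iso _ _ _ _ _ _ v0 v0 (lpg_relab ρ h) (gd_lpg h1.gd)).symm

end main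

/-- The chosen graph. -/
def chX (h3 : D1c) (g : ℕ) (L : Type) [Finite L] (α : L → Fin 4)
    (M : Multiset (Fin 4 × Fin 4)) : Σ V E : Type, ((E × Bool) ⊕ L → V) :=
  if h : M.card = g ∧ Sj α M then
    let e := (exists_enum g M h.1).choose
    have he : (mk α e).Surjective := by
      rw [← mk_surj, (exists_enum g M h.1).choose_spec]
      exact h.2
    have hT := h3 4 (L ⊕ Fin g × Bool) (mk α e) inferInstance (by norm_num) he
    ⟨hT.choose, hT.choose_spec.choose ⊕ Fin g, lpg hT.choose_spec.choose_spec.choose⟩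
  else ⟨Unit, Empty, fun _ => ()⟩

lemma chX_spec (h3 : D1c) (g : ℕ) (L : Type) [Finite L] (α : L → Fin 4)
    (M : Multiset (Fin 4 × Fin 4)) (h : M.card = g ∧ Sj α M) :
    ∃ (e : Fin g → Fin 4 × Fin 4) (V E : Type) (A : (E × Bool) ⊕ (L ⊕ Fin g × Bool) → V) (v0 : V),
      Finset.univ.val.map e = M ∧ (mk α e).Surjective ∧ Ty 4 A v0 (mk α e) ∧
      chX h3 g L α M = ⟨V, E ⊕ Fin g, lpg A⟩ := by
  have he : (mk α (exists_enum g M h.1).choose).Surjective := by
    rw [← mk_surj, (exists_enum g M h.1).choose_spec]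
    exact h.2
  have hT := h3 4 (L ⊕ Fin g × Bool) (mk α (exists_enum g M h.1).choose) inferInstance
    (by norm_num) he
  refine ⟨(exists_enum g M h.1).choose, hT.choose, hT.choose_spec.choose,
    hT.choose_spec.choose_spec.choose, hT.choose_spec.choose_spec.choose_spec.choose,
    (exists_enum g M h.1).choose_spec, he,
    hT.choose_spec.choose_spec.choose_spec.choose_spec, ?_⟩
  unfold chX
  rw [dif_pos h]

section main2

variable {g : ℕ} [Finite L] (h3 : D1c) (h5 : D2) (h6 : D3b)

/-- The value on labels. -/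
def ps (h3 : D1c) (g : ℕ) (L : Type) [Finite L] (f : ∀ V E : Type, ((E × Bool) ⊕ L → V) → ℚ)
    (α : L → Fin 4) (M : Multiset (Fin 4 × Fin 4)) : ℚ :=
  if M.card = g ∧ Sj α M then f (chX h3 g L α M).1 (chX h3 g L α M).2.1 (chX h3 g L α M).2.2 else 0

include h5 h6 in
lemma ps_val {f : ∀ V E : Type, ((E × Bool) ⊕ L → V) → ℚ} (hf : W f) {α : L → Fin 4}
    {e : Fin g → Fin 4 × Fin 4} (he : (mk α e).Surjective) {M : Multiset (Fin 4 × Fin 4)}
    (hM : Finset.univ.val.map e = M)
    {A : (E × Bool) ⊕ (L ⊕ Fin g × Bool) → V} {v0 : V} (hA : Ty 4 A v0 (mk α e)) :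
    ps h3 g L f α M = f V (E ⊕ Fin g) (lpg A) := by
  have hc : M.card = g ∧ Sj α M := by
    rw [← hM, mk_surj]
    exact ⟨by simp, he⟩
  obtain ⟨e', V', E', A', v0', h1, h2, hA', h4⟩ := chX_spec h3 g L α M hc
  unfold ps
  rw [if_pos hc, h4]
  obtain ⟨σ, rfl⟩ := perm_enum e' e (h1.trans hM.symm)
  have h7 : mk α (e ∘ σ) = mk α e ∘ Sum.map id (Equiv.prodCongr σ (Equiv.refl Bool)) := by
    funext y
    rcases y with x | ⟨t, b⟩ <;> rfl
  rw [h7] at hA'
  exact (f_relab h5 h6 hf he (Equiv.prodCongr σ (Equiv.refl Bool)) (fun t => rfl) hA hA').symm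

lemma ps_zero {f : ∀ V E : Type, ((E × Bool) ⊕ L → V) → ℚ} {α : L → Fin 4}
    {M : Multiset (Fin 4 × Fin 4)} (h : M.card ≠ g) : ps h3 g L f α M = 0 := by
  unfold ps
  rw [if_neg (fun h' => h h'.1)]

lemma ps_zero' {f : ∀ V E : Type, ((E × Bool) ⊕ L → V) → ℚ} {α : L → Fin 4}
    {e : Fin g → Fin 4 × Fin 4} (he : ¬ (mk α e).Surjective) {M : Multiset (Fin 4 × Fin 4)}
    (hM : Finset.univ.val.map e = M) : ps h3 g L f α M = 0 := by
  unfold ps
  rw [if_neg]
  rintro ⟨_, h⟩
  rw [← hM, mk_surj] at h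
  exact he h

include h5 h6 in
lemma ps_relab {f : ∀ V E : Type, ((E × Bool) ⊕ L → V) → ℚ} (hf : W f) {α : L → Fin 4}
    {e e' : Fin g → Fin 4 × Fin 4} {M M' : Multiset (Fin 4 × Fin 4)}
    (hM : Finset.univ.val.map e = M) (hM' : Finset.univ.val.map e' = M')
    (ρ : Fin g × Bool ≃ Fin g × Bool) (h : ∀ t, (ρ (t, true)).1 = (ρ (t, false)).1)
    (hρ : mk α e' = mk α e ∘ Sum.map id ρ) : ps h3 g L f α M = ps h3 g L f α M' := by
  have hη : (Sum.map id ρ : L ⊕ Fin g × Bool → _) = Equiv.sumCongr (Equiv.refl L) ρ := by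
    funext y
    rcases y with y | y <;> rfl
  have hs : (mk α e').Surjective ↔ (mk α e).Surjective := by
    rw [hρ, hη]
    exact (Equiv.surjective_comp _ _)
  by_cases he : (mk α e).Surjective
  · obtain ⟨V, E, A, v0, hA⟩ := h3 4 _ _ inferInstance (by norm_num) he
    obtain ⟨V', E', A', v0', hA'⟩ := h3 4 _ _ inferInstance (by norm_num) (hs.mpr he)
    rw [ps_val h3 h5 h6 hf he hM hA, ps_val h3 h5 h6 hf (hs.mpr he) hM' hA']
    rw [hρ] at hA'
    exact f_relab h5 h6 hf he ρ h hA hA'
  · rw [ps_zero' h3 he hM, ps_zero' h3 (fun h' => he (hs.mp h')) hM']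

include h5 h6 in
lemma ps_slide (h8 : D4b) {f : ∀ V E : Type, ((E × Bool) ⊕ L → V) → ℚ} (hf : W f)
    {α α' : L → Fin 4}
    {e e' : Fin g → Fin 4 × Fin 4} {M M' : Multiset (Fin 4 × Fin 4)}
    (hM : Finset.univ.val.map e = M) (hM' : Finset.univ.val.map e' = M')
    (x : L ⊕ Fin g × Bool) (t : Fin g) (b : Bool) (hx : x ≠ inr (t, b))
    (hx2 : mk α e x = mk α e (inr (t, b)))
    (hρ : mk α' e' = Function.update (mk α e) x (mk α e (inr (t, !b)))) :
    ps h3 g L f α M = ps h3 g L f α' M' := by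
  have hs : (mk α' e').Surjective ↔ (mk α e).Surjective := by
    rw [hρ]
    by_cases h1 : x = inr (t, !b)
    · rw [← h1, Function.update_eq_self]
    · constructor
      · intro h i
        obtain ⟨y, hy⟩ := h i
        by_cases hyx : y = x
        · rw [hyx, Function.update_self] at hy
          exact ⟨_, hy⟩
        · rw [Function.update_of_ne hyx] at hy
          exact ⟨y, hy⟩
      · intro h i
        obtain ⟨y, hy⟩ := h i
        by_cases hyx : y = x
        · refine ⟨inr (t, b), ?_⟩
          rw [Function.update_of_ne hx.symm, ← hx2, ← hyx, hy]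
        · exact ⟨y, by rw [Function.update_of_ne hyx]; exact hy⟩
  by_cases he : (mk α e).Surjective
  · obtain ⟨V, E, V', E', A, v0, A', v0', hA, hA', hi⟩ :=
      h8 L (Fin g) (mk α e) x t b inferInstance inferInstance he hx hx2
    have hA2 : Ty 4 A' v0' (mk α' e') := by
      have hu : ∀ (d1 d2 : DecidableEq (L ⊕ Fin g × Bool)) (v : Fin 4),
          @Function.update _ _ d1 (mk α e) x v = @Function.update _ _ d2 (mk α e) x v := by
        intro d1 d2 v
        rw [Subsingleton.elim d1 d2]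
      rw [hρ, hu _ _ _]
      exact hA'
    rw [ps_val h3 h5 h6 hf he hM hA, ps_val h3 h5 h6 hf (hs.mpr he) hM' hA2]
    exact hf.iso _ _ _ _ _ _ v0 v0' hi (gd_lpg hA.gd)
  · rw [ps_zero' h3 he hM, ps_zero' h3 (fun h' => he (hs.mp h')) hM']

lemma map_cons {X : Type} {n : ℕ} (x : X) (e : Fin n → X) :
    (Finset.univ : Finset (Fin (n + 1))).val.map (Fin.cons x e : Fin (n + 1) → X) =
      x ::ₘ Finset.univ.val.map e := by
  rw [Fin.univ_val_map, Fin.univ_val_map, List.ofFn_cons]
  rfl

/-- Exchange the sides of the first pair. -/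
def flip0 (n : ℕ) : Fin (n + 1) × Bool ≃ Fin (n + 1) × Bool where
  toFun := fun y => (y.1, if y.1 = 0 then !y.2 else y.2)
  invFun := fun y => (y.1, if y.1 = 0 then !y.2 else y.2)
  left_inv := by
    rintro ⟨t, b⟩
    by_cases h : t = 0 <;> simp [h]
  right_inv := by
    rintro ⟨t, b⟩
    by_cases h : t = 0 <;> simp [h]

include h5 h6 in
theorem ps_phi (h7 : D3a) (h8 : D4b) {f : ∀ V E : Type, ((E × Bool) ⊕ L → V) → ℚ} (hf : W f) :
    PhiM L g (ps h3 g L f) where
  flip := by
    intro α a b M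
    by_cases hg : M.card + 1 = g
    · subst hg
      obtain ⟨e, he⟩ := exists_enum _ M rfl
      refine ps_relab h3 h5 h6 hf (e := Fin.cons (a, b) e) (e' := Fin.cons (b, a) e)
        (by rw [map_cons, he]) (by rw [map_cons, he]) (flip0 _) (fun t => rfl) ?_
      funext y
      rcases y with y | ⟨t, c⟩
      · rfl
      · refine Fin.cases ?_ (fun i => ?_) t
        · cases c <;> rfl
        · have h1 : (flip0 M.card) (i.succ, c) = (i.succ, c) := by
            simp [flip0, Fin.succ_ne_zero]
          change _ = mk α (Fin.cons (a, b) e) (inr (flip0 M.card (i.succ, c)))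
          rw [h1]
          cases c <;> rfl
    · rw [ps_zero h3 (by rw [Multiset.card_cons]; exact hg),
        ps_zero h3 (by rw [Multiset.card_cons]; exact hg)]
  perm := by
    intro σ α M
    by_cases hg : M.card = g
    · obtain ⟨e, he⟩ := exists_enum _ M hg
      have h1 : Finset.univ.val.map (Prod.map σ σ ∘ e) = mp σ M := by
        rw [← he]
        unfold mp
        rw [Multiset.map_map]
      by_cases hs : (mk α e).Surjective
      · obtain ⟨V, E, A, v0, hA⟩ := h3 4 _ _ inferInstance (by norm_num) hs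
        have hA' := hA.perm σ
        rw [mk_comp] at hA'
        have hs' : (mk (σ ∘ α) (Prod.map σ σ ∘ e)).Surjective := by
          rw [← mk_comp]
          exact σ.surjective.comp hs
        rw [ps_val h3 h5 h6 hf hs he hA, ps_val h3 h5 h6 hf hs' h1 hA']
      · have hs' : ¬ (mk (σ ∘ α) (Prod.map σ σ ∘ e)).Surjective := by
          rw [← mk_comp]
          intro h
          apply hs
          intro i
          obtain ⟨y, hy⟩ := h (σ i)
          exact ⟨y, σ.injective hy⟩
        rw [ps_zero' h3 hs he, ps_zero' h3 hs' h1]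
    · rw [ps_zero h3 hg, ps_zero h3 (by unfold mp; rw [Multiset.card_map]; exact hg)]
  slideL := by
    intro α x a b M
    by_cases hg : M.card + 1 = g
    · subst hg
      obtain ⟨e, he⟩ := exists_enum _ M rfl
      refine ps_slide h3 h5 h6 h8 hf (e := Fin.cons (a, b) e) (e' := Fin.cons (a, b) e)
        (by rw [map_cons, he]) (by rw [map_cons, he]) (inl x) 0 true (by simp) ?_ ?_
      · change Function.update α x a x = a
        rw [Function.update_self]
      · funext y
        rcases y with y | ⟨t, c⟩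
        · by_cases hy : y = x
          · subst hy
            rw [Function.update_self]
            change Function.update α y b y = b
            rw [Function.update_self]
          · rw [Function.update_of_ne (by simpa using hy)]
            change Function.update α x b y = Function.update α x a y
            rw [Function.update_of_ne hy, Function.update_of_ne hy]
        · rw [Function.update_of_ne (by simp)]
          rfl
    · rw [ps_zero h3 (by rw [Multiset.card_cons]; exact hg),
        ps_zero h3 (by rw [Multiset.card_cons]; exact hg)]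
  slideH := by
    intro α a b c M
    by_cases hg : M.card + 1 + 1 = g
    · subst hg
      obtain ⟨e, he⟩ := exists_enum _ M rfl
      refine ps_slide h3 h5 h6 h8 hf (e := Fin.cons (a, b) (Fin.cons (a, c) e : Fin (M.card + 1) → _))
        (e' := Fin.cons (a, b) (Fin.cons (b, c) e : Fin (M.card + 1) → _))
        (by rw [map_cons, map_cons, he]) (by rw [map_cons, map_cons, he])
        (inr ((0 : Fin (M.card + 1)).succ, true)) 0 true ?_ ?_ ?_
      · intro h
        have h1 : (0 : Fin (M.card + 1)).succ = 0 := congrArg Prod.fst (inr_injective h)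
        exact Fin.succ_ne_zero _ h1
      · rfl
      · funext y
        rcases y with y | ⟨t, c⟩
        · rw [Function.update_of_ne (by simp)]
          rfl
        · refine Fin.cases ?_ (fun i => ?_) t
          · rw [Function.update_of_ne]
            · cases c <;> rfl
            · intro h
              have h1 : (0 : Fin (M.card + 2)) = (0 : Fin (M.card + 1)).succ :=
                congrArg Prod.fst (inr_injective h)
              exact Fin.succ_ne_zero _ h1.symm
          · refine Fin.cases ?_ (fun j => ?_) i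
            · cases c
              · rw [Function.update_of_ne (by simp)]
                rfl
              · rw [Function.update_self]
                rfl
            · rw [Function.update_of_ne]
              · cases c <;> rfl
              · intro h
                have h1 : j.succ.succ = (0 : Fin (M.card + 1)).succ :=
                  congrArg Prod.fst (inr_injective h)
                exact Fin.succ_ne_zero _ (Fin.succ_injective _ h1)
    · rw [ps_zero h3 (by rw [Multiset.card_cons, Multiset.card_cons]; exact hg),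
        ps_zero h3 (by rw [Multiset.card_cons, Multiset.card_cons]; exact hg)]
  keel := by
    intro α M hM hs
    obtain ⟨e, he⟩ := exists_enum _ M hM
    have hσ : (mk α e).Surjective := by
      rw [← mk_surj, he]
      exact hs
    obtain ⟨V, E, A, v0, hA⟩ := h3 5 _ _ inferInstance (by norm_num) hσ
    obtain ⟨r, hr1, hr2, hr3⟩ := h7 _ V E A v0 _ inferInstance hσ hA
    have key : ∀ (m : Fin 5 → Fin 4) (i j : Fin 5), m.Surjective → i ≠ j → m i = m j →
        ps h3 g L f (m ∘ α) (mp m M) =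
          f (Option V) (Option E ⊕ Fin g) (lpg (sp A v0 (r i) (r j))) := by
      intro m i j hm hij hmij
      have h1 := hr3 m i j hm hij hmij
      rw [mk_comp] at h1
      refine ps_val h3 h5 h6 hf ?_ ?_ h1
      · rw [← mk_comp]
        exact hm.comp hσ
      · rw [← he]
        unfold mp
        rw [Multiset.map_map]
    rw [key ![0, 0, 1, 2, 3] 0 1 (by decide) (by decide) (by decide),
      key ![0, 1, 2, 2, 3] 2 3 (by decide) (by decide) (by decide),
      key ![0, 1, 0, 2, 3] 0 2 (by decide) (by decide) (by decide),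
      key ![0, 1, 2, 1, 3] 1 3 (by decide) (by decide) (by decide)]
    have hne : ∀ i j : Fin 5, i ≠ j → r i ≠ r j := fun i j h h' => h (hr1 h')
    exact (h6 L (Fin g) f inferInstance inferInstance hf).keel V E A v0 (r 0) (r 1) (r 2) (r 3)
      hA.gd (hr2 _) (hr2 _) (hr2 _) (hr2 _) (hne _ _ (by decide)) (hne _ _ (by decide))
      (hne _ _ (by decide)) (hne _ _ (by decide)) (hne _ _ (by decide)) (hne _ _ (by decide))

end main2

/-- The graph part. -/
theorem graphPart (h3 : D1c) (h4 : D1d) (h5 : D2) (h7 : D3a) (h6 : D3b) (h9 : D4a) (h8 : D4b) :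
    GraphPart := by
  intro g L hL
  refine ⟨chX h3 g L, fun f hf => ⟨ps_phi h3 h5 h6 h7 h8 hf, ?_⟩⟩
  intro V E A v0 hA hg
  obtain ⟨E0, A0, h10, h11, h12⟩ := h9 4 g L V E A v0 hL hA hg
  obtain ⟨τ, hτ, h13⟩ := h4 4 _ V E0 A0 v0 inferInstance (by norm_num) h10 h11
  let α : L → Fin 4 := fun x => τ (inl x)
  let e : Fin g → Fin 4 × Fin 4 := fun t => (τ (inr (t, true)), τ (inr (t, false)))
  have hmk : mk α e = τ := by
    funext y
    rcases y with y | ⟨t, b⟩
    · rfl
    · cases b <;> rfl
  have hs : (mk α e).Surjective := by rw [hmk]; exact hτ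
  have hc : Multiset.card (Finset.univ.val.map e) = g ∧ Sj α (Finset.univ.val.map e) := by
    rw [mk_surj]
    exact ⟨by simp, hs⟩
  refine ⟨α, Finset.univ.val.map e, hc.1, hc.2, ?_⟩
  rw [← hmk] at h13
  have h14 := ps_val h3 h5 h6 hf hs rfl h13
  unfold ps at h14
  rw [if_pos hc] at h14
  rw [h14]
  exact hf.iso _ _ _ _ _ _ v0 v0 h12 hA

end Vale.Agent.P273.C1
end
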