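import Vale.Agent.P273.C1.R3

/-!
Block R1, the trivial relations: the restriction of a functional on the strata algebra to a vertex
is a functional on the strata algebra.
-/

noncomputable section
namespace Vale.Agent.P273.C1.R1T
open Sum Vale.Agent.P273 Vale.Agent.P273.C1.R3B
open scoped Classical

variable {V E V' E' L M N R T : Type}

lemma valid_upd (G : Gr V E L) (v : V) (g : ℕ) :
    (G.upd v (0 ::ₘ (G.dec v).2)).Valid g ↔ G.Valid g := by
  have h0 : ∀ u, ((G.upd v (0 ::ₘ (G.dec v).2)).dec u).2.sum = (G.dec u).2.sum := by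
    intro u
    by_cases hu : u = v
    · subst hu
      rw [upd_dec_self]
      simp
    · rw [upd_dec_ne _ _ _ hu]
  unfold Gr.Valid Gr.Stab
  simp only [h0, gen_upd, nv_upd]
  rfl

/-- isomorphisms of the small graph extend -/
def em2 (ρ : E × Bool → E' × Bool) : (E ⊕ T) × Bool → (E' ⊕ T) × Bool := fun y =>
  y.1.elim (fun e => (inl (ρ (e, y.2)).1, (ρ (e, y.2)).2)) (fun t => (inr t, y.2))

lemma em2_bij {ρ : E × Bool → E' × Bool} (h : ρ.Bijective) :
    (em2 ρ : (E ⊕ T) × Bool → (E' ⊕ T) × Bool).Bijective := by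
  constructor
  · rintro ⟨e | t, b⟩ ⟨e' | t', b'⟩ hh
    · simp only [em2, elim_inl, Prod.mk.injEq, inl.injEq] at hh
      have h1 : ρ (e, b) = ρ (e', b') := Prod.ext hh.1 hh.2
      have h2 := h.1 h1
      simp only [Prod.mk.injEq] at h2
      rw [h2.1, h2.2]
    · simp [em2] at hh
    · simp [em2] at hh
    · simpa [em2] using hh
  · rintro ⟨e | t, b⟩
    · obtain ⟨⟨e', b'⟩, h1⟩ := h.2 (e, b)
      exact ⟨(inl e', b'), by simp [em2, h1]⟩
    · exact ⟨(inr t, b), rfl⟩

lemma iso_big {G : Gr V E L} {G' : Gr V' E' L} {φ : V → V'} {ρ : E × Bool → E' × Bool}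
    (I : IsoData G G' φ ρ) (r : R → ℕ × Multiset ℕ) (u : (T × Bool) ⊕ N → L ⊕ R × ℕ) :
    IsoData (big G r u) (big G' r u) (Sum.map φ id) (em2 ρ) where
  h1 := by
    constructor
    · rintro (v | x) (v' | x') h
      · rw [I.h1.1 (inl.inj h)]
      · cases h
      · cases h
      · exact congrArg inr (inr.inj h)
    · rintro (v | x)
      · obtain ⟨w, rfl⟩ := I.h1.2 v
        exact ⟨inl w, rfl⟩
      · exact ⟨inr x, rfl⟩
  h2 := em2_bij I.h2
  h3 := by
    rintro (e | t)
    · show (inl (ρ (e, true)).1 : E' ⊕ T) = inl (ρ (e, false)).1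
      rw [I.h3]
    · rfl
  h4 := by
    rintro (v | x)
    · exact I.h4 v
    · rfl
  h5 := by
    have key : ∀ w : L ⊕ R × ℕ,
        (w.elim (fun x => (G'.hf (inr x)).map inl id) (Prod.map inr id) : (V' ⊕ R) × ℕ) =
        (w.elim (fun x => (G.hf (inr x)).map inl id) (Prod.map inr id) : (V ⊕ R) × ℕ).map
          (Sum.map φ id) id := by
      rintro (x | p)
      · show (G'.hf (inr x)).map inl id = _
        rw [I.hf_inr]
        rfl
      · rfl
    rintro (⟨e | t, b⟩ | n)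
    · show (G'.hf (inl ((ρ (e, b)).1, (ρ (e, b)).2))).map inl id =
        ((G.hf (inl (e, b))).map inl id).map (Sum.map φ id) id
      rw [show ((ρ (e, b)).1, (ρ (e, b)).2) = ρ (e, b) from rfl, I.hf_inl]
      rfl
    · exact key (u (inl (t, b)))
    · exact key (u (inr n))

lemma big_upd (G : Gr V E L) (v : V) (K : Multiset ℕ) (r : R → ℕ × Multiset ℕ)
    (u : (T × Bool) ⊕ N → L ⊕ R × ℕ) : big (G.upd v K) r u = (big G r u).upd (inl v) K := by
  apply Gr.ext'
  · rintro (x | x)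
    · have e1 : (big (G.upd v K) r u).dec (inl x) = (G.upd v K).dec x := rfl
      have e2 : (big G r u).dec (inl x) = G.dec x := rfl
      by_cases hx : x = v
      · subst hx
        rw [e1, upd_dec_self, upd_dec_self]
        rfl
      · rw [e1, upd_dec_ne _ _ _ hx, upd_dec_ne _ _ _ (fun h => hx (inl.inj h)), e2]
    · rw [upd_dec_ne _ _ _ (fun h => by cases h)]
      rfl
  · intro y
    rfl

/-- the restriction of a functional on the strata algebra -/
lemma tr_res {g d γ e : ℕ} {N L R T : Type} {s : Q.Fn N} (r : R → ℕ × Multiset ℕ)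
    (u : (T × Bool) ⊕ N → L ⊕ R × ℕ) [Finite N] [Finite L] [Finite R] [Finite T]
    (hu : ∀ x, ∃! y, u y = inl x) (hs : Q.Tr g d s) : Q.Tr γ e (Q.res γ e s r u) := by
  obtain ⟨s1, s2, s3⟩ := hs
  refine ⟨fun V E a f h => if_neg h, ?_, ?_⟩
  · intro V E V' E' a f f' p q k1 k2 k3 k5
    have I : IsoData (⟨a ∘ p, f⟩ : Gr V E L) (⟨a, f'⟩ : Gr V' E' L) p q :=
      ⟨k1, k2, k3, fun _ => rfl, k5⟩
    have J := iso_big I r u
    have hv : Q.Valid (a ∘ p) f γ e ↔ Q.Valid a f' γ e := by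
      rw [cValid_iff, cValid_iff, I.deg_eq]
      exact and_congr ⟨fun h => I.valid h, fun h => I.symm.valid h⟩ Iff.rfl
    have h2 := s2 _ _ _ _ (big (⟨a, f'⟩ : Gr V' E' L) r u).dec
      (big (⟨a ∘ p, f⟩ : Gr V E L) r u).hf (big (⟨a, f'⟩ : Gr V' E' L) r u).hf _ _
      J.h1 J.h2 J.h3 J.h5
    have h3 : (big (⟨a, f'⟩ : Gr V' E' L) r u).dec ∘ Sum.map p id =
        (big (⟨a ∘ p, f⟩ : Gr V E L) r u).dec := funext fun x => J.h4 x
    rw [h3] at h2
    show (if Q.Valid (a ∘ p) f γ e then Q.ins s r u V E (a ∘ p) f else 0) =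
      if Q.Valid a f' γ e then Q.ins s r u V' E' a f' else 0
    by_cases h : Q.Valid a f' γ e
    · rw [if_pos (hv.2 h), if_pos h]
      exact h2
    · rw [if_neg (fun h' => h (hv.1 h')), if_neg h]
  · intro V E a f v
    have hv : Q.Valid (Function.update a v ((a v).1, 0 ::ₘ (a v).2)) f γ e ↔
        Q.Valid a f γ e := by
      rw [cValid_iff, cValid_iff]
      have h1 := valid_upd (⟨a, f⟩ : Gr V E L) v γ
      have h2 := deg_upd (⟨a, f⟩ : Gr V E L) v
      exact and_congr h1 (by rw [← h2]; rfl)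
    show (if Q.Valid (Function.update a v ((a v).1, 0 ::ₘ (a v).2)) f γ e then
        Q.ins s r u V E (Function.update a v ((a v).1, 0 ::ₘ (a v).2)) f else 0) =
      _ * (if Q.Valid a f γ e then Q.ins s r u V E a f else 0)
    by_cases h : Q.Valid a f γ e
    · rw [if_pos (hv.2 h), if_pos h]
      have h3 := s3 _ _ (big (⟨a, f⟩ : Gr V E L) r u).dec (big (⟨a, f⟩ : Gr V E L) r u).hf (inl v)
      have h4 := big_upd (⟨a, f⟩ : Gr V E L) v (0 ::ₘ (a v).2) r u
      have h5 : Q.ins s r u V E (Function.update a v ((a v).1, 0 ::ₘ (a v).2)) f =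
          s _ _ (big ((⟨a, f⟩ : Gr V E L).upd v (0 ::ₘ (a v).2)) r u).dec
            (big ((⟨a, f⟩ : Gr V E L).upd v (0 ::ₘ (a v).2)) r u).hf := rfl
      rw [h5, h4]
      refine h3.trans ?_
      have h6 : Q.nv (big (⟨a, f⟩ : Gr V E L) r u).hf (inl v) = Q.nv f v := by
        rw [cnv_eq (big (⟨a, f⟩ : Gr V E L) r u).dec, cnv_eq a]
        exact nv_big (⟨a, f⟩ : Gr V E L) r hu v
      rw [h6]
      rfl
    · rw [if_neg (fun h' => h (hv.1 h')), if_neg h, mul_zero]

end Vale.Agent.P273.C1.R1T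
end
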