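import Vale.Agent.P273.CDefs

/-!
Low dimensional classes: definitions and the statements of the blocks.
Everything here is a definition.
-/

noncomputable section
namespace Vale.Agent.P273.Q
open Sum
open scoped Classical

variable {L N R T : Type}

/-- Insert a decorated graph with leg set `L` into a larger graph with leg set `N`: `R` is the set
of the other vertices, with decorations `r`, and `T` the set of the other edges; a half-edge of `T`
and a leg in `N` either take the place of a leg `x : L` of the inserted graph or are attached to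
some vertex in `R`, with some psi exponent. -/
def ins (s : Fn N) (r : R → ℕ × Multiset ℕ) (u : (T × Bool) ⊕ N → L ⊕ R × ℕ) : Fn L :=
  fun V E a f =>
    let w := fun y => (u y).elim (fun x => (f (inr x)).map inl id) (Prod.map inr id)
    s (V ⊕ R) (E ⊕ T) (Sum.elim a r) (Sum.elim (fun y => y.1.elim
      (fun e => (f (inl (e, y.2))).map inl id) fun t => w (inl (t, y.2))) fun i => w (inr i))

/-- The restriction of the functional `s` to one vertex (of genus `γ`, in degree `e`) of a
decorated graph. -/
def res (γ e : ℕ) (s : Fn N) (r : R → ℕ × Multiset ℕ) (u : (T × Bool) ⊕ N → L ⊕ R × ℕ) : Fn L :=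
  fun V E a f => if Valid a f γ e then ins s r u V E a f else 0

/-- Block R1: Pixton's relations restrict to the vertices of a decorated graph. -/
def R1 : Prop := ∀ (g d γ e : ℕ) (N L R T : Type) (s : Fn N) (r : R → ℕ × Multiset ℕ)
  (u : (T × Bool) ⊕ N → L ⊕ R × ℕ), Finite N → Finite L → Finite R → Finite T →
  (∀ x, ∃! y, u y = inl x) → Pix g d s → Pix γ e (res γ e s r u)

/-- Block R2: in dimension `k` every class is supported on the boundary if `2g-2+n > 2k+2`. -/
def R2 : Prop := ∀ (g d k : ℕ) (L : Type) (s : Fn L), Finite L → Pix g d s →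
  k + d + 3 = 3 * g + Nat.card L → 2 * k + 5 ≤ 2 * g + Nat.card L →
  (∀ V E a f, Nonempty E → s V E a f = 0) → s = fun _ _ _ _ => 0

/-- Block R3: in each dimension `K`, completeness is an explicit finite problem. The hypotheses on
`T`: Pixton's relations hold; `T` contains zero; gluing: if the restrictions of `s` to all vertices
of all decorated graphs with at least one other edge are in `T`, then there is `t` in `T` which
agrees with `s` on the boundary. -/
def R3 : Prop := ∀ (K : ℕ) (T : ℕ → ℕ → ∀ L, Fn L → Prop),
  (∀ g d L s, T g d L s → Pix g d s) →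
  (∀ g d L, T g d L fun _ _ _ _ => 0) →
  (∀ g d k L s, Finite L → k ≤ K → k + d + 3 = 3 * g + Nat.card L →
    2 * k + 5 ≤ 2 * g + Nat.card L → Tr g d s →
    (∀ (γ e : ℕ) (M R T' : Type) (r : R → ℕ × Multiset ℕ) (u : (T' × Bool) ⊕ L → M ⊕ R × ℕ),
      Finite M → Finite R → Finite T' → Nonempty T' → (∀ x, ∃! y, u y = inl x) →
      T γ e M (res γ e s r u)) →
    ∃ t, T g d L t ∧ ∀ V E a f, Nonempty E → t V E a f = s V E a f) →
  (∀ g d k L, Finite L → k ≤ K → k + d + 3 = 3 * g + Nat.card L →
    2 * g + Nat.card L ≤ 2 * k + 4 → ∀ s, Pix g d s → T g d L s) →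
  ∀ g d k L, Finite L → k ≤ K → k + d + 3 = 3 * g + Nat.card L → ∀ s, Pix g d s → T g d L s

end Vale.Agent.P273.Q
end
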