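import Vale.Agent.P273.Bdl.B1
import Vale.Agent.P273.C1.RDefs

/-!
Block R3: in each dimension completeness is an explicit finite problem.
-/

noncomputable section
namespace Vale.Agent.P273.C1.R3B
open Sum Vale.Agent.P273
open scoped Classical

variable {V E L M N R T : Type}

/-- the large graph -/
def big (G : Gr V E L) (r : R → ℕ × Multiset ℕ) (u : (T × Bool) ⊕ N → L ⊕ R × ℕ) :
    Gr (V ⊕ R) (E ⊕ T) N :=
  let w := fun y => (u y).elim (fun x => (G.hf (inr x)).map inl id) (Prod.map inr id)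
  ⟨Sum.elim G.dec r, Sum.elim (fun y => y.1.elim
      (fun e => (G.hf (inl (e, y.2))).map inl id) fun t => w (inl (t, y.2))) fun i => w (inr i)⟩

lemma ins_eq (s : Q.Fn N) (G : Gr V E L) (r : R → ℕ × Multiset ℕ)
    (u : (T × Bool) ⊕ N → L ⊕ R × ℕ) :
    Q.ins s r u V E G.dec G.hf = s _ _ (big G r u).dec (big G r u).hf := rfl

/-- outer half-edges in the large graph -/
def lf (E : Type) (z : (T × Bool) ⊕ N) : ((E ⊕ T) × Bool) ⊕ N :=
  z.map (fun y => (inr y.1, y.2)) id

lemma lf_inj : (lf E : (T × Bool) ⊕ N → _).Injective := by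
  rintro (⟨e, b⟩ | x) (⟨e', b'⟩ | x') h <;> simp [lf] at h ⊢
  · exact h
  · exact h

lemma lf_ne (e : E) (b : Bool) (z : (T × Bool) ⊕ N) : lf E z ≠ inl (inl e, b) := by
  rcases z with ⟨t, s⟩ | n <;> simp [lf]

lemma cases_lf (z : ((E ⊕ T) × Bool) ⊕ N) :
    (∃ e s, z = inl (inl e, s)) ∨ ∃ y, z = lf E y := by
  rcases z with ⟨e | t, s⟩ | n
  · exact Or.inl ⟨e, s, rfl⟩
  · exact Or.inr ⟨inl (t, s), rfl⟩
  · exact Or.inr ⟨inr n, rfl⟩

lemma big_hf_old (G : Gr V E L) (r : R → ℕ × Multiset ℕ) (u : (T × Bool) ⊕ N → L ⊕ R × ℕ)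
    (e : E) (b : Bool) : (big G r u).hf (inl (inl e, b)) = (G.hf (inl (e, b))).map inl id := rfl

lemma big_hf_lf (G : Gr V E L) (r : R → ℕ × Multiset ℕ) (u : (T × Bool) ⊕ N → L ⊕ R × ℕ)
    (z : (T × Bool) ⊕ N) : (big G r u).hf (lf E z) =
      (u z).elim (fun x => (G.hf (inr x)).map inl id) (Prod.map inr id) := by
  rcases z with ⟨t, s⟩ | n <;> rfl

/-- the half-edges of the small graph in the large graph -/
def em {u : (T × Bool) ⊕ N → L ⊕ R × ℕ} (hu : ∀ x, ∃! y, u y = inl x) :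
    (E × Bool) ⊕ L → ((E ⊕ T) × Bool) ⊕ N :=
  Sum.elim (fun y => inl (inl y.1, y.2)) (fun x => lf E (hu x).choose)

lemma em_spec {u : (T × Bool) ⊕ N → L ⊕ R × ℕ} (hu : ∀ x, ∃! y, u y = inl x) (x : L) :
    u (hu x).choose = inl x := (hu x).choose_spec.1

lemma em_inj {u : (T × Bool) ⊕ N → L ⊕ R × ℕ} (hu : ∀ x, ∃! y, u y = inl x) :
    (em hu : (E × Bool) ⊕ L → _).Injective := by
  rintro (⟨e, b⟩ | x) (⟨e', b'⟩ | x') h
  · simpa [em] using h
  · exact absurd h.symm (lf_ne _ _ _)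
  · exact absurd h (lf_ne _ _ _)
  · have h2 := lf_inj h
    have h3 : (inl x : L ⊕ R × ℕ) = inl x' := by
      rw [← em_spec hu x, h2, em_spec hu x']
    rw [inl.inj h3]

lemma big_em (G : Gr V E L) (r : R → ℕ × Multiset ℕ) {u : (T × Bool) ⊕ N → L ⊕ R × ℕ}
    (hu : ∀ x, ∃! y, u y = inl x) (z : (E × Bool) ⊕ L) :
    (big G r u).hf (em hu z) = (G.hf z).map inl id := by
  rcases z with ⟨e, b⟩ | x
  · rfl
  · show (big G r u).hf (lf E (hu x).choose) = _
    rw [big_hf_lf, em_spec hu x]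
    rfl

lemma mem_em (G : Gr V E L) (r : R → ℕ × Multiset ℕ) {u : (T × Bool) ⊕ N → L ⊕ R × ℕ}
    (hu : ∀ x, ∃! y, u y = inl x) {y : ((E ⊕ T) × Bool) ⊕ N} {v : V}
    (h : ((big G r u).hf y).1 = inl v) : ∃ z, em hu z = y := by
  rcases cases_lf y with ⟨e, b, rfl⟩ | ⟨z, rfl⟩
  · exact ⟨inl (e, b), rfl⟩
  · rw [big_hf_lf] at h
    rcases hz : u z with x | p
    · refine ⟨inr x, ?_⟩
      show lf E (hu x).choose = lf E z
      rw [(hu x).unique (em_spec hu x) hz]
    · rw [hz] at h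
      cases h

/-- the flags at a vertex of the small graph -/
def fle (G : Gr V E L) (r : R → ℕ × Multiset ℕ) {u : (T × Bool) ⊕ N → L ⊕ R × ℕ}
    (hu : ∀ x, ∃! y, u y = inl x) (v : V) :
    {y // (G.hf y).1 = v} ≃ {y // ((big G r u).hf y).1 = inl v} :=
  Equiv.ofBijective (fun y => ⟨em hu y.1, by rw [big_em]; exact congrArg inl y.2⟩) (by
    constructor
    · intro y y' h
      exact Subtype.ext (em_inj hu (congrArg Subtype.val h))
    · rintro ⟨y, hy⟩
      obtain ⟨z, rfl⟩ := mem_em G r hu hy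
      refine ⟨⟨z, ?_⟩, rfl⟩
      rw [big_em] at hy
      exact inl.inj hy)

lemma nv_big (G : Gr V E L) (r : R → ℕ × Multiset ℕ) {u : (T × Bool) ⊕ N → L ⊕ R × ℕ}
    (hu : ∀ x, ∃! y, u y = inl x) (v : V) : (big G r u).nv (inl v) = G.nv v :=
  (Nat.card_congr (fle G r hu v)).symm

lemma degAt_big (G : Gr V E L) (r : R → ℕ × Multiset ℕ) {u : (T × Bool) ⊕ N → L ⊕ R × ℕ}
    (hu : ∀ x, ∃! y, u y = inl x) (v : V) : (big G r u).degAt (inl v) = G.degAt v := by
  unfold Gr.degAt
  congr 1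
  rw [← finsum_comp_equiv (fle G r hu v)]
  apply finsum_congr
  intro y
  show ((big G r u).hf (em hu y.1)).2 = _
  rw [big_em]
  rfl

/-- the two counting formulas -/
lemma counts [Fintype V] [Finite L] {g : ℕ} {G : Gr V E L} (hG : G.Valid g) :
    ∑ v, (3 * (G.dec v).1 + G.nv v) + Nat.card E + 3 = 3 * g + Nat.card L + 3 * Fintype.card V ∧
    ∑ v, G.degAt v + Nat.card E = G.deg := by
  have hE : Finite E := hG.2.1
  have hgen := hG.2.2.1.2.2.1
  rw [finsum_eq_sum_of_fintype, Nat.card_eq_fintype_card (α := V)] at hgen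
  have h1 := sum_degAt G
  have h2 := sum_nv G
  refine ⟨?_, h1⟩
  rw [Finset.sum_add_distrib, ← Finset.mul_sum, h2]
  omega

/-- dimension and size decrease -/
lemma count [Finite L] [Finite N] [Finite R] [Finite T] {g γ : ℕ} {G : Gr V E L}
    (r : R → ℕ × Multiset ℕ) {u : (T × Bool) ⊕ N → L ⊕ R × ℕ} (hu : ∀ x, ∃! y, u y = inl x)
    (hG : G.Valid γ) (hH : (big G r u).Valid g) {k : ℕ}
    (hk : k + (big G r u).deg + 3 = 3 * g + Nat.card N) :
    ∃ k', k' + G.deg + 3 = 3 * γ + Nat.card L ∧ k' ≤ k ∧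
      3 * γ + Nat.card L + Nat.card T ≤ 3 * g + Nat.card N := by
  have hV : Finite V := hG.1
  have hE : Finite E := hG.2.1
  have := Fintype.ofFinite V
  have := Fintype.ofFinite R
  obtain ⟨a1, a2⟩ := counts hG
  obtain ⟨b1, b2⟩ := counts hH
  rw [Fintype.sum_sum_type, Fintype.card_sum, Nat.card_sum] at b1
  rw [Fintype.sum_sum_type, Nat.card_sum] at b2
  have c1 : ∑ v, (3 * ((big G r u).dec (inl v)).1 + (big G r u).nv (inl v)) =
      ∑ v, (3 * (G.dec v).1 + G.nv v) := by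
    apply Finset.sum_congr rfl
    intro v _
    rw [nv_big G r hu v]
    rfl
  have c2 : ∑ v, (big G r u).degAt (inl v) = ∑ v, G.degAt v := by
    apply Finset.sum_congr rfl
    intro v _
    exact degAt_big G r hu v
  rw [c1] at b1
  rw [c2] at b2
  -- the environment
  have d1 : ∑ x : R, ((big G r u).degAt (inr x) + 3) ≤
      ∑ x : R, (3 * ((big G r u).dec (inr x)).1 + (big G r u).nv (inr x)) := by
    apply Finset.sum_le_sum
    intro x _
    rw [degAt_eq]
    exact hH.2.2.2 (inr x)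
  have d2 : ∑ v : V, (G.degAt v + 3) ≤ ∑ v : V, (3 * (G.dec v).1 + G.nv v) := by
    apply Finset.sum_le_sum
    intro x _
    rw [degAt_eq]
    exact hG.2.2.2 x
  rw [Finset.sum_add_distrib, Finset.sum_const, Finset.card_univ, smul_eq_mul] at d1 d2
  refine ⟨∑ v : V, (3 * (G.dec v).1 + G.nv v) - 3 * Fintype.card V - ∑ v, G.degAt v, ?_, ?_, ?_⟩
  · omega
  · omega
  · omega

/-- difference of two functionals satisfying Pixton's relations -/
lemma pix_sub [Finite L] {g d : ℕ} {s t : Q.Fn L} (hs : Q.Pix g d s) (ht : Q.Pix g d t) :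
    Q.Pix g d (fun V E a f => s V E a f - t V E a f) := by
  have h1 : (fun V E a f => s V E a f - t V E a f) = fd d (evl s - evl t) := by
    funext V E a f
    by_cases h : (⟨a, f⟩ : Gr V E L).deg = d
    · rw [show fd d (evl s - evl t) V E a f = _ from fd_of _ ⟨a, f⟩ h]
      rw [LinearMap.sub_apply, evl_dl, evl_dl, one_mul, one_mul]
    · rw [show fd d (evl s - evl t) V E a f = _ from fd_not _ ⟨a, f⟩ h]
      have hn : ¬ Q.Valid a f g d := by
        rw [cValid_iff]
        exact fun h' => h h'.2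
      rw [hs.1.1 _ _ a f hn, ht.1.1 _ _ a f hn, sub_zero]
  rw [h1]
  apply Pix_fd
  intro x hx
  rw [LinearMap.sub_apply, evl_P hs hx, evl_P ht hx, sub_zero]

/-- Block R3. -/
theorem r3 (h1 : Q.R1) (h2 : Q.R2) : Q.R3 := by
  intro K Y hY hz hglue hbase
  have key : ∀ D g d k (L : Type), Finite L → k ≤ K → k + d + 3 = 3 * g + Nat.card L →
      3 * g + Nat.card L = D → ∀ s : Q.Fn L, Q.Pix g d s → Y g d L s := by
    intro D
    induction D using Nat.strong_induction_on with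
    | _ D ih =>
    intro g d k L hL hk hdim hD s hs
    by_cases hc : 2 * g + Nat.card L ≤ 2 * k + 4
    · exact hbase g d k L hL hk hdim hc s hs
    obtain ⟨t, ht, hts⟩ := hglue g d k L s hL hk hdim (by omega) hs.1 (by
      intro γ e M R T' r u hM hR hT' hne hu
      by_cases hz0 : Q.res γ e s r u = fun _ _ _ _ => 0
      · rw [hz0]
        exact hz γ e M
      obtain ⟨V, E, a, f, hne0⟩ : ∃ V E a f, Q.res γ e s r u V E a f ≠ 0 := by
        by_contra hcon
        push Not at hcon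
        exact hz0 (by funext V E a f; exact hcon V E a f)
      have hv : Q.Valid a f γ e := by
        by_contra hv
        exact hne0 (if_neg hv)
      have hres : Q.res γ e s r u V E a f = Q.ins s r u V E a f := if_pos hv
      rw [hres, ins_eq s ⟨a, f⟩ r u] at hne0
      have hH : Q.Valid (big ⟨a, f⟩ r u).dec (big ⟨a, f⟩ r u).hf g d := by
        by_contra hH
        exact hne0 (hs.1.1 _ _ _ _ hH)
      rw [cValid_iff] at hH hv
      obtain ⟨k', e1, e2, e3⟩ := count (k := k) r hu hv.1 hH.1 (by rw [hH.2]; exact hdim)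
      rw [hv.2] at e1
      have hT1 : 0 < Nat.card T' := Nat.card_pos
      exact ih (3 * γ + Nat.card M) (by omega) γ e k' M hM (by omega) e1 rfl _
        (h1 g d γ e L M R T' s r u hL hM hR hT' hu hs))
    have h3 := h2 g d k L (fun V E a f => s V E a f - t V E a f) hL (pix_sub hs (hY g d L t ht))
      hdim (by omega) (fun V E a f hE => by rw [hts V E a f hE, sub_self])
    have h4 : s = t := by
      funext V E a f
      have h5 : s V E a f - t V E a f = 0 :=
        congrFun (congrFun (congrFun (congrFun h3 V) E) a) f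
      exact sub_eq_zero.1 h5
    rw [h4]
    exact ht
  intro g d k L hL hk hdim s hs
  exact key _ g d k L hL hk hdim rfl s hs

end Vale.Agent.P273.C1.R3B

namespace Vale.Agent.P273.Q

/-- Block R3. -/
theorem r3 (h1 : R1) (h2 : R2) : R3 := Vale.Agent.P273.C1.R3B.r3 h1 h2

end Vale.Agent.P273.Q
end
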