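import Vale.Agent.P273.Bdl.B1
import Vale.Agent.P273.C1.RDefs
import Vale.Agent.P273.C1.R3
import Vale.Agent.P273.C1.R1t

/-!
Block R1: Pixton's relations restrict to the vertices of a decorated graph (the relations).
-/

noncomputable section
namespace Vale.Agent.P273.C1.R1B
open Sum Vale.Agent.P273 Vale.Agent.P273.C1.R3B
open scoped Classical

variable {V E V' E' L M N R T R' T' : Type}

lemma iso_s {g d : ℕ} {s : Q.Fn N} (hs : Q.Tr g d s) (G : Gr V E N) (G' : Gr V' E' N)
    (φ : V → V') (ρ : E → E') (hφ : φ.Bijective) (hρ : ρ.Bijective)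
    (h1 : ∀ v, G'.dec (φ v) = G.dec v)
    (h2 : ∀ y, G'.hf (y.map (Prod.map ρ id) id) = (G.hf y).map φ id) :
    s V E G.dec G.hf = s V' E' G'.dec G'.hf := by
  have h3 := hs.2.1 V E V' E' G'.dec G.hf G'.hf φ (Prod.map ρ id) hφ
    (hρ.prodMap Function.bijective_id) (fun e => rfl) h2
  have h4 : G'.dec ∘ φ = G.dec := funext h1
  rw [h4] at h3
  exact h3

/-- connectedness of a graft does not depend on the inserted graph -/
lemma conn_graft (Q : Env R T L N) (G : Gr V E L) (G' : Gr V' E' L) [Nonempty V]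
    (hG' : ∀ s : Set V', (∀ e, (G'.hf (inl (e, true))).1 ∈ s ↔ (G'.hf (inl (e, false))).1 ∈ s) →
      s = ∅ ∨ s = Set.univ)
    (h : ∀ s : Set (V ⊕ R), (∀ e, ((Q.graft G).hf (inl (e, true))).1 ∈ s ↔
      ((Q.graft G).hf (inl (e, false))).1 ∈ s) → s = ∅ ∨ s = Set.univ) :
    ∀ s : Set (V' ⊕ R), (∀ e, ((Q.graft G').hf (inl (e, true))).1 ∈ s ↔
      ((Q.graft G').hf (inl (e, false))).1 ∈ s) → s = ∅ ∨ s = Set.univ := by
  intro s hs
  have h1 := hG' (inl ⁻¹' s) (by
    intro e
    have := hs (inl e)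
    rw [Env.graft_hf_inl, Env.graft_hf_inl] at this
    exact this)
  have hP : ∀ v', inl v' ∈ s ↔ ∃ v', inl v' ∈ s := by
    intro v'
    constructor
    · intro h2
      exact ⟨v', h2⟩
    · rintro ⟨v'', h2⟩
      rcases h1 with h1 | h1
      · exact absurd h2 (fun h2 => by
          have : v'' ∈ inl ⁻¹' s := h2
          rw [h1] at this
          exact this)
      · have : v' ∈ inl ⁻¹' s := by
          rw [h1]
          exact Set.mem_univ _
        exact this
  have h2 := h {w | w.elim (fun _ => ∃ v', (inl v' : V' ⊕ R) ∈ s) (fun r => inr r ∈ s)} (by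
    rintro (e | t)
    · rw [Env.graft_hf_inl, Env.graft_hf_inl]
      exact Iff.rfl
    · have h3 : ∀ b, ((Q.graft G).hf (inl (inr t, b))).1 ∈
          {w : V ⊕ R | w.elim (fun _ => ∃ v', (inl v' : V' ⊕ R) ∈ s) (fun r => inr r ∈ s)} ↔
          ((Q.graft G').hf (inl (inr t, b))).1 ∈ s := by
        intro b
        rw [Env.graft_hf_inr, Env.graft_hf_inr]
        rcases hz : Q.use (inl (t, b)) with x | p
        · rw [Env.usehf_inl hz, Env.usehf_inl hz]
          exact (hP _).symm
        · rw [Env.usehf_inr hz, Env.usehf_inr hz]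
          exact Iff.rfl
      rw [h3, h3]
      exact hs (inr t))
  rcases h2 with h2 | h2
  · left
    ext w
    simp only [Set.mem_empty_iff_false, iff_false]
    rcases w with v' | r
    · rw [hP v']
      obtain ⟨v⟩ := (inferInstance : Nonempty V)
      intro h3
      have : (inl v : V ⊕ R) ∈ ({w | w.elim (fun _ => ∃ v', (inl v' : V' ⊕ R) ∈ s)
          (fun r => inr r ∈ s)} : Set (V ⊕ R)) := h3
      rw [h2] at this
      exact this
    · intro h3
      have : (inr r : V ⊕ R) ∈ ({w | w.elim (fun _ => ∃ v', (inl v' : V' ⊕ R) ∈ s)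
          (fun r => inr r ∈ s)} : Set (V ⊕ R)) := h3
      rw [h2] at this
      exact this
  · right
    ext w
    simp only [Set.mem_univ, iff_true]
    rcases w with v' | r
    · rw [hP v']
      obtain ⟨v⟩ := (inferInstance : Nonempty V)
      have : (inl v : V ⊕ R) ∈ ({w | w.elim (fun _ => ∃ v', (inl v' : V' ⊕ R) ∈ s)
          (fun r => inr r ∈ s)} : Set (V ⊕ R)) := by
        rw [h2]
        exact Set.mem_univ _
      exact this
    · have : (inr r : V ⊕ R) ∈ ({w | w.elim (fun _ => ∃ v', (inl v' : V' ⊕ R) ∈ s)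
          (fun r => inr r ∈ s)} : Set (V ⊕ R)) := by
        rw [h2]
        exact Set.mem_univ _
      exact this

/-- the composed environment -/
def comp (W : Env R' T' M L) (r : R → ℕ × Multiset ℕ) (u : (T × Bool) ⊕ N → L ⊕ R × ℕ) :
    Env (R' ⊕ R) (T' ⊕ T) M N :=
  let w : (T × Bool) ⊕ N → M ⊕ ((R' ⊕ R) × ℕ) := fun z => (u z).elim
    (fun l => (W.use (inr l)).map id (Prod.map inl id)) (fun p => inr (inr p.1, p.2))
  ⟨Sum.elim W.dec r, Sum.elim (fun y => y.1.elim
    (fun t' => (W.use (inl (t', y.2))).map id (Prod.map inl id)) fun t => w (inl (t, y.2)))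
      fun i => w (inr i), W.b⟩

lemma comp_use_old (W : Env R' T' M L) (r : R → ℕ × Multiset ℕ)
    (u : (T × Bool) ⊕ N → L ⊕ R × ℕ) (t' : T') (b : Bool) :
    (comp W r u).use (inl (inl t', b)) = (W.use (inl (t', b))).map id (Prod.map inl id) := rfl

lemma comp_use_lf (W : Env R' T' M L) (r : R → ℕ × Multiset ℕ)
    (u : (T × Bool) ⊕ N → L ⊕ R × ℕ) (z : (T × Bool) ⊕ N) :
    (comp W r u).use (lf T' z) = (u z).elim
    (fun l => (W.use (inr l)).map id (Prod.map inl id)) (fun p => inr (inr p.1, p.2)) := by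
  rcases z with ⟨t, b⟩ | n <;> rfl

lemma map_eq_inl {W : Env R' T' M L} {y : (T' × Bool) ⊕ L} {x : M} :
    ((W.use y).map id (Prod.map inl id) : M ⊕ ((R' ⊕ R) × ℕ)) = inl x ↔ W.use y = inl x := by
  rcases W.use y with a | p <;> simp

lemma comp_mem (W : Env R' T' M L) (r : R → ℕ × Multiset ℕ) {u : (T × Bool) ⊕ N → L ⊕ R × ℕ}
    (hu : ∀ x, ∃! y, u y = inl x) (x : M) :
    inl x ∈ Set.range (comp W r u).use ↔ inl x ∈ Set.range W.use := by
  constructor
  · rintro ⟨y, hy⟩
    rcases cases_lf y with ⟨e, b, rfl⟩ | ⟨z, rfl⟩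
    · rw [comp_use_old, map_eq_inl] at hy
      exact ⟨_, hy⟩
    · rw [comp_use_lf] at hy
      rcases hz : u z with l | p
      · rw [hz, Sum.elim_inl, map_eq_inl] at hy
        exact ⟨_, hy⟩
      · rw [hz] at hy
        simp at hy
  · rintro ⟨y, hy⟩
    rcases y with ⟨t', b⟩ | l
    · exact ⟨inl (inl t', b), by rw [comp_use_old, map_eq_inl]; exact hy⟩
    · refine ⟨lf T' (hu l).choose, ?_⟩
      rw [comp_use_lf, em_spec hu l, Sum.elim_inl, map_eq_inl]
      exact hy

lemma comp_inj (W : Env R' T' M L) (r : R → ℕ × Multiset ℕ) {u : (T × Bool) ⊕ N → L ⊕ R × ℕ}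
    (hu : ∀ x, ∃! y, u y = inl x)
    (hW : ∀ y z x, W.use y = inl x → W.use z = inl x → y = z) :
    ∀ y z x, (comp W r u).use y = inl x → (comp W r u).use z = inl x → y = z := by
  intro y z x hy hz
  rcases cases_lf y with ⟨e, b, rfl⟩ | ⟨y, rfl⟩
  · rw [comp_use_old, map_eq_inl] at hy
    rcases cases_lf z with ⟨e', b', rfl⟩ | ⟨z, rfl⟩
    · rw [comp_use_old, map_eq_inl] at hz
      have := hW _ _ _ hy hz
      simp only [inl.injEq, Prod.mk.injEq] at this
      rw [this.1, this.2]
    · rw [comp_use_lf] at hz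
      rcases hz' : u z with l | p
      · rw [hz', Sum.elim_inl, map_eq_inl] at hz
        have := hW _ _ _ hy hz
        simp at this
      · rw [hz'] at hz
        simp at hz
  · rw [comp_use_lf] at hy
    rcases hy' : u y with l | p
    · rw [hy', Sum.elim_inl, map_eq_inl] at hy
      rcases cases_lf z with ⟨e', b', rfl⟩ | ⟨z, rfl⟩
      · rw [comp_use_old, map_eq_inl] at hz
        have := hW _ _ _ hy hz
        simp at this
      · rw [comp_use_lf] at hz
        rcases hz' : u z with l' | p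
        · rw [hz', Sum.elim_inl, map_eq_inl] at hz
          have := hW _ _ _ hy hz
          simp only [inr.injEq] at this
          subst this
          rw [(hu l).unique hy' hz']
        · rw [hz'] at hz
          simp at hz
    · rw [hy'] at hy
      simp at hy

lemma comp_unused (W : Env R' T' M L) (r : R → ℕ × Multiset ℕ)
    {u : (T × Bool) ⊕ N → L ⊕ R × ℕ} (hu : ∀ x, ∃! y, u y = inl x) (G : Gr V E M) (v : V) :
    (comp W r u).unused G v = W.unused G v := by
  unfold Env.unused
  apply finsum_congr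
  intro x
  rw [comp_mem W r hu x]
  rfl

/-- associativity -/
lemma assoc {g d : ℕ} {s : Q.Fn N} (hs : Q.Tr g d s) (W : Env R' T' M L)
    (r : R → ℕ × Multiset ℕ) {u : (T × Bool) ⊕ N → L ⊕ R × ℕ} (hu : ∀ x, ∃! y, u y = inl x)
    (G : Gr V E M) :
    s _ _ (big (W.graft G) r u).dec (big (W.graft G) r u).hf =
      s _ _ ((comp W r u).graft G).dec ((comp W r u).graft G).hf := by
  apply iso_s hs _ _ (Equiv.sumAssoc V R' R) (Equiv.sumAssoc E T' T)
    (Equiv.bijective _) (Equiv.bijective _)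
  · rintro ((v | r') | x)
    · show ((comp W r u).graft G).dec (inl v) = (W.graft G).dec (inl v)
      rw [Env.graft_dec_inl, Env.graft_dec_inl, comp_unused W r hu]
    · rfl
    · rfl
  · intro y
    rcases cases_lf y with ⟨e | t', b, rfl⟩ | ⟨z, rfl⟩
    · rfl
    · show (comp W r u).usehf G (inl (inl t', b)) =
        ((W.usehf G (inl (t', b))).map inl id).map (Equiv.sumAssoc V R' R) id
      rcases hz : W.use (inl (t', b)) with x | p
      · have h1 : (comp W r u).use (inl (inl t', b)) = inl x := by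
          rw [comp_use_old, hz]; rfl
        rw [Env.usehf_inl hz, Env.usehf_inl h1]
        rfl
      · have h1 : (comp W r u).use (inl (inl t', b)) = inr (inl p.1, p.2) := by
          rw [comp_use_old, hz]; rfl
        rw [Env.usehf_inr hz, Env.usehf_inr h1]
        rfl
    · have h0 : (lf (E ⊕ T') z).map (Prod.map (Equiv.sumAssoc E T' T) id) id =
          lft E (lf T' z) := by
        rcases z with ⟨t, b⟩ | n <;> rfl
      rw [h0, graft_hf_lft, big_hf_lf]
      rcases hz : u z with l | p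
      · rw [Sum.elim_inl]
        have h2 : (W.graft G).hf (inr l) = W.usehf G (inr l) := rfl
        rw [h2]
        rcases hl : W.use (inr l) with x | p
        · have h1 : (comp W r u).use (lf T' z) = inl x := by
            rw [comp_use_lf, hz, Sum.elim_inl, hl]; rfl
          rw [Env.usehf_inl hl, Env.usehf_inl h1]
          rfl
        · have h1 : (comp W r u).use (lf T' z) = inr (inl p.1, p.2) := by
            rw [comp_use_lf, hz, Sum.elim_inl, hl]; rfl
          rw [Env.usehf_inr hl, Env.usehf_inr h1]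
          rfl
      · have h1 : (comp W r u).use (lf T' z) = inr (inr p.1, p.2) := by
          rw [comp_use_lf, hz]; rfl
        rw [Env.usehf_inr h1]
        rfl

/-- transfer of validity -/
lemma transfer [Finite L] [Finite M] [Finite R'] [Finite T'] {g γ : ℕ} {γ' : ℕ}
    (W : Env R' T' M L)
    (r : R → ℕ × Multiset ℕ) {u : (T × Bool) ⊕ N → L ⊕ R × ℕ} (hu : ∀ x, ∃! y, u y = inl x)
    (G : Gr V E M) (G' : Gr V' E' M) [Finite V] [Finite E] [Finite V'] [Finite E']
    (hG : G.Stab γ') (hG' : G'.Stab γ')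
    (h : (W.graft G).Valid γ) (hb : (big (W.graft G') r u).Valid g) :
    (W.graft G').Valid γ := by
  have := Fintype.ofFinite V
  have := Fintype.ofFinite V'
  have := Fintype.ofFinite R'
  have hne : Nonempty V := hG.1
  have hne' : Nonempty V' := hG'.1
  refine ⟨inferInstance, inferInstance, ⟨⟨inl hne'.some⟩, ?_, ?_, ?_⟩, ?_⟩
  · exact conn_graft W G G' hG'.2.1 h.2.2.1.2.1
  · have h1 := h.2.2.1.2.2.1
    have h2 := hG.2.2.1
    have h3 := hG'.2.2.1
    rw [finsum_eq_sum_of_fintype] at h1 h2 h3 ⊢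
    rw [Fintype.sum_sum_type] at h1 ⊢
    rw [Nat.card_sum, Nat.card_sum] at h1 ⊢
    have e1 : ∑ v, ((W.graft G).dec (inl v)).1 = ∑ v, (G.dec v).1 := rfl
    have e2 : ∑ v, ((W.graft G').dec (inl v)).1 = ∑ v, (G'.dec v).1 := rfl
    have e3 : ∑ v, ((W.graft G).dec (inr v)).1 = ∑ v, ((W.graft G').dec (inr v)).1 := rfl
    omega
  · intro w
    have h1 := hb.2.2.1.2.2.2 (inl w)
    rw [nv_big _ r hu] at h1
    exact h1
  · intro w
    have h1 := hb.2.2.2 (inl w)
    rw [nv_big _ r hu, ← degAt_eq, degAt_big _ r hu, degAt_eq] at h1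
    exact h1

/-- the relations -/
theorem rel_res {g d γ e : ℕ} {s : Q.Fn N} (hs : Q.Pix g d s) [Finite N] [Finite L] [Finite R]
    [Finite T] (r : R → ℕ × Multiset ℕ) (u : (T × Bool) ⊕ N → L ⊕ R × ℕ)
    (hu : ∀ x, ∃! y, u y = inl x) (ht : Q.Tr γ e (Q.res γ e s r u)) :
    Q.Pix γ e (Q.res γ e s r u) := by
  rw [Pix_iff] at hs ⊢
  obtain ⟨hs, hrel⟩ := hs
  refine ⟨ht, ?_⟩
  intro R' T' M W A γ' e' hR' hT' hM hW hA hg
  by_cases hex : ∃ p ∈ supp γ' A e', wt p.2.2 γ' A e' ≠ 0 ∧
      Q.Valid (W.graft p.2.2).dec (W.graft p.2.2).hf γ e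
  · obtain ⟨p, _, hp, hpv⟩ := hex
    rw [← hrel (R' ⊕ R) (T' ⊕ T) M (comp W r u) A γ' e' inferInstance inferInstance hM
      (comp_inj W r hu hW) hA hg]
    apply Finset.sum_congr rfl
    intro q _
    by_cases hq : wt q.2.2 γ' A e' = 0
    · rw [hq, zero_div, zero_mul, zero_mul]
    congr 1
    rw [← assoc hs W r hu q.2.2]
    unfold Q.res
    rw [R3B.ins_eq s (W.graft q.2.2) r u]
    split_ifs with hv
    · rfl
    · symm
      apply hs.1
      intro hb
      apply hv
      obtain ⟨p1, p2, _⟩ := wt_ne_zero hp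
      obtain ⟨q1, q2, _⟩ := wt_ne_zero hq
      rw [cValid_iff] at hpv hb ⊢
      refine ⟨transfer W r hu p.2.2 q.2.2 p1 q1 hpv.1 hb.1, ?_⟩
      have e1 := deg_graft W hW p.2.2
      have e2 := deg_graft W hW q.2.2
      have e3 : (W.graft p.2.2).deg = e := hpv.2
      change (W.graft q.2.2).deg = e
      omega
  · apply Finset.sum_eq_zero
    intro q hq
    by_cases h0 : wt q.2.2 γ' A e' = 0
    · rw [h0, zero_div, zero_mul]
    · have hv : ¬ Q.Valid (W.graft q.2.2).dec (W.graft q.2.2).hf γ e := fun hv =>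
        hex ⟨q, hq, h0, hv⟩
      unfold Q.res
      rw [if_neg hv, mul_zero]

/-- Block R1. -/
theorem r1 : Q.R1 := by
  intro g d γ e N L R T s r u hN hL hR hT hu hs
  exact rel_res hs r u hu (R1T.tr_res r u hu hs.1)

end Vale.Agent.P273.C1.R1B
end
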