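import Vale.Agent.P273.Bdl.B1
import Vale.Agent.P273.C1.RDefs

/-!
Block R2: in dimension `k` every class is supported on the boundary if `2g-2+n > 2k+2`.
-/

noncomputable section
namespace Vale.Agent.P273.C1.R2B
open Sum Vale.Agent.P273
open scoped Classical

variable {V E L : Type}

/-- A valid graph without edges has exactly one vertex. -/
lemma subsingleton_of_no_edge [IsEmpty E] {g : ℕ} {G : Gr V E L} (hG : G.Valid g) :
    Subsingleton V := by
  constructor
  intro v w
  have h := hG.2.2.1.2.1 {v} (fun e => isEmptyElim e)
  rcases h with h | h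
  · exact absurd h (Set.singleton_nonempty v).ne_empty
  · have hw : w ∈ ({v} : Set V) := by rw [h]; exact Set.mem_univ w
    exact (Set.mem_singleton_iff.1 hw).symm

theorem r2 : Q.R2 := by
  intro g d k L s hL hs hk hn h0
  have hlam : ∀ x, P g x → evl s x = 0 := fun x hx => evl_P hs hx
  funext V E a f
  by_cases hE : Nonempty E
  · exact h0 V E a f hE
  · rw [not_nonempty_iff] at hE
    by_cases hv : Q.Valid a f g d
    · obtain ⟨hG, hdeg⟩ := (cValid_iff _ _ _ _).1 hv
      have hV : Finite V := hG.1
      have := Fintype.ofFinite V
      have hsub := subsingleton_of_no_edge hG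
      obtain ⟨v⟩ : Nonempty V := hG.2.2.1.1
      have hun : (Finset.univ : Finset V) = {v} := by
        ext w
        simp [Subsingleton.elim w v]
      have h1 := sum_degAt (⟨a, f⟩ : Gr V E L)
      have h2 := sum_nv (⟨a, f⟩ : Gr V E L)
      have h3 := hG.2.2.1.2.2.1
      have hst := hG.2.2.1.2.2.2 v
      rw [finsum_eq_sum_of_fintype, hun, Finset.sum_singleton, Nat.card_eq_fintype_card (α := V),
        ← Finset.card_univ, hun, Finset.card_singleton] at h3
      rw [hun, Finset.sum_singleton] at h1 h2
      have hE0 : Nat.card E = 0 := Nat.card_of_isEmpty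
      rw [hE0] at h1 h2 h3
      have key : evl s (dl (⟨a, f⟩ : Gr V E L) 1) = 0 := by
        apply vertex_vanish hlam (⟨a, f⟩ : Gr V E L) v hst
        · intro V' E' G' _ _ _ h4
          have h5 : Nonempty E' := by
            by_contra hcon
            rw [not_nonempty_iff] at hcon
            rw [Nat.card_of_isEmpty (α := E')] at h4
            exact absurd h4 (Nat.not_lt_zero _)
          rw [evl_dl, h0 _ _ _ _ h5, mul_zero]
        · left
          omega
      rw [evl_dl, one_mul] at key
      exact key
    · exact hs.1.1 V E a f hv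

end Vale.Agent.P273.C1.R2B
end
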