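import Vale.Agent.P273.C1.Main
import Vale.Agent.P273.C1.Graph
import Vale.Agent.P273.C1.AB
import Vale.Agent.P273.C1.AB12
import Vale.Agent.P273.C1.BB
import Vale.Agent.P273.C1.C1
import Vale.Agent.P273.C1.C2
import Vale.Agent.P273.C1.D1ab
import Vale.Agent.P273.C1.D1cd
import Vale.Agent.P273.C1.D2
import Vale.Agent.P273.C1.D3a
import Vale.Agent.P273.C1.D3b
import Vale.Agent.P273.C1.D4a
import Vale.Agent.P273.C1.D4b
import Vale.Agent.P273.C1.DE
import Vale.Agent.P273.C1.DG0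
import Vale.Agent.P273.C1.DG1
import Vale.Agent.P273.C1.DG3
import Vale.Agent.P273.C1.DI
import Vale.Agent.P273.C1.DK
import Vale.Agent.P273.C1.E0
import Vale.Agent.P273.C1.E1
import Vale.Agent.P273.C1.E23
import Vale.Agent.P273.C1.E4
import Vale.Agent.P273.C1.R1
import Vale.Agent.P273.C1.R2
import Vale.Agent.P273.C1.R3

/-! Everything together. -/

noncomputable section
namespace Vale.Agent.P273.C1
open Sum Vale.Agent.P273
open scoped Classical

theorem graphAll : GraphPart :=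
  graphPart (d1c d1a) (d1d d1a d1b) d2 d3a d3b d4a (d4b d1a (d1c d1a))

theorem combAll : CombPart := combPart e0 e1 e2 e3 e4

theorem codegAll (g d n : ℕ) (h : d + 4 = 3 * g + n) (k : ℕ) (s : Fin k → Q.Fn (Q.Lg n))
    (hs : ∀ i, Q.Pix g d (s i)) (hli : LinearIndependent ℚ s) :
    k ≤ AC g n ∧ (k = AC g n → ∀ t : Q.Fn (Q.Lg n), Q.Pix g d t →
      ∃ c : Fin k → ℚ, t = ∑ i, c i • s i) :=
  codegree_one graphAll combAll c1mv c2keel (ab ab1 ab2) bb g d n h k s hs hli

theorem degAll (g : ℕ) : DegAt g :=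
  degAt de ds di dk (dg0 edge_form) (dg1 edge_form) (dg2 edge_form) dg3 g

theorem redAll : Q.R3 := Q.r3 R1B.r1 R2B.r2

end Vale.Agent.P273.C1
end
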