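import Vale.Agent.P273.C1.Defs

/-! Codegree one: the final assembly. -/

noncomputable section
namespace Vale.Agent.P273.C1
open Sum Vale.Agent.P273
open scoped Classical

variable {V E L T V' E' : Type}

/-- The values on graphs of kind A. -/
theorem W_lam (c1 : C1mv) (c2 : C2keel) [Finite L] {g : ℕ} {lam : F L →ₗ[ℚ] ℚ}
    (hlam : ∀ x, P g x → lam x = 0) :
    W (fun (V E : Type) (A : (E × Bool) ⊕ L → V) => lam (dl (cg A) 1)) where
  iso := by
    rintro V E V' E' A A' v0 v0' ⟨φ, ρ, h1, h2, -⟩ _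
    apply fl_iso hlam
    exact ⟨φ, ρ, φ.bijective, ρ.bijective, h1, fun v => rfl, fun y => Prod.ext (h2 y) rfl⟩
  mv := by
    rintro V E A A' v0 hA hA' ⟨e, h1, h2, h3, h4, h5, h6⟩
    have h7 : ∀ b, A (inl (e, b)) ≠ v0 := by
      intro b
      cases b
      · exact h3
      · exact h2
    exact c1 V E L g lam (fun _ => (0, 0)) A A' e hA.fV hA.fE inferInstance hlam h1 h4 h5 h6
      (fun _ => rfl) (fun b => hA.cub _ (h7 b)) (fun b => hA'.cub _ (h7 b))
  keel := by
    intro V E A v0 a b c d hA ha hb hc hd h1 h2 h3 h4 h5 h6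
    exact c2 V E L g lam A v0 a b c d hA.fV hA.fE inferInstance hlam hA.root ha hb hc hd
      h1 h2 h3 h4 h5 h6

lemma kindA_gd {g : ℕ} {G : Gr V E L} (hG : G.Valid g) (h : KindA G) :
    ∃ v0, Gd 4 (fun y => (G.hf y).1) v0 ∧ Nat.card E + 1 = g + Nat.card V ∧
      G = cg (fun y => (G.hf y).1) := by
  obtain ⟨hV, hE, ⟨hne, hconn, hgen, _⟩, _⟩ := hG
  obtain ⟨v0, h1, h2, h3, h4⟩ := h
  refine ⟨v0, ⟨hV, hE, h1, h3, hconn⟩, ?_, ?_⟩
  · have : ∑ᶠ v, (G.dec v).1 = 0 := by
      apply finsum_eq_zero_of_forall_eq_zero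
      intro v
      rw [h2]
    omega
  · apply Gr.ext'
    · intro v
      exact h2 v
    · intro y
      exact Prod.ext rfl (h4 y)

lemma not_kindB {G : Gr V E L} (hG : G.Valid 0) (h : KindB G) : False := by
  have := hG.1
  have := hG.2.1
  obtain ⟨v0, _, h2, _, _⟩ := h
  have h3 := hG.2.2.1.gen_le v0
  rw [h2] at h3
  omega

/-- Finitely many test graphs. -/
theorem core (gp : GraphPart) (cp : CombPart) (c1 : C1mv) (c2 : C2keel) (ab : AB) (bb : BB)
    (g : ℕ) (L : Type) [Finite L] :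
    ∃ (I : Type) (_ : Fintype I) (D : I → DG L), Fintype.card I ≤ AC g (Nat.card L) ∧
      ∀ lam : F L →ₗ[ℚ] ℚ, (∀ x, P g x → lam x = 0) → (∀ i, lam (dl (D i).G 1) = 0) →
        ∀ (V E : Type) (G : Gr V E L), G.deg + 4 = 3 * g + Nat.card L → lam (dl G 1) = 0 := by
  obtain ⟨X, hX⟩ := gp g L inferInstance
  obtain ⟨I, hI, t, hcard, ht⟩ := cp g L inferInstance
  -- the test for kind B
  let D1 : I → DG L := fun i =>
    ⟨(X (t i).1 (t i).2).1, (X (t i).1 (t i).2).2.1, cg (X (t i).1 (t i).2).2.2⟩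
  have hA : ∀ lam : F L →ₗ[ℚ] ℚ, (∀ x, P g x → lam x = 0) → (∀ i, lam (dl (D1 i).G 1) = 0) →
      ∀ (V E : Type) (G : Gr V E L), G.Valid g → KindA G → lam (dl G 1) = 0 := by
    intro lam hlam h1 V E G hG hk
    obtain ⟨h2, h3⟩ := hX _ (W_lam c1 c2 hlam)
    have h4 := ht _ h2 (by
      intro i
      split_ifs
      · exact h1 i
      · rfl)
    obtain ⟨v0, h5, h6, h7⟩ := kindA_gd hG hk
    obtain ⟨α, M, h8, h9, h10⟩ := h3 V E _ v0 h5 h6
    have h11 := h4 α M h8 h9
    rw [if_pos ⟨h8, h9⟩] at h11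
    rw [h7]
    exact h10.trans h11
  by_cases hB : ∃ D : DG L, D.G.Valid g ∧ KindB D.G
  · obtain ⟨D0, hD0, hk0⟩ := hB
    have hg : g ≠ 0 := by
      rintro rfl
      exact not_kindB hD0 hk0
    refine ⟨Option I, inferInstance, fun i => i.elim D0 D1, ?_, ?_⟩
    · rw [Fintype.card_option]
      have : min g 1 = 1 := by omega
      omega
    · intro lam hlam h V E G hG
      apply ab g L lam inferInstance hlam (hA lam hlam (fun i => h (some i))) _ V E G hG
      intro V E G hG hk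
      rw [bb g L lam inferInstance hlam V E D0.V D0.E G D0.G hG hD0 hk hk0]
      exact h none
  · refine ⟨I, hI, D1, by omega, ?_⟩
    intro lam hlam h V E G hG
    apply ab g L lam inferInstance hlam (hA lam hlam h) _ V E G hG
    intro V E G hG hk
    exact absurd ⟨⟨V, E, G⟩, hG, hk⟩ hB

lemma card_Lg : ∀ n : ℕ, Finite (Q.Lg n) ∧ Nat.card (Q.Lg n) = n := by
  intro n
  induction n with
  | zero =>
    change Finite Empty ∧ Nat.card Empty = 0
    exact ⟨inferInstance, by simp⟩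
  | succ n ih =>
    have := ih.1
    change Finite (Option (Q.Lg n)) ∧ Nat.card (Option (Q.Lg n)) = n + 1
    exact ⟨inferInstance, by rw [Finite.card_option, ih.2]⟩

/-- The functionals satisfying Pixton's relations in degree `3g-4+n` are determined by their
values on `AC g n` decorated graphs. -/
theorem final (gp : GraphPart) (cp : CombPart) (c1 : C1mv) (c2 : C2keel) (ab : AB) (bb : BB)
    (g d n : ℕ) (h : d + 4 = 3 * g + n) :
    ∃ (I : Type) (_ : Fintype I) (D : I → DG (Q.Lg n)), Fintype.card I ≤ AC g n ∧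
      ∀ s : Q.Fn (Q.Lg n), Q.Pix g d s →
        (∀ i, s (D i).V (D i).E (D i).G.dec (D i).G.hf = 0) → s = 0 := by
  have hL := (card_Lg n).1
  obtain ⟨I, hI, D, h1, h2⟩ := core gp cp c1 c2 ab bb g (Q.Lg n)
  rw [(card_Lg n).2] at h1 h2
  refine ⟨I, hI, D, h1, ?_⟩
  intro s hs h3
  have h4 := h2 (evl s) (fun x hx => evl_P hs hx) (fun i => by rw [evl_dl, h3, mul_zero])
  funext V E a f
  change s V E a f = 0
  by_contra hne
  have h5 : Q.Valid a f g d := by
    by_contra hv
    exact hne (hs.1.1 _ _ _ _ hv)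
  rw [cValid_iff] at h5
  have h6 := h4 V E ⟨a, f⟩ (by omega)
  rw [evl_dl, one_mul] at h6
  exact hne h6

lemma fd_evl {g d : ℕ} {s : Q.Fn L} (hs : Q.Pix g d s) : fd d (evl s) = s := by
  funext V E a f
  by_cases h : (⟨a, f⟩ : Gr V E L).deg = d
  · refine (fd_of (evl s) ⟨a, f⟩ h).trans ?_
    rw [evl_dl, one_mul]
  · refine (fd_not (evl s) ⟨a, f⟩ h).trans ?_
    symm
    apply hs.1.1
    rw [cValid_iff]
    exact fun h' => h h'.2

/-- Linear combinations satisfy Pixton's relations. -/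
lemma Pix_sum [Finite L] {g d k : ℕ} (s : Fin k → Q.Fn L) (c : Fin k → ℚ)
    (hs : ∀ i, Q.Pix g d (s i)) : Q.Pix g d (∑ i, c i • s i) := by
  have h1 : (∑ i, c i • s i) = fd d (∑ i, c i • evl (s i)) := by
    funext V E a f
    have h2 : (∑ i, c i • s i) V E a f = ∑ i, c i * s i V E a f := by
      simp only [Finset.sum_apply, Pi.smul_apply, smul_eq_mul]
    rw [h2]
    by_cases h : (⟨a, f⟩ : Gr V E L).deg = d
    · rw [show fd d (∑ i, c i • evl (s i)) V E a f = _ from fd_of _ ⟨a, f⟩ h]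
      rw [LinearMap.sum_apply]
      apply Finset.sum_congr rfl
      intro i _
      rw [LinearMap.smul_apply, evl_dl, one_mul, smul_eq_mul]
    · rw [show fd d (∑ i, c i • evl (s i)) V E a f = _ from fd_not _ ⟨a, f⟩ h]
      apply Finset.sum_eq_zero
      intro i _
      rw [(hs i).1.1 _ _ a f, mul_zero]
      rw [cValid_iff]
      exact fun h' => h h'.2
  rw [h1]
  apply Pix_fd
  intro x hx
  rw [LinearMap.sum_apply]
  apply Finset.sum_eq_zero
  intro i _
  rw [LinearMap.smul_apply, evl_P (hs i) hx, smul_zero]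

/-- Linear algebra: few tests give few independent functionals. -/
theorem few {g d n : ℕ} {I : Type} [Fintype I] (D : I → DG (Q.Lg n))
    (hD : ∀ s : Q.Fn (Q.Lg n), Q.Pix g d s →
        (∀ i, s (D i).V (D i).E (D i).G.dec (D i).G.hf = 0) → s = 0)
    (k : ℕ) (s : Fin k → Q.Fn (Q.Lg n)) (hs : ∀ i, Q.Pix g d (s i))
    (hli : LinearIndependent ℚ s) : k ≤ Fintype.card I := by
  let ev : Q.Fn (Q.Lg n) →ₗ[ℚ] (I → ℚ) :=
    { toFun := fun s i => s (D i).V (D i).E (D i).G.dec (D i).G.hf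
      map_add' := fun s t => rfl
      map_smul' := fun c s => rfl }
  have h1 : LinearIndependent ℚ (ev ∘ s) := by
    rw [Fintype.linearIndependent_iff]
    intro c hc
    rw [Fintype.linearIndependent_iff] at hli
    apply hli c
    have := (card_Lg n).1
    apply hD _ (Pix_sum s c hs)
    intro i
    have h2 := congrFun hc i
    have h3 : ev (∑ j, c j • s j) i = 0 := by
      rw [map_sum]
      simpa using h2
    exact h3
  have h2 := h1.fintype_card_le_finrank
  rw [Module.finrank_fintype_fun_eq_card, Fintype.card_fin] at h2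
  exact h2

/-- The dimension bound and completeness in degree `3g-4+n`. -/
theorem codegree_one (gp : GraphPart) (cp : CombPart) (c1 : C1mv) (c2 : C2keel) (ab : AB) (bb : BB)
    (g d n : ℕ) (h : d + 4 = 3 * g + n) (k : ℕ) (s : Fin k → Q.Fn (Q.Lg n))
    (hs : ∀ i, Q.Pix g d (s i)) (hli : LinearIndependent ℚ s) :
    k ≤ AC g n ∧ (k = AC g n → ∀ t : Q.Fn (Q.Lg n), Q.Pix g d t →
      ∃ c : Fin k → ℚ, t = ∑ i, c i • s i) := by
  obtain ⟨I, hI, D, h1, h2⟩ := final gp cp c1 c2 ab bb g d n h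
  refine ⟨(few D h2 k s hs hli).trans h1, ?_⟩
  intro hk t ht
  by_contra hcon
  have h3 : LinearIndependent ℚ (Fin.cons t s : Fin (k + 1) → Q.Fn (Q.Lg n)) := by
    rw [linearIndependent_finCons]
    refine ⟨hli, ?_⟩
    intro hmem
    rw [Submodule.mem_span_range_iff_exists_fun] at hmem
    obtain ⟨c, hc⟩ := hmem
    exact hcon ⟨c, hc.symm⟩
  have h4 := (few D h2 (k + 1) _ (Fin.cases ht hs) h3).trans h1
  omega

end Vale.Agent.P273.C1
end
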