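import Vale.Agent.P273.C1.Defs

/-!
Degree one: definitions and the statements of the blocks.
Everything here is a definition.
-/

noncomputable section
namespace Vale.Agent.P273.C1
open Sum Vale.Agent.P273
open scoped Classical

variable {V E L : Type}

/-- One vertex of genus `γ` with one loop. -/
def lp1 (γ : ℕ) : Gr (Fin 1) (Fin 1) L := ⟨fun _ => (γ, 0), fun _ => (0, 0)⟩

/-- Two vertices joined by an edge: the vertex `1` has genus `h` and carries the legs `x` with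
`ε x`, the vertex `0` has genus `g - h` and carries the other legs. -/
def pt2g (g h : ℕ) (ε : L → Bool) : Gr (Fin 2) (Fin 1) L :=
  ⟨fun v => if v = 1 then (h, 0) else (g - h, 0),
    Sum.elim (fun y => (if y.2 then 1 else 0, 0)) (fun x => (if ε x then 1 else 0, 0))⟩

/-- Block DE: every graph of degree one is one of these. -/
def DE : Prop := ∀ (g : ℕ) (L : Type) (lam : F L →ₗ[ℚ] ℚ), Finite L → (∀ x, P g x → lam x = 0) →
  lam (dl (pt1 g {1} (fun _ => 0)) 1) = 0 →
  (∀ x, lam (dl (pt1 g 0 (fun y => if y = x then 1 else 0)) 1) = 0) →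
  (0 < g → lam (dl (lp1 (g - 1)) 1) = 0) →
  (∀ h ≤ g, ∀ ε, lam (dl (pt2g g h ε) 1) = 0) →
  ∀ (V E : Type) (G : Gr V E L), G.deg = 1 → lam (dl G 1) = 0

/-- Block DS: symmetry and stability. -/
def DS : Prop := ∀ (g : ℕ) (L : Type) (lam : F L →ₗ[ℚ] ℚ), Finite L → (∀ x, P g x → lam x = 0) →
  ∀ h ≤ g, ∀ ε : L → Bool,
    lam (dl (pt2g g (g - h) (fun x => !ε x)) 1) = lam (dl (pt2g g h ε) 1) ∧
    (h = 0 → Nat.card {x // ε x = true} ≤ 1 → lam (dl (pt2g g h ε) 1) = 0)

/-- Block DI: if the boundary classes vanish then: in genus 0 and 1 everything vanishes, in genus 2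
the kappa class is a combination of the psi classes. -/
def DI : Prop := ∀ (g : ℕ) (L : Type) (lam : F L →ₗ[ℚ] ℚ), Finite L → 2 < 2 * g + Nat.card L →
  (∀ x, P g x → lam x = 0) →
  (∀ (V E : Type) (G : Gr V E L), Nonempty E → G.deg = 1 → lam (dl G 1) = 0) →
  (g ≤ 1 → ∀ (V E : Type) (G : Gr V E L), G.deg = 1 → lam (dl G 1) = 0) ∧
  (g = 2 → (∀ x, lam (dl (pt1 g 0 (fun y => if y = x then 1 else 0)) 1) = 0) →
    lam (dl (pt1 g {1} (fun _ => 0)) 1) = 0)

/-- Block DK: in genus 0, `2 (ψ_i + ψ_j)` is the sum of all boundary divisors that separate `i` and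
`j`, over ordered splittings. -/
def DK : Prop := ∀ (L : Type) [Fintype L] (lam : F L →ₗ[ℚ] ℚ), 4 ≤ Nat.card L →
  (∀ x, P 0 x → lam x = 0) → ∃ ψ : L → ℚ, ∀ i j, i ≠ j → 2 * (ψ i + ψ j) =
    ∑ ε : L → Bool, if 2 ≤ (Finset.univ.filter (fun x => ε x = true)).card ∧
      2 ≤ (Finset.univ.filter (fun x => ε x = false)).card ∧ ε i ≠ ε j
      then lam (dl (pt2g 0 0 ε) 1) else 0

/-- The degree one statement in genus `g`. -/
def DegAt (g : ℕ) : Prop := ∀ L : Type, Finite L → 2 < 2 * g + Nat.card L →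
  ∃ (I : Type) (_ : Fintype I) (D : I → DG L), Fintype.card I ≤ AC g (Nat.card L) ∧
    ∀ lam : F L →ₗ[ℚ] ℚ, (∀ x, P g x → lam x = 0) → (∀ i, lam (dl (D i).G 1) = 0) →
      ∀ (V E : Type) (G : Gr V E L), G.deg = 1 → lam (dl G 1) = 0

/-- Genus zero. -/
def DG0 : Prop := DE → DS → DI → DK → DegAt 0
/-- Genus one. -/
def DG1 : Prop := DE → DS → DI → DegAt 1
/-- Genus two. -/
def DG2 : Prop := DE → DS → DI → DegAt 2
/-- Genus at least three. -/
def DG3 : Prop := DE → DS → ∀ g, 3 ≤ g → DegAt g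

end Vale.Agent.P273.C1
end
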