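import Vale.Agent.P273.C1.DDefs

/-!
Block DG0: degree one in genus zero.
-/

noncomputable section
namespace Vale.Agent.P273.C1
open Sum Vale.Agent.P273
open scoped Classical

namespace DG0

/-- The graphs of degree one with an edge. -/
def EForm : Prop := ∀ (g : ℕ) (L : Type) (lam : F L →ₗ[ℚ] ℚ), Finite L →
  (∀ x, P g x → lam x = 0) →
  (0 < g → lam (dl (lp1 (g - 1)) 1) = 0) →
  (∀ h ≤ g, ∀ ε, lam (dl (pt2g g h ε) 1) = 0) →
  ∀ (V E : Type) (G : Gr V E L), Nonempty E → G.deg = 1 → lam (dl G 1) = 0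

variable {L : Type}

/-- The number of legs at the vertex `1`. -/
def mt [Fintype L] (ε : L → Bool) : ℕ := (Finset.univ.filter (fun x => ε x = true)).card

/-- The number of legs at the vertex `0`. -/
def mf [Fintype L] (ε : L → Bool) : ℕ := (Finset.univ.filter (fun x => ε x = false)).card

/-- The indicator of a pair. -/
def pr (i j : L) (x : L) : Bool := decide (x = i ∨ x = j)

lemma mt_add_mf [Fintype L] (ε : L → Bool) : mt ε + mf ε = Fintype.card L := by
  unfold mt mf
  have h := Finset.card_filter_add_card_filter_not (s := (Finset.univ : Finset L))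
    (fun x => ε x = true)
  have h2 : (Finset.univ.filter (fun x => ¬ ε x = true)) =
      (Finset.univ.filter (fun x => ε x = false)) := by
    ext x; simp
  rw [h2] at h
  rw [h, Finset.card_univ]

lemma mt_not [Fintype L] (ε : L → Bool) : mt (fun x => !ε x) = mf ε := by
  unfold mt mf
  congr 1
  ext x
  simp

lemma mf_not [Fintype L] (ε : L → Bool) : mf (fun x => !ε x) = mt ε := by
  unfold mt mf
  congr 1
  ext x
  simp

lemma mt_two [Fintype L] {ε : L → Bool} {i j : L} (hij : i ≠ j) (h : mt ε = 2)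
    (hi : ε i = true) (hj : ε j = true) : ε = pr i j := by
  have h1 : ({i, j} : Finset L) ⊆ Finset.univ.filter (fun x => ε x = true) := by
    intro x hx
    simp only [Finset.mem_insert, Finset.mem_singleton] at hx
    rcases hx with rfl | rfl <;> simp [hi, hj]
  have h2 : ({i, j} : Finset L) = Finset.univ.filter (fun x => ε x = true) := by
    apply Finset.eq_of_subset_of_card_le h1
    rw [Finset.card_pair hij]
    exact h.le
  funext x
  have h3 : x ∈ ({i, j} : Finset L) ↔ ε x = true := by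
    rw [h2]; simp
  simp only [Finset.mem_insert, Finset.mem_singleton] at h3
  unfold pr
  cases hx : ε x
  · rw [hx] at h3
    simp only [Bool.false_eq_true, iff_false] at h3
    simp [h3]
  · rw [hx] at h3
    simp only [iff_true] at h3
    simp [h3]

lemma mt_pr [Fintype L] {i j : L} (hij : i ≠ j) : mt (pr i j) = 2 := by
  unfold mt
  have : (Finset.univ.filter (fun x => pr i j x = true)) = {i, j} := by
    ext x; simp [pr]
  rw [this, Finset.card_pair hij]

lemma exists_pr [Fintype L] {ε : L → Bool} (h : mt ε = 2) : ∃ i j, i ≠ j ∧ ε = pr i j := by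
  obtain ⟨i, j, hij, he⟩ := Finset.card_eq_two.1 h
  refine ⟨i, j, hij, mt_two hij h ?_ ?_⟩
  · have : i ∈ Finset.univ.filter (fun x => ε x = true) := by rw [he]; simp
    simpa using this
  · have : j ∈ Finset.univ.filter (fun x => ε x = true) := by rw [he]; simp
    simpa using this

/-- The sum over the pairs. -/
lemma sum_pairs [Fintype L] (f : (L → Bool) → ℚ) {i j : L} (hij : i ≠ j) :
    (∑ ε : L → Bool, if mt ε = 2 ∧ ε i ≠ ε j then f ε else 0) =
      (∑ ε : L → Bool, if mt ε = 2 ∧ ε i = true then f ε else 0) +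
      (∑ ε : L → Bool, if mt ε = 2 ∧ ε j = true then f ε else 0) - 2 * f (pr i j) := by
  have h1 : f (pr i j) = ∑ ε : L → Bool, if mt ε = 2 ∧ ε i = true ∧ ε j = true then f ε else 0 := by
    rw [Finset.sum_eq_single (pr i j)]
    · rw [if_pos]
      exact ⟨mt_pr hij, by simp [pr], by simp [pr]⟩
    · intro ε _ hne
      rw [if_neg]
      rintro ⟨h1, h2, h3⟩
      exact hne (mt_two hij h1 h2 h3)
    · intro h
      exact absurd (Finset.mem_univ _) h
  rw [h1, Finset.mul_sum, ← Finset.sum_add_distrib, ← Finset.sum_sub_distrib]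
  refine Finset.sum_congr rfl fun ε _ => ?_
  by_cases h2 : mt ε = 2
  · cases h3 : ε i <;> cases h4 : ε j <;> simp [h2]
    ring
  · simp [h2]

/-- The involution. -/
lemma sum_not [Fintype L] (F : (L → Bool) → ℚ) :
    ∑ ε : L → Bool, F (fun x => !ε x) = ∑ ε : L → Bool, F ε := by
  refine Fintype.sum_bijective (fun ε : L → Bool => fun x => !ε x) ?_ _ _ fun _ => rfl
  refine Function.Involutive.bijective fun ε => ?_
  funext x
  simp

/-- The relation between the divisors with two legs on one side. -/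
lemma pair_rel [Fintype L] (f : (L → Bool) → ℚ) (h4 : 4 ≤ Fintype.card L)
    (hsym : ∀ ε, f (fun x => !ε x) = f ε)
    (hz : ∀ ε, 3 ≤ mt ε → 3 ≤ mf ε → f ε = 0)
    (hK : ∃ ψ : L → ℚ, ∀ i j, i ≠ j → 2 * (ψ i + ψ j) =
      ∑ ε : L → Bool, if 2 ≤ mt ε ∧ 2 ≤ mf ε ∧ ε i ≠ ε j then f ε else 0) :
    ∃ (c : ℚ) (u : L → ℚ), c ≠ 0 ∧ ∀ i j, i ≠ j → c * f (pr i j) = u i + u j := by
  obtain ⟨ψ, hψ⟩ := hK
  have hA : ∀ i j, i ≠ j →
      (∑ ε : L → Bool, if mt ε = 2 ∧ ε i ≠ ε j then f ε else 0) =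
        (∑ ε : L → Bool, if mt ε = 2 ∧ ε i = true then f ε else 0) +
        (∑ ε : L → Bool, if mt ε = 2 ∧ ε j = true then f ε else 0) - 2 * f (pr i j) :=
    fun i j hij => sum_pairs f hij
  by_cases h5 : Fintype.card L = 4
  · refine ⟨2, fun i => (∑ ε : L → Bool, if mt ε = 2 ∧ ε i = true then f ε else 0) - 2 * ψ i,
      by norm_num, fun i j hij => ?_⟩
    have h1 := hψ i j hij
    have h2 : (∑ ε : L → Bool, if 2 ≤ mt ε ∧ 2 ≤ mf ε ∧ ε i ≠ ε j then f ε else 0) =
        ∑ ε : L → Bool, if mt ε = 2 ∧ ε i ≠ ε j then f ε else 0 := by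
      refine Finset.sum_congr rfl fun ε _ => ?_
      have h3 := mt_add_mf ε
      congr 1
      apply propext
      constructor
      · rintro ⟨h6, h7, h8⟩
        exact ⟨by omega, h8⟩
      · rintro ⟨h6, h8⟩
        exact ⟨by omega, by omega, h8⟩
    rw [h2, hA i j hij] at h1
    linarith
  · refine ⟨4, fun i => 2 * (∑ ε : L → Bool, if mt ε = 2 ∧ ε i = true then f ε else 0) - 2 * ψ i,
      by norm_num, fun i j hij => ?_⟩
    have h1 := hψ i j hij
    have h2 : (∑ ε : L → Bool, if 2 ≤ mt ε ∧ 2 ≤ mf ε ∧ ε i ≠ ε j then f ε else 0) =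
        (∑ ε : L → Bool, if mt ε = 2 ∧ ε i ≠ ε j then f ε else 0) +
        ∑ ε : L → Bool, if mf ε = 2 ∧ ε i ≠ ε j then f ε else 0 := by
      rw [← Finset.sum_add_distrib]
      refine Finset.sum_congr rfl fun ε _ => ?_
      have h3 := mt_add_mf ε
      by_cases h6 : ε i ≠ ε j
      · by_cases h7 : mt ε = 2
        · have h8 : ¬ (mf ε = 2) := by omega
          have h9 : 2 ≤ mf ε := by omega
          simp [h6, h7, h8, h9]
        · by_cases h8 : mf ε = 2
          · have h9 : 2 ≤ mt ε := by omega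
            simp [h6, h7, h8, h9]
          · by_cases h9 : 2 ≤ mt ε ∧ 2 ≤ mf ε
            · rw [hz ε (by omega) (by omega)]
              simp
            · rw [if_neg (fun h => h9 ⟨h.1, h.2.1⟩)]
              simp [h7, h8]
      · simp [h6]
    have h3 : (∑ ε : L → Bool, if mf ε = 2 ∧ ε i ≠ ε j then f ε else 0) =
        ∑ ε : L → Bool, if mt ε = 2 ∧ ε i ≠ ε j then f ε else 0 := by
      rw [← sum_not (fun ε => if mt ε = 2 ∧ ε i ≠ ε j then f ε else 0)]
      refine Finset.sum_congr rfl fun ε _ => ?_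
      simp only [mt_not, hsym]
      congr 1
      apply propext
      simp
    rw [h2, h3, hA i j hij] at h1
    linarith

/-- The tests for the divisors with two legs on one side. -/
def tp (a b c : L) (x : L) : L → Bool := if x = a then pr b c else pr a x

/-- All pairs vanish, at least five legs. -/
lemma pairs_five (f : (L → Bool) → ℚ) (a b c : L) (hab : a ≠ b) (hac : a ≠ c) (hbc : b ≠ c)
    (hR : ∃ (c : ℚ) (u : L → ℚ), c ≠ 0 ∧ ∀ i j, i ≠ j → c * f (pr i j) = u i + u j)
    (hT : ∀ x, f (tp a b c x) = 0) : ∀ i j, i ≠ j → f (pr i j) = 0 := by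
  obtain ⟨k, u, hk, hu⟩ := hR
  have h1 : f (pr b c) = 0 := by
    have h := hT a
    rwa [tp, if_pos rfl] at h
  have h2 : ∀ x, x ≠ a → f (pr a x) = 0 := by
    intro x hx
    have h := hT x
    rwa [tp, if_neg hx] at h
  have h3 := hu b c hbc
  have h4 : ∀ x, x ≠ a → u a + u x = 0 := by
    intro x hx
    rw [← hu a x hx.symm, h2 x hx, mul_zero]
  rw [h1, mul_zero] at h3
  have h5 := h4 b hab.symm
  have h6 := h4 c hac.symm
  have h7 : u a = 0 := by linarith
  have h8 : ∀ x, u x = 0 := by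
    intro x
    by_cases hx : x = a
    · rw [hx, h7]
    · have := h4 x hx
      linarith
  intro i j hij
  have h9 := hu i j hij
  rw [h8, h8, add_zero] at h9
  exact (mul_eq_zero.1 h9).resolve_left hk

/-- All pairs vanish, four legs. -/
lemma pairs_four (f : (L → Bool) → ℚ) (a b c d : L)
    (hL : ∀ x, x = a ∨ x = b ∨ x = c ∨ x = d) (hab : a ≠ b) (hac : a ≠ c) (had : a ≠ d)
    (hbc : b ≠ c) (hbd : b ≠ d) (hcd : c ≠ d)
    (hsym : ∀ ε, f (fun x => !ε x) = f ε)
    (hR : ∃ (c : ℚ) (u : L → ℚ), c ≠ 0 ∧ ∀ i j, i ≠ j → c * f (pr i j) = u i + u j)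
    (hT : f (pr a b) = 0) : ∀ i j, i ≠ j → f (pr i j) = 0 := by
  obtain ⟨k, u, hk, hu⟩ := hR
  have hc : ∀ p q r s : L, (∀ x, x = p ∨ x = q ∨ x = r ∨ x = s) → p ≠ q → p ≠ r → p ≠ s →
      q ≠ r → q ≠ s → r ≠ s → f (pr r s) = f (pr p q) := by
    intro p q r s h h1 h2 h3 h4 h5 h6
    rw [← hsym (pr p q)]
    congr 1
    funext x
    rcases h x with rfl | rfl | rfl | rfl <;> simp [pr, h1, h2, h3, h4, h5, h6, h1.symm, h2.symm,
      h3.symm, h4.symm, h5.symm, h6.symm]
  have e1 := hu a b hab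
  have e2 := hu c d hcd
  have e3 := hu a c hac
  have e4 := hu b d hbd
  have e5 := hu a d had
  have e6 := hu b c hbc
  have c1 := hc a b c d hL hab hac had hbc hbd hcd
  have c2 := hc a c b d (fun x => by rcases hL x with h | h | h | h <;> simp [h]) hac hab had
    hbc.symm hcd hbd
  have c3 := hc a d b c (fun x => by rcases hL x with h | h | h | h <;> simp [h]) had hab hac
    hbd.symm hcd.symm hbc
  rw [c1, hT] at e2
  rw [hT] at e1
  rw [c2] at e4
  rw [c3] at e6
  rw [mul_zero] at e1 e2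
  have h1 : u a = 0 := by linarith
  have h2 : u b = 0 := by linarith
  have h3 : u c = 0 := by linarith
  have h4 : u d = 0 := by linarith
  have h8 : ∀ x, u x = 0 := by
    intro x
    rcases hL x with rfl | rfl | rfl | rfl <;> assumption
  intro i j hij
  have h9 := hu i j hij
  rw [h8, h8, add_zero] at h9
  exact (mul_eq_zero.1 h9).resolve_left hk

/-- From the pairs to everything. -/
lemma all_zero [Fintype L] (f : (L → Bool) → ℚ)
    (hsym : ∀ ε, f (fun x => !ε x) = f ε) (h1 : ∀ ε, mt ε ≤ 1 → f ε = 0)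
    (hz : ∀ ε, 3 ≤ mt ε → 3 ≤ mf ε → f ε = 0)
    (hp : ∀ i j, i ≠ j → f (pr i j) = 0) : ∀ ε, f ε = 0 := by
  have h2 : ∀ ε, mt ε = 2 → f ε = 0 := by
    intro ε h
    obtain ⟨i, j, hij, rfl⟩ := exists_pr h
    exact hp i j hij
  intro ε
  by_cases h3 : mt ε ≤ 1
  · exact h1 ε h3
  · by_cases h4 : mt ε = 2
    · exact h2 ε h4
    · by_cases h5 : mf ε ≤ 1
      · rw [← hsym]
        exact h1 _ (by rwa [mt_not])
      · by_cases h6 : mf ε = 2
        · rw [← hsym]
          exact h2 _ (by rwa [mt_not])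
        · exact hz ε (by omega) (by omega)

/-- The tests with at least three legs on each side. -/
def Gs [Fintype L] (x0 : L) : Finset (Finset L) :=
  (Finset.univ.erase x0).powerset.filter (fun S => 3 ≤ S.card ∧ S.card + 3 ≤ Fintype.card L)

lemma card_Gs [Fintype L] (x0 : L) (k : ℕ) (hk : Fintype.card L = k + 5) :
    (Gs x0).card + (1 + (k + 5) + (k + 5).choose 2) = 2 ^ (k + 4) := by
  have hU : (Finset.univ.erase x0 : Finset L).card = k + 4 := by
    rw [Finset.card_erase_of_mem (Finset.mem_univ _), Finset.card_univ, hk]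
    rfl
  have h1 : (Gs x0).card = ∑ S ∈ (Finset.univ.erase x0 : Finset L).powerset,
      (fun m => if 3 ≤ m ∧ m + 3 ≤ k + 5 then 1 else 0) S.card := by
    rw [Gs, Finset.card_filter, hk]
  rw [h1, Finset.sum_powerset_apply_card (fun m => if 3 ≤ m ∧ m + 3 ≤ k + 5 then 1 else 0)
    (x := (Finset.univ.erase x0 : Finset L)), hU]
  have h2 : ∑ m ∈ Finset.range (k + 4 + 1), (k + 4).choose m •
      (fun m => if 3 ≤ m ∧ m + 3 ≤ k + 5 then 1 else 0) m =
      ∑ m ∈ Finset.range k, (k + 4).choose (m + 3) := by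
    rw [Finset.sum_range_succ, Finset.sum_range_succ]
    have h3 : k + 3 = (((k + 1) + 1) + 1) := rfl
    rw [h3, Finset.sum_range_succ', Finset.sum_range_succ', Finset.sum_range_succ']
    simp only [smul_eq_mul]
    rw [if_neg (by omega), if_neg (by omega), if_neg (by omega), if_neg (by omega),
      if_neg (by omega)]
    simp only [mul_zero, add_zero]
    refine Finset.sum_congr rfl fun m hm => ?_
    rw [Finset.mem_range] at hm
    rw [if_pos (by omega), mul_one]
  rw [h2]
  have h4 := Nat.sum_range_choose (k + 4)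
  rw [Finset.sum_range_succ, Finset.sum_range_succ] at h4
  have h3 : k + 3 = (((k + 1) + 1) + 1) := rfl
  rw [h3, Finset.sum_range_succ', Finset.sum_range_succ', Finset.sum_range_succ'] at h4
  rw [← h4]
  have h5 : (k + 5).choose 2 = (k + 4).choose 1 + (k + 4).choose 2 := Nat.choose_succ_succ _ _
  have h6 : (k + 4).choose (k + 1 + 1 + 1) = k + 4 := by
    have := Nat.choose_succ_self_right (k + 3)
    exact this
  have h7 : (k + 4).choose (k + 4) = 1 := Nat.choose_self _
  simp only [zero_add, Nat.reduceAdd, Nat.choose_zero_right]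
  rw [h5, h6, h7, Nat.choose_one_right]
  ring

end DG0

open DG0 in
/-- Block DG0. -/
theorem dg0 (hF : EForm) : DG0 := by
  intro _ hS hI hK L hL hn
  have := Fintype.ofFinite L
  have hA : AC 0 (Nat.card L) = (2 ^ Nat.card L + 1) / 2 - 1 - (Nat.card L).choose 2 := by
    unfold AC
    rw [if_pos rfl, zero_add, one_mul]
  have hcard : Nat.card L = Fintype.card L := Nat.card_eq_fintype_card
  -- the vanishing of all divisors is enough
  have key : ∀ lam : F L →ₗ[ℚ] ℚ, (∀ x, P 0 x → lam x = 0) →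
      (∀ ε, lam (dl (pt2g 0 0 ε) 1) = 0) →
      ∀ (V E : Type) (G : Gr V E L), G.deg = 1 → lam (dl G 1) = 0 := by
    intro lam hP hz
    refine (hI 0 L lam hL hn hP ?_).1 (Nat.zero_le _)
    refine hF 0 L lam hL hP (fun h => absurd h (lt_irrefl _)) ?_
    intro h hh ε
    obtain rfl : h = 0 := Nat.le_zero.1 hh
    exact hz ε
  have hsym : ∀ lam : F L →ₗ[ℚ] ℚ, (∀ x, P 0 x → lam x = 0) →
      ∀ ε, lam (dl (pt2g 0 0 (fun x => !ε x)) 1) = lam (dl (pt2g 0 0 ε) 1) :=
    fun lam hP ε => (hS 0 L lam hL hP 0 le_rfl ε).1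
  have hone : ∀ lam : F L →ₗ[ℚ] ℚ, (∀ x, P 0 x → lam x = 0) →
      ∀ ε : L → Bool, mt ε ≤ 1 → lam (dl (pt2g 0 0 ε) 1) = 0 := by
    intro lam hP ε h
    refine (hS 0 L lam hL hP 0 le_rfl ε).2 rfl ?_
    rw [Nat.card_eq_fintype_card, Fintype.card_subtype]
    exact h
  by_cases h3 : Fintype.card L = 3
  · refine ⟨Empty, inferInstance, Empty.elim, by simp, ?_⟩
    intro lam hP _
    refine key lam hP fun ε => ?_
    have h := mt_add_mf ε
    by_cases h1 : mt ε ≤ 1
    · exact hone lam hP ε h1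
    · rw [← hsym lam hP]
      exact hone lam hP _ (by rw [mt_not]; omega)
  have hR : ∀ lam : F L →ₗ[ℚ] ℚ, (∀ x, P 0 x → lam x = 0) →
      (∀ ε : L → Bool, 3 ≤ mt ε → 3 ≤ mf ε → lam (dl (pt2g 0 0 ε) 1) = 0) →
      ∃ (c : ℚ) (u : L → ℚ), c ≠ 0 ∧ ∀ i j, i ≠ j →
        c * lam (dl (pt2g 0 0 (pr i j)) 1) = u i + u j := by
    intro lam hP hz
    exact pair_rel (fun ε => lam (dl (pt2g 0 0 ε) 1)) (by omega) (hsym lam hP) hz
      (hK L lam (by omega) hP)
  by_cases h4 : Fintype.card L = 4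
  · obtain ⟨e⟩ : Nonempty (L ≃ Fin 4) := ⟨Fintype.equivFinOfCardEq h4⟩
    have hne : ∀ i j : Fin 4, i ≠ j → e.symm i ≠ e.symm j := fun i j h => e.symm.injective.ne h
    refine ⟨Unit, inferInstance, fun _ => ⟨Fin 2, Fin 1, pt2g 0 0 (pr (e.symm 0) (e.symm 1))⟩,
      ?_, ?_⟩
    · rw [hA, hcard, h4]
      decide
    · intro lam hP hT
      have hz : ∀ ε : L → Bool, 3 ≤ mt ε → 3 ≤ mf ε → lam (dl (pt2g 0 0 ε) 1) = 0 := by
        intro ε h5 h6
        have := mt_add_mf ε
        omega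
      refine key lam hP (all_zero (fun ε => lam (dl (pt2g 0 0 ε) 1)) (hsym lam hP) (hone lam hP) hz
        (pairs_four (fun ε => lam (dl (pt2g 0 0 ε) 1)) (e.symm 0) (e.symm 1) (e.symm 2) (e.symm 3)
          ?_ (hne _ _ (by decide)) (hne _ _ (by decide)) (hne _ _ (by decide))
          (hne _ _ (by decide)) (hne _ _ (by decide)) (hne _ _ (by decide)) (hsym lam hP)
          (hR lam hP hz) (hT ())))
      intro x
      obtain ⟨i, rfl⟩ := e.symm.surjective x
      fin_cases i <;> simp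
  · obtain ⟨k, hk⟩ : ∃ k, Fintype.card L = k + 5 := ⟨Fintype.card L - 5, by omega⟩
    obtain ⟨e⟩ : Nonempty (L ≃ Fin (k + 5)) := ⟨Fintype.equivFinOfCardEq hk⟩
    have hne : ∀ i j : Fin (k + 5), i.1 ≠ j.1 → e.symm i ≠ e.symm j :=
      fun i j h => e.symm.injective.ne (fun h' => h (congrArg Fin.val h'))
    obtain ⟨a, b, c, hab, hac, hbc⟩ : ∃ a b c : L, a ≠ b ∧ a ≠ c ∧ b ≠ c :=
      ⟨e.symm ⟨0, by omega⟩, e.symm ⟨1, by omega⟩, e.symm ⟨2, by omega⟩,
        hne _ _ (by simp), hne _ _ (by simp), hne _ _ (by simp)⟩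
    refine ⟨{S // S ∈ Gs a} ⊕ L, inferInstance,
      Sum.elim (fun S => ⟨Fin 2, Fin 1, pt2g 0 0 (fun x => decide (x ∈ S.1))⟩)
        (fun x => ⟨Fin 2, Fin 1, pt2g 0 0 (tp a b c x)⟩), ?_, ?_⟩
    · rw [hA, hcard, Fintype.card_sum, Fintype.card_coe, hk]
      have h5 := card_Gs a k hk
      have h6 : 2 ^ (k + 5) = 2 * 2 ^ (k + 4) := by ring
      omega
    · intro lam hP hT
      have hz1 : ∀ ε : L → Bool, ε a = false → 3 ≤ mt ε → 3 ≤ mf ε →
          lam (dl (pt2g 0 0 ε) 1) = 0 := by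
        intro ε ha h5 h6
        have h7 := mt_add_mf ε
        have hmem : Finset.univ.filter (fun x => ε x = true) ∈ Gs a := by
          unfold Gs
          rw [Finset.mem_filter, Finset.mem_powerset]
          refine ⟨?_, h5, ?_⟩
          · intro x hx
            rw [Finset.mem_filter] at hx
            refine Finset.mem_erase.2 ⟨?_, Finset.mem_univ _⟩
            rintro rfl
            rw [ha] at hx
            exact absurd hx.2 (by simp)
          · change mt ε + 3 ≤ _
            omega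
        have h8 := hT (inl ⟨_, hmem⟩)
        have h9 : (fun x => decide (x ∈ Finset.univ.filter (fun x => ε x = true))) = ε := by
          funext x
          simp
        simp only [Sum.elim_inl] at h8
        rwa [h9] at h8
      have hz : ∀ ε : L → Bool, 3 ≤ mt ε → 3 ≤ mf ε → lam (dl (pt2g 0 0 ε) 1) = 0 := by
        intro ε h5 h6
        cases ha : ε a
        · exact hz1 ε ha h5 h6
        · rw [← hsym lam hP]
          exact hz1 _ (by simp [ha]) (by rwa [mt_not]) (by rwa [mf_not])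
      exact key lam hP (all_zero (fun ε => lam (dl (pt2g 0 0 ε) 1)) (hsym lam hP) (hone lam hP) hz
        (pairs_five (fun ε => lam (dl (pt2g 0 0 ε) 1)) a b c hab hac hbc (hR lam hP hz)
          (fun x => hT (inr x))))

end Vale.Agent.P273.C1
end
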