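import Vale.Agent.P273.C1.AB12
import Vale.Agent.P273.C1.DE

/-!
Degree one, genus one: if the boundary classes vanish then everything vanishes.
-/

noncomputable section
namespace Vale.Agent.P273.C1

section
open Finset MvPolynomial Vale.Agent.P273.Alg

/-- The exponent function of one psi class. -/
def dlt {P : Type} [DecidableEq P] (x : P) : P → ℕ := fun y => if y = x then 1 else 0

lemma dlt_inj {P : Type} [DecidableEq P] {x y : P} (h : (dlt x : P → ℕ) = dlt y) : x = y := by
  have := congrFun h x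
  by_contra hne
  simp [dlt, hne] at this

lemma sum_dlt {P : Type} [Fintype P] [DecidableEq P] (x : P) : ∑ y, dlt x y = 1 := by
  simp [dlt]

lemma eq_zero_of_sum {P : Type} [Fintype P] {c : P → ℕ} (h : ∑ y, c y = 0) : c = fun _ => 0 := by
  funext y
  exact (Finset.sum_eq_zero_iff.mp h) y (Finset.mem_univ y)

lemma eq_dlt_of_sum {P : Type} [Fintype P] [DecidableEq P] {c : P → ℕ} (h : ∑ y, c y = 1) :
    ∃ x, c = dlt x := by
  obtain ⟨x, hx⟩ : ∃ x, c x ≠ 0 := by
    by_contra hcon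
    push Not at hcon
    simp [hcon] at h
  refine ⟨x, ?_⟩
  rw [← Finset.add_sum_erase _ _ (Finset.mem_univ x)] at h
  have h1 : ∑ y ∈ Finset.univ.erase x, c y = 0 := by omega
  funext y
  unfold dlt
  by_cases hy : y = x
  · rw [if_pos hy, hy]
    omega
  · rw [if_neg hy]
    exact (Finset.sum_eq_zero_iff.mp h1) y (Finset.mem_erase.mpr ⟨hy, Finset.mem_univ y⟩)

lemma Psi_one {P : Type} [Fintype P] [DecidableEq P] {χ : ℚ}
    {Φ : (P → ℕ) → MvPolynomial ℕ ℚ →ₗ[ℚ] ℚ} (hΦ : Fun P χ 1 Φ) (w : P → ℕ → ℚ)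
    (hw : ∀ p, w p 0 = 1) (q : MvPolynomial ℕ ℚ) :
    Psi 1 Φ w q = Φ (fun _ => 0) (ex 1 * q) + ∑ x, w x 1 * Φ (dlt x) (ex 1 * q) := by
  have hsub : insert (fun _ => 0) (univ.image (dlt (P := P))) ⊆ box P 1 := by
    intro c hc
    rw [mem_box]
    rw [mem_insert, mem_image] at hc
    intro p
    rcases hc with rfl | ⟨x, _, rfl⟩
    · exact Nat.zero_lt_two
    · unfold dlt
      split_ifs <;> omega
  unfold Psi
  rw [← sum_subset hsub, sum_insert, sum_image]
  · congr 1
    · rw [prod_eq_one (fun p _ => hw p), one_mul]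
    · apply sum_congr rfl
      intro x _
      congr 1
      rw [prod_eq_single x]
      · simp [dlt]
      · intro b _ hb
        simp [dlt, hb, hw]
      · intro h
        exact absurd (mem_univ x) h
  · intro x _ y _ hxy
    exact dlt_inj hxy
  · rw [mem_image]
    rintro ⟨x, _, hx⟩
    have := congrFun hx x
    simp [dlt] at this
  · intro c _ hc
    have h3 : Φ c (ex 1 * q) = 0 := by
      apply hΦ.zero_of_Ge (Ge.zero id _)
      by_contra h4
      apply hc
      rw [mem_insert, mem_image]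
      have h5 : ∑ y, c y = 0 ∨ ∑ y, c y = 1 := by omega
      rcases h5 with h5 | h5
      · left; exact eq_zero_of_sum h5
      · right
        obtain ⟨x, hx⟩ := eq_dlt_of_sum h5
        exact ⟨x, mem_univ x, hx.symm⟩
    rw [h3, mul_zero]

/-- The local computation: genus one, at least one point, degree one. -/
theorem vanish_one_n {P : Type} [Fintype P] {χ : ℚ} (hχ : χ = Fintype.card P)
    {Φ : (P → ℕ) → MvPolynomial ℕ ℚ →ₗ[ℚ] ℚ}
    (hΦ : Fun P χ 1 Φ) (hrel : RelM 1 1 Φ) (c : P → ℕ) (q : MvPolynomial ℕ ℚ) : Φ c q = 0 := by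
  classical
  have hdeg : ∀ c e, ∑ y, c y + Finsupp.weight id e ≠ 1 → Φ c (monomial e 1) = 0 := hΦ.deg
  have e0 : (1 : MvPolynomial ℕ ℚ) = monomial 0 1 := rfl
  have e1 : (X 1 : MvPolynomial ℕ ℚ) = monomial (Finsupp.single 1 1) 1 := rfl
  have e11 : (X 1 * X 1 : MvPolynomial ℕ ℚ) = monomial (Finsupp.single 1 2) 1 := by
    rw [e1, monomial_mul, one_mul, ← Finsupp.single_add]
  have hz1 : Φ (fun _ => 0) 1 = 0 := by
    rw [e0]
    apply hdeg
    simp
  have hzX : ∀ x, Φ (dlt x) (X 1) = 0 := by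
    intro x
    rw [e1]
    apply hdeg
    rw [Finsupp.weight_single, sum_dlt]
    simp
  have hzXX : ∀ c : P → ℕ, Φ c (X 1 * X 1) = 0 := by
    intro c
    rw [e11]
    apply hdeg
    rw [Finsupp.weight_single]
    simp
  have d0 : ∀ c, Φ c (X 0) = χ * Φ c 1 := by
    intro c
    have := hΦ.X0 (c := c) (isHomogeneous_one ℕ ℚ)
    rw [mul_one] at this
    rw [this]
    norm_num
  have d1 : ∀ c, Φ c (X 0 * X 1) = (χ + 1) * Φ c (X 1) := by
    intro c
    rw [hΦ.X0 (isHomogeneous_X ℚ 1)]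
    norm_num
  have f1 : ex 1 = 1 + (60 : ℚ) • X 1 := by rw [ex_one_eq, smul_eq_C_mul]
  have f2 : ex 1 * Xs 1 (Bc 1) = X 0 + (84 : ℚ) • X 1 + (60 : ℚ) • (X 0 * X 1) +
      (60 * 84 : ℚ) • (X 1 * X 1) := by
    rw [ex_one_eq]
    unfold Xs
    rw [sum_range_succ, sum_range_succ, sum_range_zero, Bc_one, Bc_one, b1_zero, b1_one]
    simp only [smul_eq_C_mul, map_mul, map_one]
    ring
  have hw : ∀ A : P → ℕ, (∀ p, A p ≤ 1) → ∀ p, Bc (A p) 0 = 1 := by
    intro A hA p
    have h1 := hA p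
    have h2 : A p = 0 ∨ A p = 1 := by omega
    rcases h2 with h2 | h2
    · rw [h2, Bc_zero, b0_zero]
    · rw [h2, Bc_one, b1_zero]
  have hle : ∀ x p : P, dlt x p ≤ 1 := by
    intro x p
    unfold dlt
    split_ifs <;> omega
  -- the relations
  have s1 : ∀ x, 60 * Φ (fun _ => 0) (X 1) - 60 * ∑ y, Φ (dlt y) 1 + 144 * Φ (dlt x) 1 = 0 := by
    intro x
    have s := hrel (dlt x) 0 (by intro p; have := hle x p; omega) (by simp)
      (by rw [sum_dlt]; simp) (by rw [sum_dlt]; simp)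
    rw [Psi_one hΦ _ (hw _ (hle x)), Multiset.map_zero, Multiset.prod_zero, mul_one, f1] at s
    simp only [map_add, map_smul, smul_eq_mul, hz1, hzX, mul_zero, add_zero, zero_add] at s
    have h1 : ∀ y, Bc (dlt x y) 1 * Φ (dlt y) 1 =
        -60 * Φ (dlt y) 1 + (if y = x then 144 * Φ (dlt x) 1 else 0) := by
      intro y
      by_cases h : y = x
      · rw [if_pos h, h]
        have : dlt x x = 1 := by simp [dlt]
        rw [this, Bc_one, b1_one]
        ring
      · rw [if_neg h]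
        have : dlt x y = 0 := by simp [dlt, h]
        rw [this, Bc_zero, b0_one]
        ring
    rw [sum_congr rfl (fun y _ => h1 y), sum_add_distrib, sum_ite_eq' univ x, if_pos (mem_univ x),
      ← mul_sum] at s
    linarith only [s]
  have s2 : (144 + 60 * χ) * Φ (fun _ => 0) (X 1) - 60 * χ * ∑ y, Φ (dlt y) 1 = 0 := by
    have s := hrel (fun _ => 0) {1} (by simp) (by simp) (by simp) (by simp)
    rw [Psi_one hΦ _ (hw _ (fun _ => Nat.zero_le 1)), Multiset.map_singleton,
      Multiset.prod_singleton, f2] at s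
    simp only [map_add, map_smul, smul_eq_mul, hzXX, d0, d1, hz1, hzX, mul_zero, add_zero,
      zero_add, Bc_zero, b0_one] at s
    rw [← mul_sum, ← mul_sum] at s
    linarith only [s]
  have hS : ∑ y, Φ (dlt y) 1 = 0 := by
    have h1 : ∑ x : P, (60 * Φ (fun _ => 0) (X 1) - 60 * ∑ y, Φ (dlt y) 1 + 144 * Φ (dlt x) 1) =
        0 := sum_eq_zero fun x _ => s1 x
    rw [sum_add_distrib, sum_const, card_univ, nsmul_eq_mul, ← hχ, ← mul_sum] at h1
    have h2 : (20736 : ℚ) * ∑ y, Φ (dlt y) 1 = 0 := by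
      linear_combination (144 + 60 * χ) * h1 - 60 * χ * s2
    linarith only [h2]
  rw [hS] at s2
  have hχ0 : 0 ≤ χ := by rw [hχ]; exact Nat.cast_nonneg _
  have hx : Φ (fun _ => 0) (X 1) = 0 := by
    have h1 : (144 + 60 * χ) * Φ (fun _ => 0) (X 1) = 0 := by linarith only [s2]
    rcases mul_eq_zero.mp h1 with h | h
    · linarith only [h, hχ0]
    · exact h
  have hy : ∀ x, Φ (dlt x) 1 = 0 := by
    intro x
    have := s1 x
    rw [hS, hx] at this
    linarith only [this]
  apply hΦ.zero_of_reduced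
  intro c e he
  by_cases hd : ∑ y, c y + Finsupp.weight id e = 1
  · have h5 : ∑ y, c y = 0 ∨ ∑ y, c y = 1 := by omega
    rcases h5 with h5 | h5
    · rw [eq_zero_of_sum h5, wt_one he (by omega), ← e1]
      exact hx
    · obtain ⟨x, hx'⟩ := eq_dlt_of_sum h5
      rw [hx', wt_zero he (by omega), ← e0]
      exact hy x
  · exact hdeg c e hd

end

open Sum Vale.Agent.P273
open scoped Classical

/-- A graph without edges has one vertex, which carries everything. -/
lemma one_vertex {V E L : Type} [Finite L] {g : ℕ} {G : Gr V E L} (hV : G.Valid g)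
    (hE : ¬ Nonempty E) : ∃ v, (∀ u, u = v) ∧ (G.dec v).1 = g ∧ G.degAt v = G.deg ∧
      G.nv v = Nat.card L := by
  have hfV := hV.1
  have hfE := hV.2.1
  have := Fintype.ofFinite V
  have hEe : IsEmpty E := not_nonempty_iff.mp hE
  obtain ⟨⟨v0⟩, hconn, hgen, -⟩ := hV.2.2.1
  have hv : ∀ v, v = v0 := by
    intro v
    rcases hconn {v0} (fun e => (hEe.false e).elim) with h | h
    · exact absurd h (Set.singleton_nonempty v0).ne_empty
    · have : v ∈ ({v0} : Set V) := by rw [h]; exact Set.mem_univ v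
      simpa using this
  let φ : V ≃ Fin 1 :=
    { toFun := fun _ => 0
      invFun := fun _ => v0
      left_inv := fun v => (hv v).symm
      right_inv := fun _ => Subsingleton.elim _ _ }
  have hc : Nat.card V = 1 := by rw [Nat.card_congr φ]; simp
  have hc' : Nat.card E = 0 := Nat.card_of_isEmpty
  have hsum : ∀ f : V → ℕ, ∑ v, f v = f v0 := by
    intro f
    rw [← Equiv.sum_comp φ.symm]
    simp [φ]
  rw [finsum_eq_sum_of_fintype, hsum, hc, hc'] at hgen
  have h1 := sum_degAt G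
  have h2 := sum_nv G
  rw [hsum, hc'] at h1 h2
  exact ⟨v0, hv, by omega, by omega, by omega⟩

/-- Block DI for `g = 1`. -/
theorem di1 (L : Type) (lam : F L →ₗ[ℚ] ℚ) (hL : Finite L) (_hn : 0 < Nat.card L)
    (hP : ∀ x, P 1 x → lam x = 0)
    (hE : ∀ (V E : Type) (G : Gr V E L), Nonempty E → G.deg = 1 → lam (dl G 1) = 0) :
    ∀ (V E : Type) (G : Gr V E L), G.deg = 1 → lam (dl G 1) = 0 := by
  intro V E G hd
  by_cases hne : Nonempty E
  · exact hE V E G hne hd
  by_cases hV : G.Valid 1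
  · have hfV := hV.1
    have hfE := hV.2.1
    obtain ⟨v, hv, h1, h2, h3⟩ := one_vertex hV hne
    rw [hd] at h2
    have hst := hV.2.2.1.2.2.2 v
    have := Fintype.ofFinite (G.Fl v)
    have hFun := PhiV_Fun hP G v (G.degAt v)
    have hRel := PhiV_RelM hP G v hst (by
      intro V' E' G' _ _ h4 h5
      apply hE V' E' G' _ (h4.trans hd)
      by_contra h6
      rw [not_nonempty_iff] at h6
      have h7 : Nat.card E' = 0 := Nat.card_of_isEmpty
      omega)
    have hG : lam (dl G 1) = PhiV lam G v (G.degAt v) (fun f => (G.hf f.1).2)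
        (MvPolynomial.monomial (Multiset.toFinsupp (G.dec v).2) 1) := by
      rw [PhiV_monomial, if_pos, Multiset.toFinsupp_toMultiset, G.star_self]
      rw [weight_toFinsupp, Gr.degAt, finsum_eq_sum_of_fintype, add_comm]
    rw [hG]
    have e1 : (2 * ((G.dec v).1 : ℚ) - 2 + G.nv v) = Fintype.card (G.Fl v) := by
      have : G.nv v = Fintype.card (G.Fl v) := Nat.card_eq_fintype_card
      rw [h1, this]
      norm_num
    have key : ∀ D, D = 1 → ∀ γ, γ = 1 →
        ∀ Φ : (G.Fl v → ℕ) → MvPolynomial ℕ ℚ →ₗ[ℚ] ℚ,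
        Alg.Fun (G.Fl v) (2 * ((G.dec v).1 : ℚ) - 2 + G.nv v) D Φ → Alg.RelM γ D Φ →
          ∀ c q, Φ c q = 0 := by
      rintro D rfl γ rfl Φ hF hR c q
      exact vanish_one_n e1 hF hR c q
    exact key _ h2 _ h1 _ hFun hRel _ _
  · exact fl_not_valid hP hV 1

end Vale.Agent.P273.C1
end
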