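import Vale.Agent.P273.Bdl.B1

/-!
Codegree one: definitions and the statements of the blocks.
Everything here is a definition.
-/

noncomputable section
namespace Vale.Agent.P273.C1
open Sum Vale.Agent.P273
open scoped Classical

variable {V E L T V' E' : Type}

/-! ### Graphs -/

/-- The attaching map `A` of a finite connected graph with a special vertex `v0` of valence `k`; all
other vertices have valence 3. -/
structure Gd (k : ℕ) (A : (E × Bool) ⊕ L → V) (v0 : V) : Prop where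
  fV : Finite V
  fE : Finite E
  root : Nat.card {y // A y = v0} = k
  cub : ∀ v, v ≠ v0 → Nat.card {y // A y = v} = 3
  conn : ∀ s : Set V, (∀ e, A (inl (e, true)) ∈ s ↔ A (inl (e, false)) ∈ s) → s = ∅ ∨ s = Set.univ

/-- Isomorphism of attaching maps with special vertices. -/
def IsoR (A : (E × Bool) ⊕ L → V) (v0 : V) (A' : (E' × Bool) ⊕ L → V') (v0' : V') : Prop :=
  ∃ (φ : V ≃ V') (ρ : E × Bool ≃ E' × Bool), (∀ e, (ρ (e, true)).1 = (ρ (e, false)).1) ∧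
    (∀ y, A' (y.map ρ id) = φ (A y)) ∧ φ v0 = v0'

/-- The move at an edge that does not touch the special vertex. -/
def MvR (A A' : (E × Bool) ⊕ L → V) (v0 : V) : Prop :=
  ∃ e : E, A (inl (e, true)) ≠ A (inl (e, false)) ∧ A (inl (e, true)) ≠ v0 ∧
    A (inl (e, false)) ≠ v0 ∧
    A' (inl (e, true)) = A (inl (e, true)) ∧ A' (inl (e, false)) = A (inl (e, false)) ∧
    ∀ y, A y = A' y ∨ ((A y = A (inl (e, true)) ∨ A y = A (inl (e, false))) ∧
      (A' y = A (inl (e, true)) ∨ A' y = A (inl (e, false))))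

/-- Move the half-edges `y`, `z` to a new vertex `none`, joined to `v0` by a new edge `none`. -/
def sp (A : (E × Bool) ⊕ L → V) (v0 : V) (y z : (E × Bool) ⊕ L) :
    (Option E × Bool) ⊕ L → Option V :=
  Sum.elim (fun u => u.1.elim (if u.2 then none else some v0)
      (fun e => if inl (e, u.2) = y ∨ inl (e, u.2) = z then none else some (A (inl (e, u.2)))))
    (fun x => if inr x = y ∨ inr x = z then none else some (A (inr x)))

/-- Functions on graphs with one four-valent vertex that are invariant under isomorphism and moves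
and satisfy Keel's relation. -/
structure W (f : ∀ V E : Type, ((E × Bool) ⊕ L → V) → ℚ) : Prop where
  iso : ∀ (V E V' E' : Type) (A : (E × Bool) ⊕ L → V) (A' : (E' × Bool) ⊕ L → V') (v0 : V)
    (v0' : V'), IsoR A v0 A' v0' → Gd 4 A v0 → f V E A = f V' E' A'
  mv : ∀ (V E : Type) (A A' : (E × Bool) ⊕ L → V) (v0 : V), Gd 4 A v0 → Gd 4 A' v0 →
    MvR A A' v0 → f V E A = f V E A'
  keel : ∀ (V E : Type) (A : (E × Bool) ⊕ L → V) (v0 : V) (a b c d : (E × Bool) ⊕ L), Gd 5 A v0 →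
    A a = v0 → A b = v0 → A c = v0 → A d = v0 → a ≠ b → a ≠ c → a ≠ d → b ≠ c → b ≠ d → c ≠ d →
    f (Option V) (Option E) (sp A v0 a b) + f (Option V) (Option E) (sp A v0 c d) =
      f (Option V) (Option E) (sp A v0 a c) + f (Option V) (Option E) (sp A v0 b d)

/-- A tree with root `v0` of valence `k`, whose `k` branches carry the legs according to `τ`: all
half-edges are coloured, the two sides of an edge have one colour, at a vertex different from the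
root there is only one colour, and at the root all colours are different. -/
structure Ty (k : ℕ) (A : (E × Bool) ⊕ L → V) (v0 : V) (τ : L → Fin k) : Prop where
  gd : Gd k A v0
  tree : Nat.card E + 1 = Nat.card V
  col : ∃ β : (E × Bool) ⊕ L → Fin k, (∀ e, β (inl (e, true)) = β (inl (e, false))) ∧
    (∀ y z, A y = A z → A y ≠ v0 → β y = β z) ∧
    (∀ y z, A y = v0 → A z = v0 → β y = β z → y = z) ∧ ∀ x, β (inr x) = τ x

/-- Half-edges, before and after gluing. -/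
def lpgE (E L T : Type) : ((E ⊕ T) × Bool) ⊕ L ≃ (E × Bool) ⊕ (L ⊕ T × Bool) where
  toFun := Sum.elim (fun y => y.1.elim (fun e => inl (e, y.2)) (fun t => inr (inr (t, y.2))))
    (fun x => inr (inl x))
  invFun := Sum.elim (fun y => inl (inl y.1, y.2)) (Sum.elim inr (fun y => inl (inr y.1, y.2)))
  left_inv := by rintro (⟨e | t, s⟩ | x) <;> rfl
  right_inv := by rintro (⟨e, s⟩ | x | ⟨t, s⟩) <;> rfl

/-- Glue the legs `(t, true)` and `(t, false)` to an edge, for all `t`. -/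
def lpg (A : (E × Bool) ⊕ (L ⊕ T × Bool) → V) : ((E ⊕ T) × Bool) ⊕ L → V :=
  fun y => A (lpgE E L T y)

/-! ### Graph blocks -/

/-- Block D1a. -/
def D1a : Prop := ∀ (k : ℕ) (L : Type) (i j : L) (V E : Type)
  (A : (E × Bool) ⊕ Option {x // x ≠ i ∧ x ≠ j} → V) (v0 : V) (τ : L → Fin k), i ≠ j → τ i = τ j →
  (Ty k (ch i j A) (some v0) τ ↔ Ty k A v0 (Option.elim' (τ i) fun x => τ x.1))

/-- Block D1b. -/
def D1b : Prop := ∀ (k : ℕ) (L : Type) (i j : L) (V E : Type) (A : (E × Bool) ⊕ L → V) (v0 : V),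
  Finite L → Gd k A v0 → i ≠ j → A (inr i) = A (inr j) → A (inr i) ≠ v0 →
  ∃ (V' E' : Type) (A0 : (E' × Bool) ⊕ Option {x // x ≠ i ∧ x ≠ j} → V') (v0' : V'),
    Gd k A0 v0' ∧ IsoR A v0 (ch i j A0) (some v0') ∧ Nat.card E' + 1 = Nat.card E ∧
    Nat.card V' + 1 = Nat.card V

/-- Block D1c: the tree of every type exists. -/
def D1c : Prop := ∀ (k : ℕ) (L : Type) (τ : L → Fin k), Finite L → 3 ≤ k → τ.Surjective →
  ∃ (V E : Type) (A : (E × Bool) ⊕ L → V) (v0 : V), Ty k A v0 τ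

/-- Block D1d: every tree has a type. -/
def D1d : Prop := ∀ (k : ℕ) (L V E : Type) (A : (E × Bool) ⊕ L → V) (v0 : V), Finite L → 3 ≤ k →
  Gd k A v0 → Nat.card E + 1 = Nat.card V → ∃ τ : L → Fin k, τ.Surjective ∧ Ty k A v0 τ

/-- Block D2: trees of one type are equivalent. -/
def D2 : Prop := ∀ (L : Type) (f : ∀ V E : Type, ((E × Bool) ⊕ L → V) → ℚ)
  (V E V' E' : Type) (A : (E × Bool) ⊕ L → V) (v0 : V) (A' : (E' × Bool) ⊕ L → V') (v0' : V')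
  (τ : L → Fin 4), Finite L → τ.Surjective → W f → Ty 4 A v0 τ → Ty 4 A' v0' τ →
  f V E A = f V' E' A'

/-- Block D3a: splitting off two branches at the root. -/
def D3a : Prop := ∀ (L V E : Type) (A : (E × Bool) ⊕ L → V) (v0 : V) (σ : L → Fin 5), Finite L →
  σ.Surjective → Ty 5 A v0 σ → ∃ r : Fin 5 → (E × Bool) ⊕ L, r.Injective ∧ (∀ i, A (r i) = v0) ∧
    ∀ (m : Fin 5 → Fin 4) (i j : Fin 5), m.Surjective → i ≠ j → m i = m j →
      Ty 4 (sp A v0 (r i) (r j)) (some v0) (m ∘ σ)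

/-- Block D3b: gluing legs. -/
def D3b : Prop := ∀ (L T : Type) (f : ∀ V E : Type, ((E × Bool) ⊕ L → V) → ℚ), Finite L →
  Finite T → W f → W (fun (V E : Type) (A : (E × Bool) ⊕ (L ⊕ T × Bool) → V) =>
    f V (E ⊕ T) (lpg A))

/-- Block D4a: every graph of genus `g` is obtained from a tree by gluing `g` pairs of legs. -/
def D4a : Prop := ∀ (k g : ℕ) (L V E : Type) (A : (E × Bool) ⊕ L → V) (v0 : V), Finite L →
  Gd k A v0 → Nat.card E + 1 = g + Nat.card V →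
  ∃ (E0 : Type) (A0 : (E0 × Bool) ⊕ (L ⊕ Fin g × Bool) → V), Gd k A0 v0 ∧
    Nat.card E0 + 1 = Nat.card V ∧ IsoR A v0 (lpg A0) v0

/-- Block D4b: moving a leg along a glued edge (here the tree of type `τ` is one particular
tree). -/
def D4b : Prop := ∀ (L T : Type) (τ : L ⊕ T × Bool → Fin 4) (x : L ⊕ T × Bool) (t : T) (b : Bool),
  Finite L → Finite T → τ.Surjective → x ≠ inr (t, b) → τ x = τ (inr (t, b)) →
  ∃ (V E V' E' : Type) (A : (E × Bool) ⊕ (L ⊕ T × Bool) → V) (v0 : V)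
    (A' : (E' × Bool) ⊕ (L ⊕ T × Bool) → V') (v0' : V'),
    Ty 4 A v0 τ ∧ Ty 4 A' v0' (Function.update τ x (τ (inr (t, !b)))) ∧
      IsoR (lpg A) v0 (lpg A') v0'

/-! ### The functional -/

/-- The graph with decorations `a` at the vertices, and no psi classes. -/
def cgd (a : V → ℕ × Multiset ℕ) (A : (E × Bool) ⊕ L → V) : Gr V E L := ⟨a, fun y => (A y, 0)⟩

/-- Block C1: the move. -/
def C1mv : Prop := ∀ (V E L : Type) (g : ℕ) (lam : F L →ₗ[ℚ] ℚ) (a : V → ℕ × Multiset ℕ)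
  (A A' : (E × Bool) ⊕ L → V) (e : E), Finite V → Finite E → Finite L →
  (∀ x, P g x → lam x = 0) → A (inl (e, true)) ≠ A (inl (e, false)) →
  A' (inl (e, true)) = A (inl (e, true)) → A' (inl (e, false)) = A (inl (e, false)) →
  (∀ y, A y = A' y ∨ ((A y = A (inl (e, true)) ∨ A y = A (inl (e, false))) ∧
      (A' y = A (inl (e, true)) ∨ A' y = A (inl (e, false))))) →
  (∀ b, a (A (inl (e, b))) = (0, 0)) → (∀ b, Nat.card {y // A y = A (inl (e, b))} = 3) →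
  (∀ b, Nat.card {y // A' y = A (inl (e, b))} = 3) → lam (dl (cgd a A) 1) = lam (dl (cgd a A') 1)

/-- Block C2: Keel's relation. -/
def C2keel : Prop := ∀ (V E L : Type) (g : ℕ) (lam : F L →ₗ[ℚ] ℚ) (A : (E × Bool) ⊕ L → V) (v0 : V)
  (a b c d : (E × Bool) ⊕ L), Finite V → Finite E → Finite L →
  (∀ x, P g x → lam x = 0) → Nat.card {y // A y = v0} = 5 →
    A a = v0 → A b = v0 → A c = v0 → A d = v0 → a ≠ b → a ≠ c → a ≠ d → b ≠ c → b ≠ d → c ≠ d →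
    lam (dl (cg (sp A v0 a b)) 1) + lam (dl (cg (sp A v0 c d)) 1) =
      lam (dl (cg (sp A v0 a c)) 1) + lam (dl (cg (sp A v0 b d)) 1)

/-- Kind A: one vertex of genus 0 and valence 4, the others have genus 0 and valence 3, no
decorations. -/
def KindA (G : Gr V E L) : Prop := ∃ v0, G.nv v0 = 4 ∧ (∀ v, G.dec v = (0, 0)) ∧
  (∀ v, v ≠ v0 → G.nv v = 3) ∧ ∀ y, (G.hf y).2 = 0

/-- Kind B: one vertex of genus 1 and valence 1, the others have genus 0 and valence 3, no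
decorations. -/
def KindB (G : Gr V E L) : Prop := ∃ v0, G.nv v0 = 1 ∧ G.dec v0 = (1, 0) ∧
  (∀ v, v ≠ v0 → G.dec v = (0, 0) ∧ G.nv v = 3) ∧ ∀ y, (G.hf y).2 = 0

/-- Block A: reduction to kinds A and B. -/
def AB : Prop := ∀ (g : ℕ) (L : Type) (lam : F L →ₗ[ℚ] ℚ), Finite L → (∀ x, P g x → lam x = 0) →
  (∀ (V E : Type) (G : Gr V E L), G.Valid g → KindA G → lam (dl G 1) = 0) →
  (∀ (V E : Type) (G : Gr V E L), G.Valid g → KindB G → lam (dl G 1) = 0) →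
  ∀ (V E : Type) (G : Gr V E L), G.deg + 4 = 3 * g + Nat.card L → lam (dl G 1) = 0

/-- Block B: all graphs of kind B have the same value. -/
def BB : Prop := ∀ (g : ℕ) (L : Type) (lam : F L →ₗ[ℚ] ℚ), Finite L → (∀ x, P g x → lam x = 0) →
  ∀ (V E V' E' : Type) (G : Gr V E L) (G' : Gr V' E' L), G.Valid g → G'.Valid g → KindB G →
    KindB G' → lam (dl G 1) = lam (dl G' 1)

/-! ### Combinatorics -/

/-- Every label occurs. -/
def Sj {k : ℕ} (α : L → Fin k) (M : Multiset (Fin k × Fin k)) : Prop :=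
  ∀ i, (∃ x, α x = i) ∨ ∃ p ∈ M, p.1 = i ∨ p.2 = i

/-- Rename labels. -/
def mp {k l : ℕ} (m : Fin k → Fin l) (M : Multiset (Fin k × Fin k)) : Multiset (Fin l × Fin l) :=
  M.map (Prod.map m m)

/-- The properties of the values on graphs of kind A: the legs and the pairs of half-edges that
are glued are distributed over the four branches. -/
structure PhiM (L : Type) (g : ℕ) (ψ : (L → Fin 4) → Multiset (Fin 4 × Fin 4) → ℚ) : Prop where
  flip : ∀ α a b M, ψ α ((a, b) ::ₘ M) = ψ α ((b, a) ::ₘ M)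
  perm : ∀ (σ : Fin 4 ≃ Fin 4) α M, ψ (σ ∘ α) (mp σ M) = ψ α M
  slideL : ∀ α x a b M, ψ (Function.update α x a) ((a, b) ::ₘ M) =
    ψ (Function.update α x b) ((a, b) ::ₘ M)
  slideH : ∀ α a b c M, ψ α ((a, b) ::ₘ (a, c) ::ₘ M) = ψ α ((a, b) ::ₘ (b, c) ::ₘ M)
  keel : ∀ (α : L → Fin 5) (M : Multiset (Fin 5 × Fin 5)), M.card = g → Sj α M →
    ψ (![0, 0, 1, 2, 3] ∘ α) (mp ![0, 0, 1, 2, 3] M) +
      ψ (![0, 1, 2, 2, 3] ∘ α) (mp ![0, 1, 2, 2, 3] M) =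
    ψ (![0, 1, 0, 2, 3] ∘ α) (mp ![0, 1, 0, 2, 3] M) +
      ψ (![0, 1, 2, 1, 3] ∘ α) (mp ![0, 1, 2, 1, 3] M)

/-- Graph part (assembled from D1-D4). -/
def GraphPart : Prop := ∀ (g : ℕ) (L : Type), Finite L →
  ∃ X : (L → Fin 4) → Multiset (Fin 4 × Fin 4) → Σ V E : Type, ((E × Bool) ⊕ L → V),
    ∀ f : (∀ V E : Type, ((E × Bool) ⊕ L → V) → ℚ), W f →
      PhiM L g (fun α M => if M.card = g ∧ Sj α M then f (X α M).1 (X α M).2.1 (X α M).2.2 else 0) ∧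
      ∀ (V E : Type) (A : (E × Bool) ⊕ L → V) (v0 : V), Gd 4 A v0 →
        Nat.card E + 1 = g + Nat.card V → ∃ α M, M.card = g ∧ Sj α M ∧
          f V E A = f (X α M).1 (X α M).2.1 (X α M).2.2

/-- The rank of the second cohomology of the moduli space of stable curves (Arbarello-Cornalba). -/
def AC (g n : ℕ) : ℕ :=
  if g = 0 then ((g + 1) * 2 ^ n + 1) / 2 - 1 - n.choose 2
  else if g = 1 then ((g + 1) * 2 ^ n + 1) / 2 - n
  else if g = 2 then ((g + 1) * 2 ^ n + 1) / 2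
  else ((g + 1) * 2 ^ n + 1) / 2 + 1

/-- Combinatorial part (assembled from E0-E4). -/
def CombPart : Prop := ∀ (g : ℕ) (L : Type), Finite L →
  ∃ (I : Type) (_ : Fintype I) (t : I → (L → Fin 4) × Multiset (Fin 4 × Fin 4)),
    Fintype.card I + min g 1 ≤ AC g (Nat.card L) ∧
    ∀ ψ, PhiM L g ψ → (∀ i, ψ (t i).1 (t i).2 = 0) → ∀ α M, M.card = g → Sj α M → ψ α M = 0

/-- The label `i` occurs. -/
def Hit {k : ℕ} (i : Fin k) (α : L → Fin k) (M : Multiset (Fin k × Fin k)) : Prop :=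
  (∃ x, α x = i) ∨ ∃ p ∈ M, p.1 = i ∨ p.2 = i

/-- One link between the branches 0 and 1; the new labels are 0 (the two linked branches), 1, 2. -/
def fG (ψ : (L → Fin 4) → Multiset (Fin 4 × Fin 4) → ℚ) (α : L → Fin 3)
    (M : Multiset (Fin 3 × Fin 3)) : ℚ := ψ (![0, 2, 3] ∘ α) ((0, 1) ::ₘ mp ![0, 2, 3] M)

/-- The branches 0, 1, 2 are linked (label 0), the branch 3 gets the label 1. -/
def fJ (ψ : (L → Fin 4) → Multiset (Fin 4 × Fin 4) → ℚ) (α : L → Fin 2)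
    (M : Multiset (Fin 2 × Fin 2)) : ℚ := ψ (![0, 3] ∘ α) ((0, 1) ::ₘ (1, 2) ::ₘ mp ![0, 3] M)

/-- The branches 0, 1 are linked (label 0) and the branches 2, 3 are linked (label 1). -/
def fH (ψ : (L → Fin 4) → Multiset (Fin 4 × Fin 4) → ℚ) (α : L → Fin 2)
    (M : Multiset (Fin 2 × Fin 2)) : ℚ := ψ (![0, 2] ∘ α) ((0, 1) ::ₘ (2, 3) ::ₘ mp ![0, 2] M)

/-- All branches are linked. -/
def fQ (g : ℕ) (ψ : (L → Fin 4) → Multiset (Fin 4 × Fin 4) → ℚ) : ℚ :=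
  ψ (fun _ => 0) ((0, 1) ::ₘ (1, 2) ::ₘ (2, 3) ::ₘ Multiset.replicate (g - 3) (0, 0))

/-- The relations between `ψ`, `G`, `J`, `H`, `Q`. -/
structure KRel (L : Type) (g : ℕ) (ψ : (L → Fin 4) → Multiset (Fin 4 × Fin 4) → ℚ)
    (G : (L → Fin 3) → Multiset (Fin 3 × Fin 3) → ℚ)
    (J H : (L → Fin 2) → Multiset (Fin 2 × Fin 2) → ℚ) (Q : ℚ) : Prop where
  flip : ∀ α a b M, ψ α ((a, b) ::ₘ M) = ψ α ((b, a) ::ₘ M)
  flipG : ∀ α a b M, G α ((a, b) ::ₘ M) = G α ((b, a) ::ₘ M)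
  flipJ : ∀ α a b M, J α ((a, b) ::ₘ M) = J α ((b, a) ::ₘ M)
  flipH : ∀ α a b M, H α ((a, b) ::ₘ M) = H α ((b, a) ::ₘ M)
  perm : ∀ (σ : Fin 4 ≃ Fin 4) α M, ψ (σ ∘ α) (mp σ M) = ψ α M
  symG : ∀ α M, G (![0, 2, 1] ∘ α) (mp ![0, 2, 1] M) = G α M
  symH : ∀ α M, H (![1, 0] ∘ α) (mp ![1, 0] M) = H α M
  link : ∀ α a b M, a ≠ b → ∃ r : Fin 4 → Fin 3, r.Surjective ∧ r a = 0 ∧ r b = 0 ∧
    ψ α ((a, b) ::ₘ M) = G (r ∘ α) (mp r M)
  GJ1 : ∀ α M, G α ((0, 1) ::ₘ M) = J (![0, 0, 1] ∘ α) (mp ![0, 0, 1] M)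
  GJ2 : ∀ α M, G α ((0, 2) ::ₘ M) = J (![0, 1, 0] ∘ α) (mp ![0, 1, 0] M)
  GH : ∀ α M, G α ((1, 2) ::ₘ M) = H (![0, 1, 1] ∘ α) (mp ![0, 1, 1] M)
  JQ : ∀ α M, M.card + 3 = g → J α ((0, 1) ::ₘ M) = Q
  HQ : ∀ α M, M.card + 3 = g → H α ((0, 1) ::ₘ M) = Q
  /-- `G(r; p+q, s) + ψ(r̂, p, q, s) = G(r+p; q, s) + G(r+q; p, s)` -/
  K1 : ∀ (β : L → Fin 4) N, N.card + 1 = g → Hit 1 β N → Hit 2 β N → Hit 3 β N →
    G (![0, 1, 1, 2] ∘ β) (mp ![0, 1, 1, 2] N) + ψ β ((0, 0) ::ₘ N) =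
      G (![0, 0, 1, 2] ∘ β) (mp ![0, 0, 1, 2] N) + G (![0, 1, 0, 2] ∘ β) (mp ![0, 1, 0, 2] N)
  /-- labels `0 = r`, `1 = r'`, `2 = p`:
  `G(r'; r̂, p) + G(r; r̂', p) = 2 J(r+r'; p)` -/
  K3 : ∀ (β : L → Fin 3) N, N.card + 2 = g → Hit 2 β N →
    G (![1, 0, 2] ∘ β) ((1, 1) ::ₘ mp ![1, 0, 2] N) + G β ((1, 1) ::ₘ N) =
      2 * J (![0, 0, 1] ∘ β) (mp ![0, 0, 1] N)
  /-- labels `0 = r`, `1 = r'`, `2 = p`:
  `G(r'; r̂, p) + H(r, r'+p) = H(r+p, r') + J(r+r'; p)` -/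
  K4 : ∀ (β : L → Fin 3) N, N.card + 2 = g → Hit 2 β N →
    G (![1, 0, 2] ∘ β) ((1, 1) ::ₘ mp ![1, 0, 2] N) + H (![0, 1, 1] ∘ β) (mp ![0, 1, 1] N) =
      H (![0, 1, 0] ∘ β) (mp ![0, 1, 0] N) + J (![0, 0, 1] ∘ β) (mp ![0, 0, 1] N)
  /-- labels `0 = r`, `1 = p`, `2 = q`: `G(r̂; p, q) + J(r; p+q) = J(r+p; q) + J(r+q; p)` -/
  K5 : ∀ (β : L → Fin 3) N, N.card + 2 = g → Hit 1 β N → Hit 2 β N →
    G β ((0, 0) ::ₘ N) + J (![0, 1, 1] ∘ β) (mp ![0, 1, 1] N) =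
      J (![0, 0, 1] ∘ β) (mp ![0, 0, 1] N) + J (![0, 1, 0] ∘ β) (mp ![0, 1, 0] N)
  /-- labels `0 = r`, `1 = r'`: `H(r̂, r') + J(r; r̂') = 2 Q` -/
  K6 : ∀ (β : L → Fin 2) N, N.card + 3 = g →
    H β ((0, 0) ::ₘ N) + J β ((1, 1) ::ₘ N) = 2 * Q

/-- Block E0. -/
def E0 : Prop := ∀ (L : Type) (g : ℕ) (ψ : (L → Fin 4) → Multiset (Fin 4 × Fin 4) → ℚ), Finite L →
  PhiM L g ψ → KRel L g ψ (fG ψ) (fJ ψ) (fH ψ) (fQ g ψ)

/-- The combinatorial statement in genus `g`. -/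
def CombAt (g : ℕ) : Prop := ∀ L : Type, Finite L →
  ∃ (I : Type) (_ : Fintype I) (t : I → (L → Fin 4) × Multiset (Fin 4 × Fin 4)),
    Fintype.card I + min g 1 ≤ AC g (Nat.card L) ∧
    ∀ ψ, PhiM L g ψ → (∀ i, ψ (t i).1 (t i).2 = 0) → ∀ α M, M.card = g → Sj α M → ψ α M = 0

/-- Blocks E1 (genus 0), E2 (genus 1), E3 (genus 2), E4 (genus at least 3). -/
def E1 : Prop := CombAt 0
/-- Genus one. -/
def E2 : Prop := E0 → CombAt 1
/-- Genus two. -/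
def E3 : Prop := E0 → CombAt 2
/-- Genus at least three. -/
def E4 : Prop := E0 → ∀ g, 3 ≤ g → CombAt g

/-! ### Local lemmas for block A -/

/-- Block A1: a vertex of genus 1 and valence 2 in degree 1. -/
def AB1 : Prop := ∀ (P : Type) [Fintype P] (Φ : (P → ℕ) → MvPolynomial ℕ ℚ →ₗ[ℚ] ℚ),
  Fintype.card P = 2 → Alg.Fun P 2 1 Φ → Alg.RelM 1 1 Φ → ∀ c q, Φ c q = 0

/-- Block A2: a vertex of genus 2 and valence 0 in degree 2. -/
def AB2 : Prop := ∀ (P : Type) [Fintype P] (Φ : (P → ℕ) → MvPolynomial ℕ ℚ →ₗ[ℚ] ℚ),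
  Fintype.card P = 0 → Alg.Fun P 2 2 Φ → Alg.RelM 2 2 Φ → ∀ c q, Φ c q = 0

end Vale.Agent.P273.C1
end
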