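import Vale.Agent.P273.C1.Core
import Vale.Agent.P273.C1.DDefs
import Vale.Agent.P273.C1.RDefs

/-! The common form of the two bounds. -/

noncomputable section
namespace Vale.Agent.P273.C1
open Sum Vale.Agent.P273
open scoped Classical

/-- From tests to the dimension bound. -/
theorem bound_of_tests {g d n m : ℕ} {I : Type} [Fintype I] (D : I → DG (Q.Lg n))
    (hI : Fintype.card I ≤ m)
    (hD : ∀ s : Q.Fn (Q.Lg n), Q.Pix g d s →
        (∀ i, s (D i).V (D i).E (D i).G.dec (D i).G.hf = 0) → s = 0)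
    (k : ℕ) (s : Fin k → Q.Fn (Q.Lg n))
    (hs : ∀ i, Q.Pix g d (s i)) (hli : LinearIndependent ℚ s) :
    k ≤ m ∧ (k = m → ∀ t : Q.Fn (Q.Lg n), Q.Pix g d t → ∃ c : Fin k → ℚ, t = ∑ i, c i • s i) := by
  refine ⟨(few D hD k s hs hli).trans hI, ?_⟩
  intro hk t ht
  by_contra hcon
  have h3 : LinearIndependent ℚ (Fin.cons t s : Fin (k + 1) → Q.Fn (Q.Lg n)) := by
    rw [linearIndependent_finCons]
    refine ⟨hli, ?_⟩
    intro hmem
    rw [Submodule.mem_span_range_iff_exists_fun] at hmem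
    obtain ⟨c, hc⟩ := hmem
    exact hcon ⟨c, hc.symm⟩
  have h4 := (few D hD (k + 1) _ (Fin.cases ht hs) h3).trans hI
  omega

/-- Degree one. -/
theorem degree_one {g : ℕ} (hg : DegAt g) (n : ℕ) (h : 2 < 2 * g + n) (k : ℕ)
    (s : Fin k → Q.Fn (Q.Lg n)) (hs : ∀ i, Q.Pix g 1 (s i)) (hli : LinearIndependent ℚ s) :
    k ≤ AC g n ∧ (k = AC g n → ∀ t : Q.Fn (Q.Lg n), Q.Pix g 1 t →
      ∃ c : Fin k → ℚ, t = ∑ i, c i • s i) := by
  have hL := (card_Lg n).1
  obtain ⟨I, hI, D, h1, h2⟩ := hg (Q.Lg n) hL (by rw [(card_Lg n).2]; exact h)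
  rw [(card_Lg n).2] at h1
  refine bound_of_tests D h1 ?_ k s hs hli
  intro s hs h3
  have h4 := h2 (evl s) (fun x hx => evl_P hs hx) (fun i => by rw [evl_dl, h3, mul_zero])
  funext V E a f
  change s V E a f = 0
  by_contra hne
  have h5 : Q.Valid a f g 1 := by
    by_contra hv
    exact hne (hs.1.1 _ _ _ _ hv)
  rw [cValid_iff] at h5
  have h6 := h4 V E ⟨a, f⟩ h5.2
  rw [evl_dl, one_mul] at h6
  exact hne h6

/-- The combinatorial part in all genera. -/
theorem combPart (e0 : E0) (e1 : E1) (e2 : E2) (e3 : E3) (e4 : E4) : CombPart := by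
  intro g L hL
  rcases Nat.lt_or_ge g 3 with h | h
  · interval_cases g
    · exact e1 L hL
    · exact e2 e0 L hL
    · exact e3 e0 L hL
  · exact e4 e0 g h L hL

/-- Degree one in all genera. -/
theorem degAt (de : DE) (ds : DS) (di : DI) (dk : DK) (d0 : DG0) (d1 : DG1) (d2 : DG2)
    (d3 : DG3) (g : ℕ) : DegAt g := by
  rcases Nat.lt_or_ge g 3 with h | h
  · interval_cases g
    · exact d0 de ds di dk
    · exact d1 de ds di
    · exact d2 de ds di
  · exact d3 de ds g h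

end Vale.Agent.P273.C1
end
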