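import Vale.Agent.P273.C1.R1
import Vale.Agent.P273.C1.R1t
import Vale.Agent.P273.C1.R2
import Vale.Agent.P273.C1.R3

/-!
Blocks R1 and R3, unconditional.
-/

noncomputable section
namespace Vale.Agent.P273.Q

/-- Block R1. -/
theorem r1 : R1 := Vale.Agent.P273.C1.R1B.r1_of
  (fun r u _ _ _ _ hu hs => Vale.Agent.P273.C1.R1T.tr_res r u hu hs)

/-- Block R3, unconditional. -/
theorem r3_unc : R3 := r3 r1 Vale.Agent.P273.C1.R2B.r2

end Vale.Agent.P273.Q
end
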